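import Crest.Agent.R124.Amp
import Crest.Agent.R124.VN1a

/-!
# Row 78 (Kadison–Kastler): amplifications of von Neumann algebras
-/

set_option autoImplicit false
set_option linter.unusedSectionVars false

open scoped InnerProductSpace Matrix

noncomputable section

namespace Crest.Agent.R78

open Crest.Agent.R124

universe u

variable {H : Type u} [NormedAddCommGroup H] [InnerProductSpace ℂ H] [CompleteSpace H]

/-- The commutant of a set of operators and their adjoints, as a von Neumann algebra. -/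
def centVN (s : Set (H →L[ℂ] H)) : VonNeumannAlgebra H where
  toStarSubalgebra := StarSubalgebra.centralizer ℂ s
  centralizer_centralizer' := by
    change Set.centralizer (Set.centralizer (Set.centralizer (s ∪ star s))) =
      Set.centralizer (s ∪ star s)
    exact Set.centralizer_centralizer_centralizer _

lemma mem_centVN {s : Set (H →L[ℂ] H)} {z : H →L[ℂ] H} :
    z ∈ centVN s ↔ ∀ g ∈ s, g * z = z * g ∧ star g * z = z * star g :=
  StarSubalgebra.mem_centralizer_iff ℂ

lemma mem_of_comm (P : VonNeumannAlgebra H) (x : H →L[ℂ] H)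
    (h : ∀ y ∈ P.commutant, y * x = x * y) : x ∈ P := vn1_mem_of_comm P x h

lemma comm_of_mem {P : VonNeumannAlgebra H} {x y : H →L[ℂ] H} (hx : x ∈ P)
    (hy : y ∈ P.commutant) : x * y = y * x := vn1_comm_of_mem P hx hy

lemma mem_commutant_of {P : VonNeumannAlgebra H} {y : H →L[ℂ] H}
    (h : ∀ x ∈ P, x * y = y * x) : y ∈ P.commutant :=
  VonNeumannAlgebra.mem_commutant_iff.2 h

lemma isClosed_vn (M : VonNeumannAlgebra H) : IsClosed (M : Set (H →L[ℂ] H)) := by
  rw [← M.centralizer_centralizer]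
  exact Set.isClosed_centralizer _

instance vnClosed (M : VonNeumannAlgebra H) :
    IsClosed (M.toStarSubalgebra : Set (H →L[ℂ] H)) := isClosed_vn M

variable (ι : Type) [Fintype ι] [DecidableEq ι]

/-- `M ⊗ B(ℂ^ι)`: operator matrices with entries in `M`. -/
def matVN (M : VonNeumannAlgebra H) : VonNeumannAlgebra (Amp ι H) :=
  centVN {X | ∃ y ∈ M.commutant, X = diagOp ι y}

/-- `M ⊗ 1`: diagonal copies of the elements of `M`. -/
def diagVN (M : VonNeumannAlgebra H) : VonNeumannAlgebra (Amp ι H) :=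
  (matVN ι M.commutant).commutant

variable {ι}

lemma ent_diagOp_mul (T : H →L[ℂ] H) (X : Amp ι H →L[ℂ] Amp ι H) (i j : ι) :
    ent (diagOp ι T * X) i j = T * ent X i j := by
  ext z; simp [ent_apply]

lemma ent_mul_diagOp (T : H →L[ℂ] H) (X : Amp ι H →L[ℂ] Amp ι H) (i j : ι) :
    ent (X * diagOp ι T) i j = ent X i j * T := by
  conv_lhs => rw [← matOp_ent X, matOp_mul_diagOp, ent_matOp]
  rfl

lemma ent_ext {X Y : Amp ι H →L[ℂ] Amp ι H} (h : ∀ i j, ent X i j = ent Y i j) : X = Y := by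
  rw [← matOp_ent X, ← matOp_ent Y]
  congr 1
  exact Matrix.ext h

lemma mem_matVN {M : VonNeumannAlgebra H} {X : Amp ι H →L[ℂ] Amp ι H} :
    X ∈ matVN ι M ↔ ∀ i j, ent X i j ∈ M := by
  rw [matVN, mem_centVN]
  constructor
  · intro h i j
    refine mem_of_comm M _ fun y hy => ?_
    have := congrArg (fun Z => ent Z i j) (h _ ⟨y, hy, rfl⟩).1
    simpa only [ent_diagOp_mul, ent_mul_diagOp] using this
  · rintro h _ ⟨y, hy, rfl⟩
    have key : ∀ y ∈ M.commutant, diagOp ι y * X = X * diagOp ι y := fun y hy =>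
      ent_ext fun i j => by
        rw [ent_diagOp_mul, ent_mul_diagOp]; exact (comm_of_mem (h i j) hy).symm
    exact ⟨key y hy, by rw [← diagOp_star]; exact key _ (star_mem hy)⟩

lemma matOp_mem_matVN {M : VonNeumannAlgebra H} {x : Matrix ι ι (H →L[ℂ] H)} :
    matOp x ∈ matVN ι M ↔ ∀ i j, x i j ∈ M := by
  rw [mem_matVN, ent_matOp]

lemma ent_diagOp (T : H →L[ℂ] H) (i j : ι) : ent (diagOp ι T) i j = if i = j then T else 0 := by
  rw [diagOp_eq, ent_matOp, Matrix.diagonal_apply]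

lemma diagOp_mem_matVN {M : VonNeumannAlgebra H} {x : H →L[ℂ] H} (hx : x ∈ M) :
    diagOp ι x ∈ matVN ι M := by
  rw [mem_matVN]
  intro i j
  rw [ent_diagOp]
  split_ifs
  · exact hx
  · exact zero_mem M

lemma mem_diagVN {M : VonNeumannAlgebra H} {X : Amp ι H →L[ℂ] Amp ι H} :
    X ∈ diagVN ι M ↔ ∃ x ∈ M, X = diagOp ι x := by
  rw [diagVN, VonNeumannAlgebra.mem_commutant_iff]
  constructor
  · intro h
    rcases isEmpty_or_nonempty ι with hι | ⟨⟨i₀⟩⟩
    · exact ⟨0, zero_mem M, ent_ext fun i => isEmptyElim i⟩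
    have hs : ∀ i j : ι, matOp (Matrix.single i j (1 : H →L[ℂ] H)) ∈ matVN ι M.commutant := by
      intro i j
      rw [matOp_mem_matVN]
      intro k l
      rw [Matrix.single_apply]
      split_ifs
      · exact one_mem _
      · exact zero_mem _
    have he : ∀ i j k l : ι, (if i = k then ent X j l else 0) =
        (if j = l then ent X k i else 0) := by
      intro i j k l
      have := congrArg (fun Z => ent Z k l) (h _ (hs i j))
      simp only [ent_mul, ent_matOp, Matrix.mul_apply, Matrix.single_apply, ite_and, ite_mul,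
        mul_ite, one_mul, mul_one, zero_mul, mul_zero] at this
      simpa [Finset.sum_ite_eq, Finset.sum_ite_eq'] using this
    refine ⟨ent X i₀ i₀, mem_of_comm M _ fun y hy => ?_, ent_ext fun k l => ?_⟩
    · have := congrArg (fun Z => ent Z i₀ i₀) (h _ (diagOp_mem_matVN hy))
      simpa only [ent_diagOp_mul, ent_mul_diagOp] using this
    · rw [ent_diagOp]
      split_ifs with hkl
      · subst hkl
        simpa using he i₀ k i₀ k
      · simpa [hkl] using he k k k l
  · rintro ⟨x, hx, rfl⟩ Y hY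
    refine ent_ext fun i j => ?_
    rw [ent_diagOp_mul, ent_mul_diagOp]
    exact (comm_of_mem hx (mem_matVN.1 hY i j)).symm

lemma diagOp_mem_diagVN {M : VonNeumannAlgebra H} {x : H →L[ℂ] H} (hx : x ∈ M) :
    diagOp ι x ∈ diagVN ι M := mem_diagVN.2 ⟨x, hx, rfl⟩

lemma commutant_diagVN (M : VonNeumannAlgebra H) :
    (diagVN ι M).commutant = matVN ι M.commutant := by
  rw [diagVN, VonNeumannAlgebra.commutant_commutant]

lemma commutant_matVN (M : VonNeumannAlgebra H) :
    (matVN ι M).commutant = diagVN ι M.commutant := by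
  rw [diagVN, VonNeumannAlgebra.commutant_commutant]

/-- Every element of `M` is within `δ ‖x‖` of an element of `N`. -/
def Near (M N : VonNeumannAlgebra H) (δ : ℝ) : Prop :=
  ∀ x ∈ M, ∃ y ∈ N, ‖x - y‖ ≤ δ * ‖x‖

/-- Two-sided nearness. -/
def Near2 (M N : VonNeumannAlgebra H) (δ : ℝ) : Prop := Near M N δ ∧ Near N M δ

lemma Near2.symm {M N : VonNeumannAlgebra H} {δ : ℝ} (h : Near2 M N δ) : Near2 N M δ :=
  ⟨h.2, h.1⟩

lemma Near.mono {M N : VonNeumannAlgebra H} {δ δ' : ℝ} (h : Near M N δ) (hδ : δ ≤ δ') :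
    Near M N δ' := fun x hx => by
  obtain ⟨y, hy, h⟩ := h x hx
  exact ⟨y, hy, h.trans (by gcongr)⟩

lemma Near.diagVN {M N : VonNeumannAlgebra H} {δ : ℝ} (h : Near M N δ) (hδ : 0 ≤ δ) :
    Near (diagVN ι M) (diagVN ι N) δ := by
  intro X hX
  rcases isEmpty_or_nonempty ι with hι | hι
  · refine ⟨X, mem_diagVN.2 ⟨0, zero_mem N, ent_ext fun i => isEmptyElim i⟩, ?_⟩
    rw [sub_self, norm_zero]; positivity
  obtain ⟨x, hx, rfl⟩ := mem_diagVN.1 hX
  obtain ⟨y, hy, hxy⟩ := h x hx
  refine ⟨_, diagOp_mem_diagVN hy, ?_⟩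
  rw [← diagOp_sub]
  exact (norm_diagOp_le _).trans (hxy.trans (by gcongr; exact norm_le_norm_diagOp x))

lemma Near2.diagVN {M N : VonNeumannAlgebra H} {δ : ℝ} (h : Near2 M N δ) (hδ : 0 ≤ δ) :
    Near2 (diagVN ι M) (diagVN ι N) δ := ⟨h.1.diagVN hδ, h.2.diagVN hδ⟩

variable (ι) in
/-- `M ⊗ B(ℂ^ι) ⊗ 1` on `(H^ι)^ι`; the outer index is the multiplicity. -/
def bigVN (M : VonNeumannAlgebra H) : VonNeumannAlgebra (Amp ι (Amp ι H)) :=
  diagVN ι (matVN ι M)

/-- The vector `∑ √μ_i ξ ⊗ e_i ⊗ e_i`. -/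
def bigVec (μ : ι → ℝ) (ξ : H) : Amp ι (Amp ι H) :=
  ∑ i, inj i (inj i (((√(μ i) : ℝ) : ℂ) • ξ))

lemma bigVec_apply (μ : ι → ℝ) (ξ : H) (j i : ι) :
    bigVec μ ξ j i = if i = j then ((√(μ i) : ℝ) : ℂ) • ξ else 0 := by
  rw [bigVec, amp_sum_apply, Finset.sum_eq_single j]
  · rw [inj_apply, if_pos rfl, inj_apply]
    split_ifs with h
    · rw [h]
    · rfl
  · intro k _ hk; rw [inj_apply, if_neg (Ne.symm hk)]
  · simp

end Crest.Agent.R78
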