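import Crest.Agent.R78.BlockAux

/-!
# Row 78: the block construction (`filt` is in `BlockAux`)
-/

set_option autoImplicit false
set_option linter.unusedSectionVars false
set_option linter.deprecated false

open scoped InnerProductSpace Matrix ComplexConjugate

noncomputable section

namespace Crest.Agent.R78

open Crest.Agent.R124

universe u

lemma blk_den_pos {r a : ℝ} (hr : 0 < r) (ha : a ∈ Set.Icc (0 : ℝ) 2) : 0 < a + r * (2 - a) := by
  obtain ⟨h0, h2⟩ := ha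
  rcases h0.eq_or_lt with rfl | h
  · positivity
  · have : 0 ≤ r * (2 - a) := mul_nonneg hr.le (by linarith)
    linarith

lemma blk_cont_tw {r : ℝ} (hr : 0 < r) : ContinuousOn (tw r) (Set.Icc 0 2) := by
  unfold tw
  exact ContinuousOn.div (by fun_prop) (by fun_prop) fun a ha => (blk_den_pos hr ha).ne'

lemma blk_cont_gf (k : ℕ) {r : ℝ} (hr : 0 < r) : ContinuousOn (gf k r) (Set.Icc 0 2) := by
  unfold gf
  exact ((blk_cont_tw hr).mul (continuousOn_const.sub (blk_cont_tw hr))).pow k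

lemma blk_gf_one (k : ℕ) {a b : ℝ} (ha : 0 < a) (hb : 0 < b) :
    gf k (a / b) 1 = (4 * a * b / (a + b) ^ 2) ^ k := by
  unfold gf tw
  congr 1
  field_simp
  ring

lemma blk_gf_symm (k : ℕ) {a b : ℝ} (ha : 0 < a) (hb : 0 < b) :
    gf k (a / b) 1 = gf k (b / a) 1 := by
  rw [blk_gf_one k ha hb, blk_gf_one k hb ha]
  congr 1
  ring

lemma blk_gf_nonneg (k : ℕ) {a b : ℝ} (ha : 0 < a) (hb : 0 < b) : 0 ≤ gf k (a / b) 1 := by
  rw [blk_gf_one k ha hb]; positivity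

section
variable {H : Type u} [NormedAddCommGroup H] [InnerProductSpace ℂ H] [CompleteSpace H]

lemma blk_cfc_gf {A : H →L[ℂ] H} (hA : IsSelfAdjoint A) (hs : spectrum ℝ A ⊆ Set.Icc 0 2) (k : ℕ)
    {r : ℝ} (hr : 0 < r) : cfc (gf k r) A = (cfc (tw r) A * (2 - cfc (tw r) A)) ^ k := by
  have h1 : ContinuousOn (tw r) (spectrum ℝ A) := (blk_cont_tw hr).mono hs
  have h2 : ContinuousOn (fun a => 2 - tw r a) (spectrum ℝ A) := continuousOn_const.sub h1
  have h3 : cfc (fun a => 2 - tw r a) A = 2 - cfc (tw r) A := by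
    rw [cfc_sub (fun _ => (2 : ℝ)) (tw r) A continuousOn_const h1, cfc_const (2 : ℝ) A hA, map_ofNat]
  rw [← h3, ← cfc_mul _ _ A h1 h2, ← cfc_pow (fun x => tw r x * (2 - tw r x)) k A (h1.mul h2) hA]
  rfl

lemma blk_tw_fix {A : H →L[ℂ] H} (hA : IsSelfAdjoint A) (hs : spectrum ℝ A ⊆ Set.Icc 0 2)
    {r : ℝ} (hr : 0 < r) {ξ : H} (hξ : A ξ = ξ) : cfc (tw r) A ξ = ((tw r 1 : ℝ) : ℂ) • ξ := by
  have h1 : ContinuousOn (tw r) (spectrum ℝ A) := (blk_cont_tw hr).mono hs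
  have h2 : cfc (fun a : ℝ => a + r * (2 - a)) A = A + r • (2 - A) := by
    rw [cfc_add A (fun a : ℝ => a) (fun a => r * (2 - a)), cfc_id' ℝ A, cfc_const_mul r _ A,
      cfc_sub (fun _ => (2 : ℝ)) (fun a : ℝ => a) A, cfc_const (2 : ℝ) A hA, map_ofNat, cfc_id' ℝ A]
  have h3 : cfc (tw r) A * (A + r • (2 - A)) = (2 : ℝ) • A := by
    rw [← h2, ← cfc_mul _ _ A h1, ← cfc_const_mul_id (2 : ℝ) A hA]
    refine cfc_congr fun a ha => ?_
    have := (blk_den_pos hr (hs ha)).ne'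
    simp only [tw]
    field_simp
  have h4 := congrArg (fun T : H →L[ℂ] H => T ξ) h3
  have h5 : (A + r • (2 - A)) ξ = ((1 + r : ℝ) : ℂ) • ξ := by
    rw [← Complex.coe_smul, ContinuousLinearMap.add_apply, ContinuousLinearMap.smul_apply,
      two_sub_apply, hξ]
    push_cast
    module
  simp only [ContinuousLinearMap.mul_apply] at h4
  rw [h5, map_smul, ← Complex.coe_smul, ContinuousLinearMap.smul_apply, hξ] at h4
  have h6 : ((1 + r : ℝ) : ℂ) ≠ 0 := by exact_mod_cast (by positivity : (1 + r : ℝ) ≠ 0)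
  rw [← smul_right_inj h6, h4, smul_smul]
  congr 1
  rw [← Complex.ofReal_mul]
  congr 1
  simp only [tw]
  field_simp
  ring

lemma blk_gf_fix {A : H →L[ℂ] H} (hA : IsSelfAdjoint A) (hs : spectrum ℝ A ⊆ Set.Icc 0 2) (k : ℕ)
    {r : ℝ} (hr : 0 < r) {ξ : H} (hξ : A ξ = ξ) : cfc (gf k r) A ξ = ((gf k r 1 : ℝ) : ℂ) • ξ := by
  rw [blk_cfc_gf hA hs k hr]
  unfold gf
  induction k with
  | zero => simp
  | succ k ih =>
    rw [pow_succ', ContinuousLinearMap.mul_apply, ih, map_smul, ContinuousLinearMap.mul_apply,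
      two_sub_apply, blk_tw_fix hA hs hr hξ, map_sub, map_smul, map_smul, blk_tw_fix hA hs hr hξ]
    push_cast
    module

lemma blk_sum_sq {A : H →L[ℂ] H} {κ : Type} [Fintype κ] (h : κ → ℝ → ℝ)
    (hc : ∀ i, ContinuousOn (h i) (spectrum ℝ A)) {ρ : ℝ} (hρ : 0 ≤ ρ)
    (hb : ∀ a ∈ spectrum ℝ A, ∑ i, h i a ^ 2 ≤ ρ) (η : H) :
    ∑ i, ‖cfc (h i) A η‖ ^ 2 ≤ ρ * ‖η‖ ^ 2 := by
  have h1 : ∀ i, ‖cfc (h i) A η‖ ^ 2 = (⟪η, cfc (fun a => h i a * h i a) A η⟫_ℂ).re := by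
    intro i
    have hsa : IsSelfAdjoint (cfc (h i) A) := cfc_predicate _ _
    rw [cfc_mul _ _ A (hc i) (hc i), ContinuousLinearMap.mul_apply, ← re_inner_self,
      ← ContinuousLinearMap.adjoint_inner_right, hsa.adjoint_eq]
  simp only [h1]
  rw [← Complex.re_sum, ← inner_sum, ← ContinuousLinearMap.sum_apply,
    ← cfc_sum_univ (fun i a => h i a * h i a) A fun i => (hc i).mul (hc i)]
  have h2 : ‖cfc (∑ i, fun a => h i a * h i a) A‖ ≤ ρ := by
    refine norm_cfc_le hρ fun a ha => ?_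
    rw [Finset.sum_apply, Real.norm_eq_abs,
      abs_of_nonneg (Finset.sum_nonneg fun i _ => mul_self_nonneg _)]
    simpa only [sq] using hb a ha
  calc _ ≤ ‖η‖ * ‖cfc (∑ i, fun a => h i a * h i a) A η‖ :=
        (Complex.re_le_norm _).trans (norm_inner_le_norm _ _)
    _ ≤ ‖η‖ * (ρ * ‖η‖) := by
        gcongr
        exact (ContinuousLinearMap.le_opNorm _ _).trans (by gcongr)
    _ = ρ * ‖η‖ ^ 2 := by ring

variable {ι : Type} [Fintype ι] [DecidableEq ι]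

/-- `1 ⊗ a ⊗ b` for a real matrix `a`. -/
def blkJ (a : ι → ι → ℝ) (b : H →L[ℂ] H) : Amp ι (Amp ι H) →L[ℂ] Amp ι (Amp ι H) :=
  diagOp ι (matOp (Matrix.of fun i i' => ((a i i' : ℝ) : ℂ) • b))

lemma blkJ_mem {M : VonNeumannAlgebra H} (a : ι → ι → ℝ) {b : H →L[ℂ] H} (hb : b ∈ M) :
    blkJ a b ∈ bigVN ι M :=
  diagOp_mem_diagVN (matOp_mem_matVN.2 fun _ _ => vn_smul_mem _ hb)

lemma blkJ_apply (a : ι → ι → ℝ) (b : H →L[ℂ] H) (μ : ι → ℝ) (ξ : H) (j i : ι) :
    blkJ a b (bigVec μ ξ) j i = ((√(μ j) * a i j : ℝ) : ℂ) • b ξ := by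
  rw [blkJ, diagOp_apply, matOp_apply, Finset.sum_eq_single j]
  · rw [bigVec_apply, if_pos rfl, Matrix.of_apply, ContinuousLinearMap.smul_apply, map_smul,
      smul_smul, mul_comm, Complex.ofReal_mul]
  · intro i' _ hi'
    rw [bigVec_apply, if_neg hi', map_zero]
  · simp

lemma blkJ_nonneg (w : ι → ℝ) {b : H →L[ℂ] H} (hb : 0 ≤ b) :
    0 ≤ blkJ (fun i i' => w i * w i') b := by
  have h : 0 ≤ matOp (Matrix.of fun i i' => ((w i * w i' : ℝ) : ℂ) • b) := by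
    rw [ContinuousLinearMap.nonneg_iff_isPositive, ContinuousLinearMap.isPositive_iff_complex] at hb ⊢
    intro v
    have key : ⟪matOp (Matrix.of fun i i' => ((w i * w i' : ℝ) : ℂ) • b) v, v⟫_ℂ =
        ⟪b (∑ i, ((w i : ℝ) : ℂ) • v i), ∑ i, ((w i : ℝ) : ℂ) • v i⟫_ℂ := by
      rw [PiLp.inner_apply, inner_sum]
      refine Finset.sum_congr rfl fun i _ => ?_
      rw [matOp_apply, map_sum, sum_inner, sum_inner]
      refine Finset.sum_congr rfl fun i' _ => ?_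
      rw [Matrix.of_apply, ContinuousLinearMap.smul_apply, map_smul, inner_smul_left,
        inner_smul_left, inner_smul_right, Complex.conj_ofReal, Complex.conj_ofReal]
      push_cast
      ring
    rw [key]
    exact hb _
  exact map_nonneg (diagHom (Amp ι H) ι) h

lemma blkJ_norm_le (a : ι → ι → ℝ) {θ : ℝ} (hθ : 0 ≤ θ) (h1 : ∀ i, ∑ j, |a i j| ≤ θ)
    (h2 : ∀ j, ∑ i, |a i j| ≤ θ) : ‖blkJ a (1 : H →L[ℂ] H)‖ ≤ θ := by
  refine (norm_diagOp_le _).trans (ContinuousLinearMap.opNorm_le_bound _ hθ fun v => ?_)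
  refine (pow_le_pow_iff_left₀ (norm_nonneg _) (by positivity) two_ne_zero).1 ?_
  rw [mul_pow, amp_norm_sq, amp_norm_sq]
  have key : ∀ i, ‖matOp (Matrix.of fun i i' => ((a i i' : ℝ) : ℂ) • (1 : H →L[ℂ] H)) v i‖ ^ 2 ≤
      θ * ∑ j, |a i j| * ‖v j‖ ^ 2 := by
    intro i
    rw [matOp_apply]
    have h3 : ‖∑ j, (Matrix.of fun i i' => ((a i i' : ℝ) : ℂ) • (1 : H →L[ℂ] H)) i j (v j)‖ ≤
        ∑ j, |a i j| * ‖v j‖ := by
      refine (norm_sum_le _ _).trans (le_of_eq (Finset.sum_congr rfl fun j _ => ?_))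
      rw [Matrix.of_apply, ContinuousLinearMap.smul_apply, ContinuousLinearMap.one_apply, norm_smul,
        Complex.norm_real, Real.norm_eq_abs]
    have h4 : (∑ j, |a i j| * ‖v j‖) ^ 2 ≤ (∑ j, |a i j|) * ∑ j, |a i j| * ‖v j‖ ^ 2 :=
      Finset.sum_sq_le_sum_mul_sum_of_sq_eq_mul _ (fun _ _ => abs_nonneg _)
        (fun _ _ => by positivity) fun _ _ => by ring
    calc _ ≤ (∑ j, |a i j| * ‖v j‖) ^ 2 := by gcongr
      _ ≤ _ := h4
      _ ≤ _ := by gcongr; exact h1 i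
  calc _ ≤ ∑ i, θ * ∑ j, |a i j| * ‖v j‖ ^ 2 := Finset.sum_le_sum fun i _ => key i
    _ = θ * ∑ j, (∑ i, |a i j|) * ‖v j‖ ^ 2 := by
        rw [← Finset.mul_sum, Finset.sum_comm]
        simp only [Finset.sum_mul]
    _ ≤ θ * ∑ j, θ * ‖v j‖ ^ 2 := by gcongr with j; exact h2 j
    _ = _ := by rw [← Finset.mul_sum]; ring

lemma blk_pow_entry {Ab : Amp ι (Amp ι H) →L[ℂ] Amp ι (Amp ι H)} {T : H →L[ℂ] H} {j i : ι}
    (h : ∀ Θ : Amp ι (Amp ι H), Ab Θ j i = T (Θ j i)) (k : ℕ) (Θ : Amp ι (Amp ι H)) :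
    ((Ab * (2 - Ab)) ^ k) Θ j i = ((T * (2 - T)) ^ k) (Θ j i) := by
  induction k with
  | zero => simp
  | succ k ih =>
    rw [pow_succ', pow_succ', ContinuousLinearMap.mul_apply, ContinuousLinearMap.mul_apply,
      ContinuousLinearMap.mul_apply, ContinuousLinearMap.mul_apply, h, two_sub_apply, two_sub_apply,
      ← ih, ← h (((Ab * (2 - Ab)) ^ k) Θ)]
    rfl

end

theorem block (hEx : RvDExStmt.{u}) (hS : SuppStmt.{u}) (hE : EntryStmt.{u}) (hF : FiltStmt.{u}) :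
    BlockStmt.{u} := by
  intro H _ _ _ M ξ A D hA ι _ _ μ w k θ ρ hμ hw hk hθ hrow hρ
  obtain ⟨Ab, Db, hAb⟩ := hEx _ (bigVN ι M) (bigVec μ ξ)
  obtain ⟨p, hp⟩ := hS _ (bigVN ι M) (bigVec μ ξ)
  refine ⟨p, hp.sep, fun x hx hxs hx1 => ?_⟩
  have hsa := hA.isSelfAdjoint
  have hsp := hA.spectrum_subset
  have hr : ∀ i j, 0 < μ i / μ j := fun i j => div_pos (hμ i) (hμ j)
  have hent := hE H M ξ A D hA ι μ hμ Ab Db hAb
  have hpow : ∀ (Θ : Amp ι (Amp ι H)) (j i : ι),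
      ((Ab * (2 - Ab)) ^ k) Θ j i = cfc (gf k (μ i / μ j)) A (Θ j i) := fun Θ j i => by
    rw [blk_pow_entry (fun Θ => hent Θ j i), blk_cfc_gf hsa hsp k (hr i j)]
  have hx0 : x ≤ 1 := by
    refine hxs.le_algebraMap_norm_self.trans ?_
    rw [← map_one (algebraMap ℝ (H →L[ℂ] H))]
    gcongr
  have hx0' : -x ≤ 1 := by
    refine hxs.neg.le_algebraMap_norm_self.trans ?_
    rw [← map_one (algebraMap ℝ (H →L[ℂ] H)), norm_neg]
    gcongr
  have habs : ∀ i, |w i| = w i ^ 2 := fun i => by rcases hw i with h | h | h <;> rw [h] <;> norm_num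
  have hrow' : ∀ i, ∑ j, |w i * w j * gf k (μ i / μ j) 1| ≤ θ := by
    intro i
    by_cases h0 : w i = 0
    · simp [h0, hθ.le]
    · have h1 : |w i| = 1 := by rcases hw i with h | h | h <;> simp_all
      refine le_of_eq_of_le (Finset.sum_congr rfl fun j _ => ?_) (hrow i h0)
      rw [abs_mul, abs_mul, h1, habs, one_mul, abs_of_nonneg (blk_gf_nonneg k (hμ i) (hμ j))]
  have hg : ‖blkJ (fun i j => w i * w j * gf k (μ i / μ j) 1) (1 : H →L[ℂ] H)‖ ≤ θ := by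
    refine blkJ_norm_le _ hθ.le hrow' fun j => ?_
    refine le_of_eq_of_le (Finset.sum_congr rfl fun i _ => ?_) (hrow' j)
    rw [blk_gf_symm k (hμ i) (hμ j), mul_comm (w i)]
  obtain ⟨t, ht, c, hc, hts, hcs, htn, hcn, htp, htξ, hcξ⟩ := hF _ (bigVN ι M) (bigVec μ ξ) Ab Db hAb
    p hp k hk θ (blkJ (fun i j => w i * w j) (1 + x)) (blkJ (fun i j => w i * w j) (1 - x))
    (blkJ (fun i j => w i * w j * gf k (μ i / μ j) 1) 1) (blkJ_mem _ (add_mem (one_mem _) hx))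
    (blkJ_mem _ (sub_mem (one_mem _) hx)) (blkJ_mem _ (one_mem _))
    (blkJ_nonneg w (neg_le_iff_add_nonneg.1 hx0')) (blkJ_nonneg w (sub_nonneg.2 hx0)) hg (by
      ext j i
      rw [hpow, ContinuousLinearMap.add_apply, PiLp.add_apply, PiLp.add_apply, blkJ_apply,
        blkJ_apply, PiLp.smul_apply, PiLp.smul_apply, blkJ_apply, ← smul_add, map_smul,
        ← ContinuousLinearMap.add_apply, add_add_sub_cancel, ContinuousLinearMap.add_apply,
        ContinuousLinearMap.one_apply, map_add, blk_gf_fix hsa hsp k (hr i j) hA.apply_self.1]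
      push_cast
      module)
  have htξ' : ∀ j i, t (bigVec μ ξ) j i =
      ((√(μ j) * w i * w j : ℝ) : ℂ) • cfc (gf k (μ i / μ j)) A (x ξ) := by
    intro j i
    have h1 := congrArg (fun Θ : Amp ι (Amp ι H) => Θ j i) htξ
    simp only at h1
    rw [hpow, ContinuousLinearMap.sub_apply, PiLp.sub_apply, PiLp.sub_apply, blkJ_apply,
      blkJ_apply, PiLp.smul_apply, PiLp.smul_apply, ← smul_sub, map_smul,
      ← ContinuousLinearMap.sub_apply, add_sub_sub_cancel, ContinuousLinearMap.add_apply,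
      map_add] at h1
    rw [← smul_right_inj (two_ne_zero (α := ℂ)), h1]
    push_cast
    module
  have hsm : ∀ y : Amp ι (Amp ι H) →L[ℂ] Amp ι (Amp ι H), IsSelfAdjoint y → ‖y‖ ≤ θ →
      IsSelfAdjoint (((θ⁻¹ : ℝ) : ℂ) • y) ∧ ‖((θ⁻¹ : ℝ) : ℂ) • y‖ ≤ 1 := by
    intro y hy hyn
    refine ⟨by rw [IsSelfAdjoint, star_smul, hy.star_eq, Complex.star_def, Complex.conj_ofReal], ?_⟩
    rw [norm_smul, Complex.norm_real, Real.norm_eq_abs, abs_of_pos (inv_pos.2 hθ),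
      inv_mul_le_iff₀ hθ, mul_one]
    exact hyn
  refine ⟨((θ⁻¹ : ℝ) : ℂ) • t, vn_smul_mem _ ht, ((θ⁻¹ : ℝ) : ℂ) • c, vn_smul_mem _ hc,
    (hsm t hts htn).1, (hsm c hcs hcn).1, (hsm t hts htn).2, (hsm c hcs hcn).2,
    by rw [smul_mul_assoc, htp], fun j i => ?_, ?_⟩
  · rw [ContinuousLinearMap.smul_apply, PiLp.smul_apply, PiLp.smul_apply, htξ', smul_smul,
      ← Complex.ofReal_mul, div_eq_inv_mul _ θ]
  · have hρ0 : 0 ≤ ρ := by
      have h1 := hρ 0 ⟨le_rfl, by norm_num⟩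
      have h2 : 0 ≤ ρ * θ ^ 2 := le_trans (Finset.sum_nonneg fun i _ => Finset.sum_nonneg fun j _ =>
        mul_nonneg (by positivity) (mul_nonneg (hμ j).le (sq_nonneg _))) h1
      exact nonneg_of_mul_nonneg_left h2 (by positivity)
    have hc1 : ∀ i j, ContinuousOn (tw (μ i / μ j)) (spectrum ℝ A) := fun i j =>
      (blk_cont_tw (hr i j)).mono hsp
    have hc2 : ∀ i j, ContinuousOn (gf k (μ i / μ j)) (spectrum ℝ A) := fun i j =>
      (blk_cont_gf k (hr i j)).mono hsp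
    have hc3 : ∀ i j, ContinuousOn (fun a => (tw (μ i / μ j) a - 1) * gf k (μ i / μ j) a)
        (spectrum ℝ A) := fun i j => ((hc1 i j).sub continuousOn_const).mul (hc2 i j)
    have key := blk_sum_sq (A := A) (fun (q : ι × ι) a => √(μ q.1) * w q.2 * w q.1 / θ *
      ((tw (μ q.2 / μ q.1) a - 1) * gf k (μ q.2 / μ q.1) a))
      (fun q => continuousOn_const.mul (hc3 _ _)) hρ0 (fun a ha => by
        have h1 := hρ a (hsp ha)
        rw [← div_le_iff₀ (by positivity), Finset.sum_comm, Finset.sum_div] at h1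
        rw [Fintype.sum_prod_type]
        refine le_of_eq_of_le (Finset.sum_congr rfl fun j _ => ?_) h1
        rw [Finset.sum_div]
        refine Finset.sum_congr rfl fun i _ => ?_
        rw [mul_pow, div_pow, mul_pow, mul_pow, Real.sq_sqrt (hμ j).le]
        ring) (x ξ)
    refine le_of_eq_of_le ?_ key
    rw [amp_norm_sq, Fintype.sum_prod_type]
    refine Finset.sum_congr rfl fun j _ => ?_
    rw [amp_norm_sq]
    refine Finset.sum_congr rfl fun i _ => ?_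
    congr 2
    rw [cfc_const_mul _ _ A (hc3 i j), cfc_mul (fun a => tw (μ i / μ j) a - 1) _ A
      ((hc1 i j).sub continuousOn_const) (hc2 i j),
      cfc_sub _ (fun _ => (1 : ℝ)) A (hc1 i j) continuousOn_const, cfc_const_one ℝ A, ← Complex.coe_smul,
      ContinuousLinearMap.smul_apply, ContinuousLinearMap.smul_apply, ContinuousLinearMap.smul_apply,
      hcξ, two_sub_apply, ContinuousLinearMap.mul_apply, ContinuousLinearMap.sub_apply,
      ContinuousLinearMap.one_apply]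
    simp only [PiLp.sub_apply, PiLp.smul_apply]
    rw [hent, htξ', map_smul]
    push_cast
    rw [div_eq_inv_mul _ (θ : ℂ)]
    module

end Crest.Agent.R78
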