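import Crest.Agent.R78.RvD

/-!
# Row 78: the filtering lemma and auxiliary facts for the block construction
-/

set_option autoImplicit false
set_option linter.unusedSectionVars false
set_option linter.deprecated false

open scoped InnerProductSpace Matrix ComplexConjugate

noncomputable section

namespace Crest.Agent.R78

open Crest.Agent.R124

universe u

section
variable {H : Type u} [NormedAddCommGroup H] [InnerProductSpace ℂ H] [CompleteSpace H]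

lemma blk_norm_sub_le {a b : H →L[ℂ] H} (ha : 0 ≤ a) (hb : 0 ≤ b) {C : ℝ} (h1 : ‖a‖ ≤ C)
    (h2 : ‖b‖ ≤ C) : ‖a - b‖ ≤ C := by
  have hC : 0 ≤ C := (norm_nonneg _).trans h1
  have hs : IsSelfAdjoint (a - b) := (IsSelfAdjoint.of_nonneg ha).sub (IsSelfAdjoint.of_nonneg hb)
  have h3 : a - b ≤ algebraMap ℝ _ C :=
    (sub_le_self a hb).trans ((CStarAlgebra.norm_le_iff_le_algebraMap a hC ha).1 h1)
  have h4 : algebraMap ℝ _ (-C) ≤ a - b := by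
    rw [map_neg, neg_le, neg_sub]
    exact (sub_le_self b ha).trans ((CStarAlgebra.norm_le_iff_le_algebraMap b hC hb).1 h2)
  rw [← cfc_id ℝ (a - b)]
  refine norm_cfc_le hC fun x hx => ?_
  rw [Real.norm_eq_abs, abs_le]
  exact ⟨(algebraMap_le_iff_le_spectrum hs).1 h4 x hx, (le_algebraMap_iff_spectrum_le hs).1 h3 x hx⟩

lemma blk_half_sa {a b : H →L[ℂ] H} (ha : 0 ≤ a) (hb : 0 ≤ b) :
    IsSelfAdjoint ((2⁻¹ : ℂ) • (a - b)) := by
  have hs : IsSelfAdjoint (a - b) := (IsSelfAdjoint.of_nonneg ha).sub (IsSelfAdjoint.of_nonneg hb)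
  rw [IsSelfAdjoint, star_smul, hs.star_eq]
  simp

lemma blk_half_norm {a b : H →L[ℂ] H} (ha : 0 ≤ a) (hb : 0 ≤ b) {θ : ℝ} (h1 : ‖a‖ ≤ 2 * θ)
    (h2 : ‖b‖ ≤ 2 * θ) : ‖(2⁻¹ : ℂ) • (a - b)‖ ≤ θ := by
  have := blk_norm_sub_le ha hb h1 h2
  rw [norm_smul, norm_inv, Complex.norm_ofNat]
  linarith

end

theorem filt (hEx : RvDExStmt.{u}) (hS : SuppStmt.{u}) (hRN : RNStmt.{u}) (hD : DualStmt.{u}) :
    FiltStmt.{u} := by
  intro H _ _ _ M ξ A D hA p hp k hk θ bp bm g hbp hbm hg hbp0 hbm0 hgθ hsum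
  obtain ⟨A', D', hA'⟩ := hEx H M.commutant ξ
  obtain ⟨p', hp'⟩ := hS H M.commutant ξ
  have step1 : ∀ y ∈ M, 0 ≤ y → ∃ y' ∈ M.commutant, 0 ≤ y' ∧ ‖y'‖ ≤ ‖y‖ ∧
      y' ξ = (2 - A) (y ξ) := by
    intro y hy hy0
    obtain ⟨y', h1, h2, h3, -, h4⟩ := hRN H M.commutant ξ A' D' hA' p' hp' y
      (by rw [VonNeumannAlgebra.commutant_commutant]; exact hy) hy0
    exact ⟨y', h1, h2, h3, h4.trans (hD H M ξ A A' D D' hA hA' y hy)⟩
  have step2 : ∀ y ∈ M, 0 ≤ y → ∃ z ∈ M, 0 ≤ z ∧ z * p = z ∧ z ξ = (A * (2 - A)) (y ξ) := by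
    intro y hy hy0
    obtain ⟨y', h1, h2, -, h4⟩ := step1 y hy hy0
    obtain ⟨z, g1, g2, -, g3, g4⟩ := hRN H M ξ A D hA p hp y' h1 h2
    exact ⟨z, g1, g2, g3, by rw [g4, h4]; rfl⟩
  have iter : ∀ n : ℕ, ∀ y ∈ M, 0 ≤ y →
      ∃ z ∈ M, 0 ≤ z ∧ z * p = z ∧ z ξ = ((A * (2 - A)) ^ (n + 1)) (y ξ) := by
    intro n
    induction n with
    | zero => simpa only [zero_add, pow_one] using step2
    | succ n ih =>
      intro y hy hy0
      obtain ⟨z, h1, h2, -, h4⟩ := ih y hy hy0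
      obtain ⟨z', g1, g2, g3, g4⟩ := step2 z h1 h2
      exact ⟨z', g1, g2, g3, by rw [g4, h4, pow_succ' _ (n + 1)]; rfl⟩
  obtain ⟨n, rfl⟩ : ∃ n, k = n + 1 := ⟨k - 1, by omega⟩
  obtain ⟨yp, hyp, hyp0, hypp, hypξ⟩ := iter n bp hbp hbp0
  obtain ⟨ym, hym, hym0, hymp, hymξ⟩ := iter n bm hbm hbm0
  have hpξ : p ξ = ξ := hp.fix 1 (one_mem _)
  have hs0 : 0 ≤ yp + ym := add_nonneg hyp0 hym0
  have hsp : (yp + ym) * p = yp + ym := by rw [add_mul, hypp, hymp]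
  have hps : p * (yp + ym) = yp + ym := by
    have := congrArg star hsp
    rwa [star_mul, hp.proj.isSelfAdjoint.star_eq, (IsSelfAdjoint.of_nonneg hs0).star_eq] at this
  have hsξ : (yp + ym) ξ = (2 : ℂ) • g ξ := by
    rw [← hsum, ContinuousLinearMap.add_apply, ContinuousLinearMap.add_apply, map_add, hypξ, hymξ]
  have hz : (yp + ym - (2 : ℂ) • (p * g * p)) ξ = 0 := by
    have : p ((yp + ym) ξ) = (yp + ym) ξ := congrArg (fun T : H →L[ℂ] H => T ξ) hps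
    rw [hsξ, map_smul] at this
    rw [ContinuousLinearMap.sub_apply, hsξ, ContinuousLinearMap.smul_apply,
      ContinuousLinearMap.mul_apply, ContinuousLinearMap.mul_apply, hpξ, this, sub_self]
  have hz' := hp.sep _ (sub_mem (add_mem hyp hym)
    (vn_smul_mem 2 (mul_mem (mul_mem hp.mem hg) hp.mem))) hz
  rw [sub_mul, hsp, smul_mul_assoc, mul_assoc _ p p, hp.proj.isIdempotentElem.eq, sub_eq_zero] at hz'
  have hp1 : ‖p‖ ≤ 1 := IsStarProjection.norm_le p hp.proj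
  have hsn : ‖yp + ym‖ ≤ 2 * θ := by
    rw [hz', norm_smul, Complex.norm_ofNat]
    have h1 : ‖p * g * p‖ ≤ ‖p‖ * ‖g‖ * ‖p‖ :=
      (norm_mul_le _ _).trans (by gcongr; exact norm_mul_le _ _)
    have h2 : ‖p‖ * ‖g‖ * ‖p‖ ≤ 1 * θ * 1 := by
      have : 0 ≤ θ := (norm_nonneg _).trans hgθ
      gcongr
    linarith
  have hpn : ‖yp‖ ≤ 2 * θ :=
    (CStarAlgebra.norm_le_norm_of_nonneg_of_le hyp0 (le_add_of_nonneg_right hym0)).trans hsn
  have hmn : ‖ym‖ ≤ 2 * θ :=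
    (CStarAlgebra.norm_le_norm_of_nonneg_of_le hym0 (le_add_of_nonneg_left hyp0)).trans hsn
  obtain ⟨cp, hcp, hcp0, hcpn, hcpξ⟩ := step1 yp hyp hyp0
  obtain ⟨cm, hcm, hcm0, hcmn, hcmξ⟩ := step1 ym hym hym0
  refine ⟨(2⁻¹ : ℂ) • (yp - ym), vn_smul_mem _ (sub_mem hyp hym), (2⁻¹ : ℂ) • (cp - cm),
    vn_smul_mem _ (sub_mem hcp hcm), blk_half_sa hyp0 hym0, blk_half_sa hcp0 hcm0,
    blk_half_norm hyp0 hym0 hpn hmn, blk_half_norm hcp0 hcm0 (hcpn.trans hpn) (hcmn.trans hmn),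
    by rw [smul_mul_assoc, sub_mul, hypp, hymp], ?_, ?_⟩
  · rw [ContinuousLinearMap.smul_apply, smul_smul, mul_inv_cancel₀ two_ne_zero, one_smul,
      ContinuousLinearMap.sub_apply, ContinuousLinearMap.sub_apply, map_sub, hypξ, hymξ]
  · rw [ContinuousLinearMap.smul_apply, ContinuousLinearMap.smul_apply, map_smul,
      ContinuousLinearMap.sub_apply cp, ContinuousLinearMap.sub_apply yp, map_sub, hcpξ, hcmξ]

end Crest.Agent.R78
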