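import Crest.Agent.R78.Defs

/-!
# Row 78: the catalyst (pure real analysis)
-/

set_option autoImplicit false

noncomputable section

namespace Crest.Agent.R78

open Finset

/-- `cosh (u / 2) ^ (-2 k)`. -/
def catG (k : ℕ) (u : ℝ) : ℝ := (1 / Real.cosh (u / 2) ^ 2) ^ k

theorem catG_nonneg (k : ℕ) (u : ℝ) : 0 ≤ catG k u := by
  unfold catG; positivity

theorem catG_le_of_abs (k : ℕ) {u v : ℝ} (h : |v| ≤ |u|) : catG k u ≤ catG k v := by
  unfold catG
  have h1 : Real.cosh (v / 2) ≤ Real.cosh (u / 2) := by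
    rw [Real.cosh_le_cosh, abs_div, abs_div]
    exact div_le_div_of_nonneg_right h (abs_nonneg _)
  have h2 := Real.cosh_pos (v / 2)
  gcongr

theorem catG_neg (k : ℕ) (u : ℝ) : catG k (-u) = catG k u := by
  unfold catG; rw [neg_div, Real.cosh_neg]

theorem catG_zero (k : ℕ) : catG k 0 = 1 := by simp [catG]

theorem catG_add_le (k : ℕ) {u v : ℝ} (hu : 0 ≤ u) (hv : 0 ≤ v) :
    catG k (u + v) ≤ catG k u * catG k v := by
  unfold catG
  rw [← mul_pow, div_mul_div_comm, one_mul, ← mul_pow]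
  have h1 : Real.cosh (u / 2) * Real.cosh (v / 2) ≤ Real.cosh ((u + v) / 2) := by
    rw [add_div, Real.cosh_add]
    have := mul_nonneg (Real.sinh_nonneg_iff.2 (by positivity : 0 ≤ u / 2))
      (Real.sinh_nonneg_iff.2 (by positivity : 0 ≤ v / 2))
    linarith
  have h2 := mul_pos (Real.cosh_pos (u / 2)) (Real.cosh_pos (v / 2))
  gcongr

theorem catG_le_inv {k : ℕ} (hk : 1 ≤ k) {u : ℝ} (hu : 0 < u) : catG k u ≤ 1 / u := by
  unfold catG
  have h0 : u / 2 ≤ Real.sinh (u / 2) := Real.self_le_sinh_iff.2 (by positivity)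
  have h1 : u ≤ Real.cosh (u / 2) ^ 2 := by
    rw [Real.cosh_sq']
    nlinarith [sq_nonneg (u / 2 - 1)]
  have h2 : 1 ≤ Real.cosh (u / 2) ^ 2 := one_le_pow₀ (Real.one_le_cosh _)
  calc (1 / Real.cosh (u / 2) ^ 2) ^ k ≤ (1 / Real.cosh (u / 2) ^ 2) ^ 1 :=
        pow_le_pow_of_le_one (by positivity) ((div_le_one (by positivity)).2 h2) hk
    _ ≤ 1 / u := by rw [pow_one]; gcongr

theorem catG_ge (k : ℕ) (u : ℝ) : 1 - k * u ^ 2 / 4 ≤ catG k u := by
  unfold catG
  have h1 : Real.cosh (u / 2) ^ 2 ≤ Real.exp (u ^ 2 / 4) := by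
    have := Real.cosh_le_exp_half_sq (u / 2)
    calc Real.cosh (u / 2) ^ 2 ≤ Real.exp ((u / 2) ^ 2 / 2) ^ 2 := by
          have := Real.cosh_pos (u / 2)
          gcongr
      _ = Real.exp (u ^ 2 / 4) := by rw [← Real.exp_nat_mul]; congr 1; push_cast; ring
  have h2 : Real.exp (-(u ^ 2 / 4)) ≤ 1 / Real.cosh (u / 2) ^ 2 := by
    rw [Real.exp_neg, ← one_div]
    have := Real.cosh_pos (u / 2)
    gcongr
  calc 1 - k * u ^ 2 / 4 ≤ Real.exp (k * -(u ^ 2 / 4)) := by
        have := Real.add_one_le_exp (k * -(u ^ 2 / 4))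
        linarith
    _ = Real.exp (-(u ^ 2 / 4)) ^ k := Real.exp_nat_mul _ _
    _ ≤ _ := by gcongr

theorem cat_gf_eq (k : ℕ) {a : ℝ} (h0 : 0 < a) (h2 : a < 2) (v : ℝ) :
    gf k (Real.exp v) a = catG k (Real.log ((2 - a) / a) + v) := by
  unfold gf catG tw
  congr 1
  set u := Real.log ((2 - a) / a) + v with hu
  have hpos : 0 < (2 - a) / a := div_pos (by linarith) h0
  have he : Real.exp (u / 2) ^ 2 = (2 - a) / a * Real.exp v := by
    rw [← Real.exp_nat_mul, show ((2 : ℕ) : ℝ) * (u / 2) = u by push_cast; ring, hu, Real.exp_add,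
      Real.exp_log hpos]
  have he' : Real.exp v * (2 - a) = a * Real.exp (u / 2) ^ 2 := by
    rw [he]; field_simp
  rw [he', Real.cosh_eq, Real.exp_neg]
  have := Real.exp_pos (u / 2)
  field_simp
  ring

theorem cat_tw_mem {r a : ℝ} (hr : 0 < r) (ha : a ∈ Set.Icc (0 : ℝ) 2) :
    0 ≤ tw r a ∧ tw r a ≤ 2 := by
  obtain ⟨h0, h2⟩ := ha
  have h3 : 0 ≤ r * (2 - a) := mul_nonneg hr.le (by linarith)
  have hd : 0 < a + r * (2 - a) := by
    rcases h0.eq_or_lt with h | h
    · rw [← h]; linarith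
    · linarith
  unfold tw
  refine ⟨by positivity, ?_⟩
  rw [div_le_iff₀ hd]; linarith

theorem cat_gf_nonneg (k : ℕ) {r a : ℝ} (hr : 0 < r) (ha : a ∈ Set.Icc (0 : ℝ) 2) :
    0 ≤ gf k r a := by
  obtain ⟨h0, h2⟩ := cat_tw_mem hr ha
  exact pow_nonneg (mul_nonneg h0 (by linarith)) _

theorem cat_one_sub_mul_pow (k : ℕ) {y : ℝ} (h0 : 0 ≤ y) (h1 : y ≤ 1) :
    (1 - y) * y ^ k ≤ 1 / (k + 1) := by
  have h : ((k : ℝ) + 1) * y ^ k ≤ ∑ i ∈ range (k + 1), y ^ i := by
    have : ∑ _i ∈ range (k + 1), y ^ k ≤ ∑ i ∈ range (k + 1), y ^ i :=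
      sum_le_sum fun i hi => pow_le_pow_of_le_one h0 h1 (by have := mem_range.1 hi; omega)
    simpa using this
  have h2 : (1 - y) * ∑ i ∈ range (k + 1), y ^ i = 1 - y ^ (k + 1) := mul_neg_geom_sum y (k + 1)
  have h3 : 0 ≤ y ^ (k + 1) := by positivity
  rw [le_div_iff₀ (by positivity)]
  have h4 := mul_le_mul_of_nonneg_left h (sub_nonneg.2 h1)
  nlinarith

theorem cat_sq_le (k : ℕ) {r a : ℝ} (hr : 0 < r) (ha : a ∈ Set.Icc (0 : ℝ) 2) :
    ((tw r a - 1) * gf k r a) ^ 2 ≤ gf k r a / (k + 1) := by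
  obtain ⟨h0, h2⟩ := cat_tw_mem hr ha
  have hy0 : 0 ≤ tw r a * (2 - tw r a) := mul_nonneg h0 (by linarith)
  have hy1 : tw r a * (2 - tw r a) ≤ 1 := by nlinarith [sq_nonneg (tw r a - 1)]
  have h := cat_one_sub_mul_pow k hy0 hy1
  have hg := cat_gf_nonneg k hr ha
  have e : ((tw r a - 1) * gf k r a) ^ 2 =
      ((1 - tw r a * (2 - tw r a)) * (tw r a * (2 - tw r a)) ^ k) * gf k r a := by
    unfold gf; ring
  rw [e, div_eq_mul_one_div, mul_comm (gf k r a)]
  exact mul_le_mul_of_nonneg_right h hg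

theorem cat_gf_zero {k : ℕ} (hk : 1 ≤ k) (r : ℝ) : gf k r 0 = 0 := by
  simp [gf, tw, show k ≠ 0 by omega]

theorem cat_gf_two {k : ℕ} (hk : 1 ≤ k) (r : ℝ) : gf k r 2 = 0 := by
  have : tw r 2 = 2 := by unfold tw; norm_num
  simp [gf, this, show k ≠ 0 by omega]

/-- Equally spaced points: upper bound. -/
theorem cat_upper (k : ℕ) {ε : ℝ} (hε : 0 < ε) (x : ℝ) (D : ℕ) :
    ∑ i ∈ range D, catG k (x + ε * i) ≤ 2 * ∑ j ∈ range D, catG k (ε * j) := by
  classical
  have hex : ∃ n : ℕ, D ≤ n ∨ 0 ≤ x + ε * n := ⟨D, Or.inl le_rfl⟩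
  set n := Nat.find hex with hn
  have hnD : n ≤ D := Nat.find_min' hex (Or.inl le_rfl)
  have hlt : ∀ i < n, x + ε * i < 0 := fun i hi => by
    have := Nat.find_min hex hi
    push Not at this
    exact this.2
  obtain ⟨p, hp⟩ := Nat.exists_eq_add_of_le hnD
  have h1 : ∑ i ∈ range n, catG k (x + ε * i) ≤ ∑ j ∈ range D, catG k (ε * j) := by
    rw [← sum_range_reflect]
    refine le_trans (sum_le_sum fun j hj => ?_)
      (sum_le_sum_of_subset_of_nonneg (range_subset_range.2 hnD) fun _ _ _ => catG_nonneg _ _)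
    have hj' := mem_range.1 hj
    have h := hlt (n - 1) (by omega)
    have e : ((n - 1 - j : ℕ) : ℝ) = ((n - 1 : ℕ) : ℝ) - j := by
      rw [Nat.cast_sub (by omega)]
    have hj0 : 0 ≤ ε * j := by positivity
    refine catG_le_of_abs k ?_
    rw [e, abs_of_nonneg hj0, abs_of_nonpos (by nlinarith)]
    nlinarith
  have h2 : ∑ j ∈ range p, catG k (x + ε * ((n + j : ℕ) : ℝ)) ≤
      ∑ j ∈ range D, catG k (ε * j) := by
    refine le_trans (sum_le_sum fun j hj => ?_)
      (sum_le_sum_of_subset_of_nonneg (range_subset_range.2 (by omega : p ≤ D))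
        fun _ _ _ => catG_nonneg _ _)
    have hj' := mem_range.1 hj
    have h : 0 ≤ x + ε * n := (Nat.find_spec hex).resolve_left (by omega)
    have hj0 : 0 ≤ ε * j := by positivity
    refine catG_le_of_abs k ?_
    push_cast
    rw [abs_of_nonneg hj0, abs_of_nonneg (by nlinarith)]
    nlinarith
  calc ∑ i ∈ range D, catG k (x + ε * i) = ∑ i ∈ range (n + p), catG k (x + ε * i) := by rw [← hp]
    _ = _ := sum_range_add _ _ _
    _ ≤ _ := by linarith

/-- Equally spaced points: lower bound. -/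
theorem cat_lower (k : ℕ) {ε : ℝ} (hε : 0 < ε) (x : ℝ) (R p : ℕ) (h1 : x + ε * R ≤ 0)
    (h2 : 0 ≤ x + ε * p) :
    2 * ∑ j ∈ range R, catG k (ε * (j + 1)) ≤ ∑ i ∈ range (p + R), catG k (x + ε * i) := by
  classical
  have hex : ∃ n : ℕ, 0 ≤ x + ε * n := ⟨p, h2⟩
  set n := Nat.find hex with hn
  have hnp : n ≤ p := Nat.find_min' hex h2
  have hn0 : 0 ≤ x + ε * n := Nat.find_spec hex
  have hlt : ∀ i < n, x + ε * i < 0 := fun i hi => not_le.1 (Nat.find_min hex hi)
  have hRn : R ≤ n := by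
    by_contra h
    have : (n : ℝ) < R := by exact_mod_cast not_le.1 h
    nlinarith
  have a1 : ∑ j ∈ range R, catG k (ε * (j + 1)) ≤ ∑ i ∈ range n, catG k (x + ε * i) := by
    rw [← sum_range_reflect _ n]
    refine le_trans (sum_le_sum fun j hj => ?_)
      (sum_le_sum_of_subset_of_nonneg (range_subset_range.2 hRn) fun _ _ _ => catG_nonneg _ _)
    have hj' := mem_range.1 hj
    have h := hlt (n - 1 - j) (by omega)
    have e : ((n - 1 - j : ℕ) : ℝ) = n - 1 - j := by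
      rw [Nat.cast_sub (by omega), Nat.cast_sub (by omega)]; simp
    refine catG_le_of_abs k ?_
    rw [abs_of_nonpos h.le, abs_of_nonneg (by positivity), e]
    nlinarith
  have a2 : ∑ j ∈ range R, catG k (ε * (j + 1)) ≤
      ∑ j ∈ range R, catG k (x + ε * ((n + j : ℕ) : ℝ)) := by
    refine sum_le_sum fun j hj => ?_
    have hj' := mem_range.1 hj
    have h := hlt (n - 1) (by omega)
    have e : ((n - 1 : ℕ) : ℝ) = n - 1 := by rw [Nat.cast_sub (by omega)]; simp
    rw [e] at h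
    have hj0 : 0 ≤ ε * j := by positivity
    refine catG_le_of_abs k ?_
    push_cast
    rw [abs_of_nonneg (by nlinarith), abs_of_nonneg (by positivity)]
    nlinarith
  calc _ ≤ ∑ i ∈ range (n + R), catG k (x + ε * i) := by rw [sum_range_add]; linarith
    _ ≤ _ := sum_le_sum_of_subset_of_nonneg (range_subset_range.2 (by omega))
      fun _ _ _ => catG_nonneg _ _

theorem cat_theta_le (k : ℕ) {ε : ℝ} (hε : 0 < ε) (D R : ℕ) :
    ∑ j ∈ range D, catG k (ε * j) ≤ 1 + ∑ j ∈ range R, catG k (ε * (j + 1)) +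
      catG k (ε * R) * ∑ j ∈ range D, catG k (ε * j) := by
  have h1 : ∑ j ∈ range D, catG k (ε * j) ≤ ∑ j ∈ range (R + D), catG k (ε * j) :=
    sum_le_sum_of_subset_of_nonneg (range_subset_range.2 (by omega)) fun _ _ _ => catG_nonneg _ _
  rw [sum_range_add] at h1
  have h2 : ∑ j ∈ range R, catG k (ε * j) ≤ ∑ j ∈ range (R + 1), catG k (ε * j) :=
    sum_le_sum_of_subset_of_nonneg (range_subset_range.2 (by omega)) fun _ _ _ => catG_nonneg _ _
  rw [sum_range_succ'] at h2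
  simp only [Nat.cast_zero, mul_zero, catG_zero, Nat.cast_add, Nat.cast_one] at h2
  have h3 : ∑ j ∈ range D, catG k (ε * ((R + j : ℕ) : ℝ)) ≤
      catG k (ε * R) * ∑ j ∈ range D, catG k (ε * j) := by
    rw [mul_sum]
    refine sum_le_sum fun j _ => ?_
    push_cast
    rw [mul_add]
    exact catG_add_le k (by positivity) (by positivity)
  linarith

theorem cat_theta_ge (k : ℕ) {ε : ℝ} (hε : 0 < ε) {D J : ℕ} (hJ : J ≤ D)
    (h : k * (ε * J) ^ 2 ≤ 1) : (J : ℝ) ≤ 2 * ∑ j ∈ range D, catG k (ε * j) := by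
  have h1 : ∑ j ∈ range J, catG k (ε * j) ≤ ∑ j ∈ range D, catG k (ε * j) :=
    sum_le_sum_of_subset_of_nonneg (range_subset_range.2 hJ) fun _ _ _ => catG_nonneg _ _
  have h2 : ∑ _j ∈ range J, (1 / 2 : ℝ) ≤ ∑ j ∈ range J, catG k (ε * j) := by
    refine sum_le_sum fun j hj => ?_
    have hj' : (j : ℝ) ≤ J := by exact_mod_cast (mem_range.1 hj).le
    have h3 : catG k (ε * J) ≤ catG k (ε * j) := by
      refine catG_le_of_abs k ?_
      rw [abs_of_nonneg (by positivity), abs_of_nonneg (by positivity)]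
      gcongr
    have := catG_ge k (ε * J)
    linarith
  simp only [sum_const, card_range, nsmul_eq_mul] at h2
  linarith

/-- The double sum is almost `D θ` for bounded shifts. -/
theorem cat_double (k : ℕ) {N : ℕ} (hN : 0 < N) (P Q : ℕ) {s : ℝ} (hs : |s| ≤ P) :
    (Q * N : ℝ) * (2 * ∑ j ∈ range (P * N), catG k (1 / N * (j + 1))) ≤
      ∑ m ∈ range ((4 * P + Q) * N), ∑ i ∈ range ((4 * P + Q) * N),
        catG k (s - 1 / N * m + 1 / N * i) := by
  have hN' : (0 : ℝ) < N := by exact_mod_cast hN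
  obtain ⟨hs1, hs2⟩ := abs_le.1 hs
  have h1 : ∑ _m ∈ Ico (2 * P * N) (2 * P * N + Q * N),
      (2 * ∑ j ∈ range (P * N), catG k (1 / N * (j + 1))) ≤
      ∑ m ∈ Ico (2 * P * N) (2 * P * N + Q * N), ∑ i ∈ range ((4 * P + Q) * N),
        catG k (s - 1 / N * m + 1 / N * i) := by
    refine sum_le_sum fun m hm => ?_
    obtain ⟨hm1, hm2⟩ := mem_Ico.1 hm
    have hm1' : (2 * P : ℝ) ≤ 1 / N * m := by
      rw [one_div_mul_eq_div, le_div_iff₀ hN']; exact_mod_cast hm1
    have hm2' : 1 / N * m ≤ (2 * P + Q : ℝ) := by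
      rw [one_div_mul_eq_div, div_le_iff₀ hN', add_mul]; exact_mod_cast hm2.le
    have := cat_lower k (ε := 1 / N) (by positivity) (s - 1 / N * m) (P * N) ((3 * P + Q) * N)
      (by
        have : 1 / (N : ℝ) * ((P * N : ℕ) : ℝ) = P := by push_cast; field_simp
        rw [this]; linarith)
      (by
        have : 1 / (N : ℝ) * (((3 * P + Q) * N : ℕ) : ℝ) = 3 * P + Q := by push_cast; field_simp
        rw [this]; linarith)
    rwa [show (3 * P + Q) * N + P * N = (4 * P + Q) * N by ring] at this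
  simp only [sum_const, Nat.card_Ico, add_tsub_cancel_left, nsmul_eq_mul, Nat.cast_mul] at h1
  refine h1.trans (sum_le_sum_of_subset_of_nonneg ?_ fun _ _ _ =>
    sum_nonneg fun _ _ => catG_nonneg _ _)
  intro m hm
  have := (mem_Ico.1 hm).2
  refine mem_range.2 (this.trans_le ?_)
  nlinarith [Nat.zero_le (P * N)]

theorem cat : CatStmt := by
  intro η hη
  obtain ⟨P, hP⟩ := exists_nat_gt (4 / η)
  have hP0 : (0 : ℝ) < P := lt_trans (by positivity) hP
  have hP0' : 0 < P := by exact_mod_cast hP0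
  have hPη : 1 / (P : ℝ) ≤ η / 4 := by
    rw [div_lt_iff₀ hη] at hP
    rw [div_le_iff₀ hP0]; linarith
  -- `K = 4 P + Q = 4 P (P + 1)`
  set Q : ℕ := 4 * P * P with hQ
  set K : ℕ := 4 * P + Q with hK
  have hK0 : 0 < K := by omega
  have hK0' : (0 : ℝ) < K := by exact_mod_cast hK0
  obtain ⟨n, hn⟩ := exists_nat_gt (2 * K * Real.exp K / η)
  have hn0 : (0 : ℝ) < n := lt_trans (by positivity) hn
  have hn0' : 0 < n := by exact_mod_cast hn0
  set J : ℕ := 2 * P with hJ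
  have hJ0 : 0 < J := by omega
  have hJ0' : (0 : ℝ) < J := by exact_mod_cast hJ0
  set N : ℕ := n * J with hN
  have hN0 : 0 < N := Nat.mul_pos hn0' hJ0
  have hN0' : (0 : ℝ) < N := by exact_mod_cast hN0
  set D : ℕ := K * N with hD
  have hD0 : 0 < D := Nat.mul_pos hK0 hN0
  have hD0' : (0 : ℝ) < D := by exact_mod_cast hD0
  set k : ℕ := n ^ 2 with hk
  have hk1 : 1 ≤ k := Nat.one_le_pow _ _ hn0'
  set ε : ℝ := 1 / N with hε
  have hε0 : 0 < ε := by positivity
  set θ : ℝ := 2 * ∑ j ∈ range D, catG k (ε * j) with hθ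
  have hθJ : (J : ℝ) ≤ θ := by
    refine cat_theta_ge k hε0 ?_ (le_of_eq ?_)
    · calc J ≤ N := Nat.le_mul_of_pos_left _ hn0'
        _ ≤ D := Nat.le_mul_of_pos_left _ hK0
    · rw [hε, hN, hk]; push_cast; field_simp
  have hθ0 : 0 < θ := hJ0'.trans_le hθJ
  set μ : Fin D → ℝ := fun m => Real.exp (-(ε * (m : ℕ))) / D with hμ
  have hμ0 : ∀ m, 0 < μ m := fun m => by simp only [hμ]; positivity
  have hrat : ∀ m m', μ m / μ m' = Real.exp (-(ε * (m : ℕ)) + ε * (m' : ℕ)) := fun m m' => by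
    simp only [hμ]
    rw [div_div_div_cancel_right₀ hD0'.ne', ← Real.exp_sub, sub_neg_eq_add]
  have hμle : ∀ m, μ m ≤ 1 / D := fun m => by
    simp only [hμ]
    have : Real.exp (-(ε * (m : ℕ))) ≤ 1 := Real.exp_le_one_iff.2 (neg_nonpos.2 (by positivity))
    gcongr
  have hrow : ∀ a ∈ Set.Icc (0 : ℝ) 2, ∀ m, ∑ m', gf k (μ m / μ m') a ≤ θ := by
    intro a ha m
    rcases ha.1.eq_or_lt with h | h0
    · simp [← h, cat_gf_zero hk1, hθ0.le]
    rcases ha.2.eq_or_lt with h | h2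
    · simp [h, cat_gf_two hk1, hθ0.le]
    simp only [hrat, cat_gf_eq k h0 h2, ← add_assoc]
    rw [Fin.sum_univ_eq_sum_range
      (fun i => catG k (Real.log ((2 - a) / a) + -(ε * (m : ℕ)) + ε * (i : ℕ)))]
    exact cat_upper k hε0 _ D
  have hcol : ∀ a ∈ Set.Icc (0 : ℝ) 2, ∀ m', ∑ m, gf k (μ m / μ m') a ≤ θ := by
    intro a ha m'
    rcases ha.1.eq_or_lt with h | h0
    · simp [← h, cat_gf_zero hk1, hθ0.le]
    rcases ha.2.eq_or_lt with h | h2
    · simp [h, cat_gf_two hk1, hθ0.le]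
    have e : ∀ m : Fin D, gf k (μ m / μ m') a =
        catG k (-(Real.log ((2 - a) / a) + ε * (m' : ℕ)) + ε * (m : ℕ)) := fun m => by
      rw [hrat, cat_gf_eq k h0 h2, ← catG_neg]; congr 1; ring
    simp only [e]
    rw [Fin.sum_univ_eq_sum_range
      (fun i => catG k (-(Real.log ((2 - a) / a) + ε * (m' : ℕ)) + ε * (i : ℕ)))]
    exact cat_upper k hε0 _ D
  have hS0 : ∀ a ∈ Set.Icc (0 : ℝ) 2, 0 ≤ (∑ m, ∑ m', gf k (μ m / μ m') a) / (D * θ) :=
    fun a ha => div_nonneg (sum_nonneg fun m _ => sum_nonneg fun m' _ =>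
      cat_gf_nonneg k (div_pos (hμ0 m) (hμ0 m')) ha) (by positivity)
  have hS1 : ∀ a ∈ Set.Icc (0 : ℝ) 2, (∑ m, ∑ m', gf k (μ m / μ m') a) / (D * θ) ≤ 1 := by
    intro a ha
    rw [div_le_one (by positivity)]
    calc _ ≤ ∑ _m : Fin D, θ := sum_le_sum fun m _ => hrow a ha m
      _ = D * θ := by simp
  have hS : ∀ a ∈ Set.Icc (0 : ℝ) 2, |(∑ m, ∑ m', gf k (μ m / μ m') a) / (D * θ) - 1| ≤ 1 :=
    fun a ha => abs_le.2 ⟨by linarith [hS0 a ha], by linarith [hS1 a ha]⟩
  refine ⟨D, k, fun m => ⌈Real.exp (ε * (m : ℕ))⌉₊, μ, θ, 1 / ((k + 1) * θ), hD0, hk1, hθ0,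
    by positivity, hμ0, fun m => Nat.ceil_pos.2 (Real.exp_pos _), ?_, fun m => ?_,
    hrow 1 ⟨by norm_num, by norm_num⟩, hS, fun a ha => ?_, fun a ha => ?_, ?_⟩
  · calc _ ≤ ∑ _m : Fin D, (2 / D : ℝ) := sum_le_sum fun m _ => ?_
      _ = 2 := by simp only [sum_const, card_univ, Fintype.card_fin, nsmul_eq_mul]; field_simp
    have h1 := (Nat.ceil_lt_add_one (Real.exp_pos (ε * (m : ℕ))).le).le
    have h2 : 1 ≤ Real.exp (ε * (m : ℕ)) := Real.one_le_exp (by positivity)
    have h3 : Real.exp (ε * (m : ℕ)) * μ m = 1 / D := by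
      simp only [hμ]; rw [← mul_div_assoc, ← Real.exp_add]; simp
    calc _ ≤ (2 * Real.exp (ε * (m : ℕ))) * μ m :=
          mul_le_mul_of_nonneg_right (by linarith) (hμ0 m).le
      _ = 2 / D := by rw [mul_assoc, h3]; ring
  · have h1 := Nat.le_ceil (Real.exp (ε * (m : ℕ)))
    have h3 : Real.exp (ε * (m : ℕ)) * μ m = 1 / D := by
      simp only [hμ]; rw [← mul_div_assoc, ← Real.exp_add]; simp
    calc (1 : ℝ) = D * (Real.exp (ε * (m : ℕ)) * μ m) := by rw [h3]; field_simp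
      _ ≤ _ := by
        rw [mul_assoc]
        exact mul_le_mul_of_nonneg_left (mul_le_mul_of_nonneg_right h1 (hμ0 m).le) hD0'.le
  · have ha0 : 0 ≤ a * (2 - a) := mul_nonneg ha.1 (by linarith [ha.2])
    have ha1 : a * (2 - a) ≤ 1 := by nlinarith [sq_nonneg (a - 1)]
    by_cases hcase : a * (2 - a) ≤ η
    · calc _ ≤ 1 * η := mul_le_mul (hS a ha) hcase ha0 zero_le_one
        _ = η := one_mul _
    have hcase := not_le.1 hcase
    have h0 : 0 < a := by
      rcases ha.1.eq_or_lt with h | h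
      · rw [← h] at hcase; linarith
      · exact h
    have h2 : a < 2 := by
      rcases ha.2.eq_or_lt with h | h
      · rw [h] at hcase; linarith
      · exact h
    have hs : |Real.log ((2 - a) / a)| ≤ P := by
      have h4 : 4 < P * η := by rwa [div_lt_iff₀ hη] at hP
      have h5 : 4 < P * (a * (2 - a)) := h4.trans (mul_lt_mul_of_pos_left hcase hP0)
      refine abs_le.2 ⟨?_, ?_⟩
      · have h6 : Real.log (a / (2 - a)) ≤ a / (2 - a) - 1 :=
          Real.log_le_sub_one_of_pos (div_pos h0 (by linarith))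
        have h7 : a / (2 - a) ≤ P := by
          rw [div_le_iff₀ (by linarith)]
          nlinarith [mul_pos hP0 (sub_pos.2 h2)]
        rw [← inv_div, Real.log_inv]; linarith
      · have h6 : Real.log ((2 - a) / a) ≤ (2 - a) / a - 1 :=
          Real.log_le_sub_one_of_pos (div_pos (by linarith) h0)
        have h7 : (2 - a) / a ≤ P := by
          rw [div_le_iff₀ h0]
          nlinarith [mul_pos hP0 h0]
        linarith
    have hdbl := cat_double k hN0 P Q hs
    have hth := cat_theta_le k hε0 D (P * N)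
    have hεP : ε * ((P * N : ℕ) : ℝ) = P := by rw [hε]; push_cast; field_simp
    rw [hεP] at hth
    have hgP := catG_le_inv hk1 hP0
    have e : ∑ m, ∑ m', gf k (μ m / μ m') a = ∑ m ∈ range D, ∑ i ∈ range D,
        catG k (Real.log ((2 - a) / a) - ε * m + ε * i) := by
      simp only [hrat, cat_gf_eq k h0 h2, ← add_assoc, ← sub_eq_add_neg]
      rw [← Fin.sum_univ_eq_sum_range (fun m => ∑ i ∈ range D,
        catG k (Real.log ((2 - a) / a) - ε * (m : ℕ) + ε * i))]
      refine sum_congr rfl fun m _ => ?_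
      exact Fin.sum_univ_eq_sum_range
        (fun i => catG k (Real.log ((2 - a) / a) - ε * (m : ℕ) + ε * (i : ℕ))) D
    rw [← hK, ← hD, ← hε, ← e] at hdbl
    set S := ∑ m, ∑ m', gf k (μ m / μ m') a with hSdef
    set T := ∑ j ∈ range (P * N), catG k (ε * (j + 1)) with hT
    -- `2 T ≥ θ (1 - 2 / P)`
    have hT1 : θ * (1 - 2 * (1 / P)) ≤ 2 * T := by
      have h8 : 2 ≤ θ * (1 / P) := by
        rw [mul_one_div, le_div_iff₀ hP0]
        have : (J : ℝ) = 2 * P := by rw [hJ]; push_cast; ring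
        linarith
      have h9 : catG k P * θ ≤ 1 / P * θ := mul_le_mul_of_nonneg_right hgP hθ0.le
      have h10 : θ ≤ 2 + 2 * T + catG k P * θ := by rw [hθ]; linarith
      linarith
    have hQD : D * (1 - 1 / P) ≤ (Q * N : ℝ) := by
      rw [hD, hK, hQ]; push_cast
      have : (4 * P + 4 * P * P : ℝ) * (1 - 1 / P) = 4 * P * P - 4 := by field_simp; ring
      rw [mul_right_comm, this]
      nlinarith
    have hT0 : 0 ≤ T := sum_nonneg fun _ _ => catG_nonneg _ _
    have hlow : 1 - 3 * (1 / P) ≤ S / (D * θ) := by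
      rw [le_div_iff₀ (by positivity)]
      have hP1 : 1 / (P : ℝ) ≤ 1 := by
        rw [div_le_one hP0]; exact_mod_cast hP0'
      have h11 : D * (1 - 1 / P) * (2 * T) ≤ S :=
        (mul_le_mul_of_nonneg_right hQD (by positivity)).trans hdbl
      have h12 : D * (1 - 1 / P) * (θ * (1 - 2 * (1 / P))) ≤ D * (1 - 1 / P) * (2 * T) :=
        mul_le_mul_of_nonneg_left hT1 (mul_nonneg hD0'.le (by linarith))
      have h13 : 0 ≤ D * θ * (1 / P) ^ 2 := by positivity
      nlinarith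
    have h14 : |S / (D * θ) - 1| ≤ η := by
      have := hS1 a ha
      rw [abs_le]; constructor <;> linarith
    calc _ ≤ η * 1 := mul_le_mul h14 ha1 ha0 hη.le
      _ = η := mul_one _
  · calc _ ≤ ∑ m, ∑ m', 1 / D * (gf k (μ m / μ m') a / (k + 1)) :=
          sum_le_sum fun m _ => sum_le_sum fun m' _ =>
            mul_le_mul (hμle m') (cat_sq_le k (div_pos (hμ0 m) (hμ0 m')) ha) (sq_nonneg _)
              (by positivity)
      _ = (∑ m, ∑ m', gf k (μ m / μ m') a) / (D * θ) * (θ / (k + 1)) := by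
          simp only [← mul_sum, ← sum_div]; field_simp
      _ ≤ 1 * (θ / (k + 1)) := mul_le_mul_of_nonneg_right (hS1 a ha) (by positivity)
      _ = _ := by field_simp
  · have h1 : ∑ m, 1 / (D * μ m) ≤ D * Real.exp K := by
      calc _ ≤ ∑ _m : Fin D, Real.exp K := sum_le_sum fun m _ => ?_
        _ = _ := by simp
      have e : 1 / (D * μ m) = Real.exp (ε * (m : ℕ)) := by
        simp only [hμ]; rw [Real.exp_neg]; field_simp
      rw [e, Real.exp_le_exp, hε, one_div_mul_eq_div, div_le_iff₀ hN0']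
      exact_mod_cast m.2.le
    have h2 : 1 ≤ D * Real.exp K := by
      have : (1 : ℝ) ≤ D := by exact_mod_cast hD0
      have := Real.one_le_exp hK0'.le
      nlinarith
    have h3 : 1 / ((k + 1) * θ) ≤ 1 / ((n : ℝ) ^ 2 * J) := by
      have : (n : ℝ) ^ 2 ≤ k + 1 := by rw [hk]; push_cast; linarith
      gcongr
    calc _ ≤ (2 * (D * Real.exp K)) * (1 / ((n : ℝ) ^ 2 * J)) :=
          mul_le_mul (by linarith) h3 (by positivity) (by positivity)
      _ = 2 * K * Real.exp K / n := by rw [hD, hN]; push_cast; field_simp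
      _ ≤ η := by
          rw [div_lt_iff₀ hη] at hn
          rw [div_le_iff₀ hn0]; linarith

end Crest.Agent.R78
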