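import Crest.Agent.R78.HT

/-! An almost normal compact perturbation of the unilateral shift. -/

set_option autoImplicit false

noncomputable section

namespace Crest.Agent.R78

open TopologicalSpace InnerProductSpace R73 Finset
open scoped InnerProductSpace

lemma sep_of_basis {ι H : Type} [Countable ι] [NormedAddCommGroup H] [InnerProductSpace ℂ H]
    (b : HilbertBasis ι ℂ H) : SeparableSpace H := by
  rw [← isSeparable_univ_iff, ← Submodule.top_coe (R := ℂ), ← b.dense_span,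
    Submodule.topologicalClosure_coe]
  exact (Set.countable_range b).isSeparable.span.closure

lemma exists_dg (w : ℕ → ℝ) {C : ℝ} (hC : 0 ≤ C) (hw : ∀ n, |w n| ≤ C) :
    ∃ D : L2 ℕ →L[ℂ] L2 ℕ, ‖D‖ ≤ C ∧ ∀ n, D (dl n) = (w n : ℂ) • dl n := by
  have h : ∀ n, ‖(w n : ℂ) • (1 : ℂ →L[ℂ] ℂ)‖ ≤ C := fun n => by simpa [norm_smul] using hw n
  refine ⟨lp.mapCLM 2 (fun n => (w n : ℂ) • (1 : ℂ →L[ℂ] ℂ)) hC h, lp.norm_mapCLM_le _ _ _ _,
    fun n => lp.ext (funext fun k => ?_)⟩
  show (w k : ℂ) • (dl n : L2 ℕ) k = (w n : ℂ) • (dl n : L2 ℕ) k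
  by_cases hk : k = n
  · rw [hk]
  · simp [dl, lp.single_apply, hk]

lemma exists_shift (m : ℕ) (hm : 0 < m) : ∃ S T : L2 ℕ →L[ℂ] L2 ℕ, star S * S = 1 ∧
    (star S) (dl 0) = 0 ∧ ‖T‖ ≤ 1 ∧ ‖star T * T - T * star T‖ ≤ 2 / m ∧
    ∃ c : ℕ → ℂ, T - S = ∑ n ∈ range m, rankOne ℂ (c n • dl (n + 1)) (dl n) := by
  have hm' : (0 : ℝ) < m := by exact_mod_cast hm
  let w : ℕ → ℝ := fun n => min 1 (n / m)
  have w0 : ∀ n, 0 ≤ w n := fun n => le_min zero_le_one (by positivity)
  have w1 : ∀ n, w n ≤ 1 := fun n => min_le_left _ _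
  have w2 : ∀ n, |w (n + 1) - w n| ≤ 1 / m := fun n => by
    refine (abs_min_sub_min_le_max _ _ _ _).trans ?_
    rw [sub_self, abs_zero, ← sub_div, abs_div]
    simp
  obtain ⟨D, nD, hD⟩ := exists_dg (fun n => w (n + 1)) zero_le_one fun n =>
    abs_le.2 ⟨by linarith [w0 (n + 1)], w1 _⟩
  obtain ⟨E, nE, hE⟩ := exists_dg (fun n => w (n + 1) ^ 2 - w n ^ 2) (C := 2 / m) (by positivity)
    fun n => by
      rw [sq_sub_sq, abs_mul, abs_of_nonneg (add_nonneg (w0 _) (w0 _)), div_eq_mul_one_div]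
      exact mul_le_mul (by linarith [w1 n, w1 (n + 1)]) (w2 n) (abs_nonneg _) zero_le_two
  let S := shiftOp Nat.succ Nat.succ_injective
  have hS : ∀ n, S (dl n) = dl (n + 1) := shiftOp_dl _ _
  have hT : ∀ n, (S * D) (dl n) = (w (n + 1) : ℂ) • dl (n + 1) := fun n => by
    rw [mul_apply_eq_comp, hD, map_smul, hS]
  have hT0 : star (S * D) (dl 0) = 0 := L2_ext_vec fun x => by
    rw [R89.Fock.inner_star_right, hT, inner_smul_left, inner_dl]; simp
  have hT1 : ∀ n, star (S * D) (dl (n + 1)) = (w (n + 1) : ℂ) • dl n := fun n =>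
    L2_ext_vec fun x => by
      rw [R89.Fock.inner_star_right, hT, inner_smul_left, inner_smul_right, inner_dl, inner_dl]
      by_cases h : x = n <;> simp [h]
  have hSS := star_shiftOp_mul Nat.succ Nat.succ_injective
  refine ⟨S, S * D, hSS, star_shiftOp_dl_of_notMem _ _ _ (by simp), ?_, ?_,
    fun n => w (n + 1) - 1, L2_ext fun k => ?_⟩
  · simpa using norm_mul_le_of_le (norm_le_one_of (hSS ▸ nm1)) nD
  · refine le_trans (le_of_eq (congrArg _ (L2_ext fun k => ?_))) nE
    rw [hE, sub_apply, mul_apply_eq_comp, hT, map_smul, hT1, mul_apply_eq_comp]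
    cases k with
    | zero =>
      have : w 0 = 0 := by simp [w]
      rw [hT0, map_zero, this, smul_smul]; push_cast; module
    | succ k => rw [hT1, map_smul, hT, smul_smul, smul_smul]; push_cast; module
  · rw [sub_apply, hT, hS, _root_.sum_apply]
    simp only [rankOne_apply, inner_dl, ite_smul, one_smul, zero_smul, sum_ite_eq', mem_range]
    split_ifs with h
    · rw [sub_smul, one_smul]
    · have : w (k + 1) = 1 := min_eq_left (by
        rw [le_div_iff₀ hm', one_mul]; exact_mod_cast (by omega : m ≤ k + 1))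
      simp [this]

end Crest.Agent.R78
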