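import Crest.Agent.R78.Ext2
import Crest.Agent.R78.Shift

/-! A fine chain of extension algebras whose ends are not conjugate. -/

set_option autoImplicit false

noncomputable section

namespace Crest.Agent.R78

open TopologicalSpace InnerProductSpace R73 Finset
open scoped InnerProductSpace

theorem exists_chain (n : ℕ) (hn : 0 < n) :
    ∃ (F : Type) (_ : NormedAddCommGroup F) (_ : InnerProductSpace ℂ F) (_ : CompleteSpace F)
      (H : Type) (_ : NormedAddCommGroup H) (_ : InnerProductSpace ℂ H) (_ : CompleteSpace H)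
      (_ : SeparableSpace H) (S : ES F H) (W : ℕ → H →L[ℂ] H) (h : ∀ i, S.Adm (W i)),
      IsSeparable (S.M : Set (H →L[ℂ] H)) ∧ (∀ i, ‖W i - W (i + 1)‖ ≤ 4 / n) ∧
      ∀ u : H →L[ℂ] H, star u * u = 1 → u * star u = 1 →
        (∀ m ∈ (h n).alg, u * m * star u ∈ (h 0).alg) →
        (∀ m ∈ (h 0).alg, star u * m * u ∈ (h n).alg) → False := by
  have hn0 : (0 : ℝ) < n := by exact_mod_cast hn
  obtain ⟨I, _, _, _, hI⟩ : ∃ (I : Type) (_ : Fintype I) (_ : DecidableEq I) (_ : Countable I),
      10000 ≤ √(Fintype.card I) := ⟨Fin (10000 ^ 2), inferInstance, inferInstance, inferInstance,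
    Real.le_sqrt_of_sq_le (by rw [Fintype.card_fin]; norm_num)⟩
  obtain ⟨F, _, _, _, ⟨e⟩⟩ : ∃ (F : Type) (_ : NormedAddCommGroup F) (_ : InnerProductSpace ℂ F)
      (_ : CompleteSpace F), Nonempty (HilbertBasis (List I) ℂ F) :=
    ⟨L2 (List I), inferInstance, inferInstance, inferInstance, ⟨default⟩⟩
  have := sep_of_basis e
  have := sep_of_basis (default : HilbertBasis ℕ ℂ (L2 ℕ))
  obtain ⟨K, _, _, _, _, ⟨T₁⟩⟩ := exists_TP F (L2 ℕ)
  obtain ⟨H, i1, i2, i3, i4, ⟨T₂⟩⟩ := exists_TP F K
  let ψ := T₂.R.comp T₁.L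
  let E : ℕ → ℕ → H →L[ℂ] H := fun i j => T₂.R (T₁.R (rankOne ℂ (dl i) (dl j)))
  have EE : ∀ i j k l, E i j * E k l = if j = k then E i l else 0 := fun i j k l => by
    have : rankOne ℂ (dl i) (dl j) * rankOne ℂ (dl k) (dl l) =
        if j = k then rankOne ℂ (dl i) (dl l) else 0 := by
      rw [ContinuousLinearMap.mul_def, rankOne_comp_rankOne, inner_dl]
      split_ifs <;> simp
    simp only [E, ← map_mul, this]
    split_ifs <;> simp
  have sE : ∀ i j, star (E i j) = E j i := fun i j => by
    simp only [E, ← map_star]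
    rw [ContinuousLinearMap.star_eq_adjoint, adjoint_rankOne]
  have φE : ∀ x i j, Commute (T₂.L x) (E i j) := fun x i j => T₂.comm _ _
  have ψE : ∀ x i j, Commute (ψ x) (E i j) := fun x i j => (T₁.comm _ _).map T₂.R
  have Etm : ∀ k v w, E k k (T₂.tm v (T₁.tm w (dl k))) = T₂.tm v (T₁.tm w (dl k)) := fun k v w => by
    simp only [E, T₂.R_tm, T₁.R_tm, rankOne_apply, inner_dl, if_true, one_smul]
  have n0 : ‖e []‖ = 1 := e.orthonormal.1 []
  let G := gb (fock e) T₂.L ψ fun x y => T₂.comm _ _
  let t : ℕ → ℝ := fun i => (min i n : ℕ) / (4 * n)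
  have t0 : ∀ i, 0 ≤ t i := fun i => by positivity
  have t1 : ∀ i, t i ≤ 1 / 4 := fun i => by
    rw [div_le_iff₀ (by positivity)]
    have : ((min i n : ℕ) : ℝ) ≤ n := by exact_mod_cast min_le_right i n
    linarith
  have pp : E 0 0 * E 0 0 = E 0 0 := by simp [EE]
  have nq : ‖1 - E 0 0‖ ≤ 1 := norm_one_sub_proj_le (sE 0 0) pp
  have hco : ∀ i, ∃ c : G.Co, c.a = (t i : ℂ) • (1 - E 0 0) := fun i =>
    G.exists_co ((fock e).com_map _ fun b => ((Commute.one_right _).sub_right
      (φE _ _ _)).smul_right _) ((fock e).com_map _ fun b => ((Commute.one_right _).sub_right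
      (ψE _ _ _)).smul_right _) (by simp [sE]) (by
        rw [norm_smul, Complex.norm_real, Real.norm_of_nonneg (t0 i)]
        nlinarith [t0 i, t1 i, norm_nonneg (1 - E 0 0)])
  choose c hc using hco
  let Gen : Set (H →L[ℂ] H) :=
    (⋃ i, (fun x => (c i).W * T₂.L x * star (c i).W) '' (R89.Fock.Alg e)) ∪
      ((⋃ i, ⋃ j, Set.range fun p : F × F => T₂.L (rankOne ℂ p.1 p.2) * E i j) ∪
        Set.range fun p : ℕ × ℕ => E p.1 p.2)
  have hφ : Continuous T₂.L := map_continuous T₂.L
  have sub : ∀ x ∈ Gen, x ∈ (StarAlgebra.adjoin ℂ Gen).topologicalClosure := fun x hx =>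
    StarSubalgebra.le_topologicalClosure _ (StarAlgebra.subset_adjoin ℂ _ hx)
  let S : ES F H :=
    { A₀ := R89.Fock.Alg e
      cl₀ := inferInstance
      Ω := e []
      nΩ := n0
      tr := fun x hx => by
        have h1 := R89.Fock.ev_comm e hx (star x) (star_mem hx)
        have h2 := R89.Fock.ev_star_mul_self e (star x)
        rw [star_star, h1, R89.Fock.ev_star_mul_self] at h2
        exact (pow_left_inj₀ (norm_nonneg _) (norm_nonneg _) two_ne_zero).1 (by exact_mod_cast h2)
      fa := fun x hx => R89.Fock.eq_zero_of_vac e hx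
      φ := T₂.L
      E := E
      EE := EE
      sE := sE
      φE := φE
      tot := fun X hX => T₂.ext fun v k => by
        have : X ∘L T₂.tm v = 0 := T₁.ext fun w d => by
          have : X ∘L T₂.tm v ∘L T₁.tm w = 0 := L2_ext fun k => by
            show X (T₂.tm v (T₁.tm w (dl k))) = 0
            rw [← Etm, ← mul_apply_eq_comp, hX]; rfl
          exact DFunLike.congr_fun this d
        exact DFunLike.congr_fun this k
      totR := fun X hX => T₂.ext fun v k => by
        have := DFunLike.congr_fun (hX v (e [])) (T₂.tm (e []) k)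
        rw [mul_apply_eq_comp, T₂.L_tm] at this
        simpa [n0] using this
      ι := T₂.tm.flip (T₁.tm (e []) (dl 0))
      nι := fun v => by
        rw [ContinuousLinearMap.flip_apply, T₂.norm_tm, T₁.norm_tm, n0, orthonormal_dl.1 0]; simp
      φι := fun x v => T₂.L_tm _ _ _
      Eι := fun v => Etm 0 _ _
      M := (StarAlgebra.adjoin ℂ Gen).topologicalClosure
      clM := StarSubalgebra.isClosed_topologicalClosure _
      EM := fun i j => sub _ (.inr (.inr ⟨(i, j), rfl⟩))
      RM := fun v w i j => sub _ (.inr (.inl (Set.mem_iUnion₂.2 ⟨i, j, (v, w), rfl⟩))) }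
  have aE : ∀ i k, (c i).a * E (k + 1) (k + 1) = (t i : ℂ) • E (k + 1) (k + 1) := fun i k => by
    rw [hc, smul_mul_assoc, sub_mul, EE]; simp
  have adm : ∀ i, S.Adm (c i).W := fun i =>
    { u1 := (c i).star_W
      u2 := (c i).W_star
      p := (c i).W_fix' ((fock e).com_map _ fun b => φE _ _ _) ((fock e).com_map _ fun b => ψE _ _ _)
        (by rw [hc, smul_mul_assoc, sub_mul]; show _ • (1 * E 0 0 - E 0 0 * E 0 0) = 0; simp [pp])
      c := fun k => (c i).W_comm ((fock e).com_map _ fun b => φE _ _ _)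
        ((fock e).com_map _ fun b => ψE _ _ _) (by
          rw [commute_iff_eq]
          show (c i).a * E _ _ = E _ _ * (c i).a
          rw [aE, hc, mul_smul_comm, mul_sub, EE]; simp)
      m := fun x hx => sub _ (.inl (Set.mem_iUnion.2 ⟨i, x, hx, rfl⟩)) }
  refine ⟨F, _, _, _, H, i1, i2, i3, i4, S, fun i => (c i).W, adm, sep_adjoin ?_, fun i => ?_,
    fun u hu hu' hA hB => ?_⟩
  · refine (IsSeparable.iUnion fun i => IsSeparable.image (sep_adjoin
      (Set.countable_range _).isSeparable) (by fun_prop)).union ((IsSeparable.iUnion fun i =>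
      IsSeparable.iUnion fun j => isSeparable_range ?_).union (Set.countable_range _).isSeparable)
    refine (hφ.comp ?_).mul continuous_const
    simp only [rankOne_def]
    exact (ContinuousLinearMap.smulRightL ℂ F F).continuous₂.comp
      (((innerSL ℂ).continuous.comp continuous_snd).prodMk continuous_fst)
  · have h1 := (c i).norm_W_sub (c (i + 1))
    have h2 := (c i).norm_δ_sub (c (i + 1))
    have h3 : ‖(c i).a - (c (i + 1)).a‖ ≤ 1 / (4 * n) := by
      rw [hc, hc, ← sub_smul, norm_smul, ← Complex.ofReal_sub, Complex.norm_real]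
      refine (mul_le_of_le_one_right (norm_nonneg _) nq).trans ?_
      rw [Real.norm_eq_abs, ← sub_div, abs_div, abs_of_pos (by positivity : (0 : ℝ) < 4 * n)]
      refine div_le_div_of_nonneg_right (abs_le.2 ⟨?_, ?_⟩) (by positivity)
      · have : ((min (i + 1) n : ℕ) : ℝ) ≤ (min i n : ℕ) + 1 := by
          exact_mod_cast (by omega : min (i + 1) n ≤ min i n + 1)
        linarith
      · have : ((min i n : ℕ) : ℝ) ≤ (min (i + 1) n : ℕ) := by
          exact_mod_cast (by omega : min i n ≤ min (i + 1) n)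
        linarith
    have h4 : 4 / (n : ℝ) = 16 * (1 / (4 * n)) := by field_simp; ring
    linarith
  · have W0 : (c 0).W = 1 := by
      have := (c 0).W_fix' FR.Com.one FR.Com.one (by rw [hc]; simp [t])
      rwa [mul_one] at this
    have adm1 : S.Adm 1 := W0 ▸ adm 0
    have ealg : ∀ m, m ∈ (adm 0).alg ↔ m ∈ adm1.alg := fun m => by
      rw [ES.Adm.mem_iff, ES.Adm.mem_iff, W0]
    have tn : t n = 1 / 4 := by simp only [t, min_self]; field_simp
    have key := (adm n).not_conj adm1 (fock e) (R89.Fock.s_mem e) G.V.σ G.V.norm_σ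
      (c := Fintype.card I / 4 - 7 * √(Fintype.card I)) ?_ hu hu'
      (fun m hm => (ealg _).1 (hA m hm)) (fun m hm => hB m ((ealg _).2 hm)) fun j => ?_
    · have := Real.mul_self_sqrt (Nat.cast_nonneg (α := ℝ) (Fintype.card I))
      nlinarith
    · intro k m hm
      have : S.M ≤ StarSubalgebra.centralizer ℂ {G.V.σ k} := by
        refine StarSubalgebra.topologicalClosure_minimal (StarAlgebra.adjoin_le fun x hx => ?_)
          (Set.isClosed_centralizer _)
        simp only [SetLike.mem_coe, StarSubalgebra.mem_centralizer_iff, Set.mem_singleton_iff,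
          forall_eq, FR.star_σ, and_self]
        have e1 : G.V.σ k = ψ ((fock e).σ k) := (fock e).map_σ _ _
        rcases hx with hx | hx | ⟨p, rfl⟩
        · obtain ⟨i, x, hx', rfl⟩ := Set.mem_iUnion.1 hx
          have ca : Commute (c i).a (T₂.L x) := by
            rw [hc]
            exact ((Commute.one_left _).sub_left (φE _ _ _).symm).smul_left _
          refine ((c i).conj_comm k ((c i).y_comm
            ((fock e).com_map _ fun b => (T₂.comm _ _).symm) (fun j => ?_) ca
            ((c i).comm_δ' ca) k)).eq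
          show Commute (((fock e).map T₂.L).σ j) _
          rw [FR.map_σ]
          exact Commute.map (R89.Fock.comm_r e hx' j).symm T₂.L
        · obtain ⟨i, j, p, rfl⟩ := Set.mem_iUnion₂.1 hx
          rw [e1]
          exact ((T₂.comm _ _).symm.mul_right (ψE _ _ _)).eq
        · rw [e1]; exact (ψE _ _ _).eq
      have h := this hm
      simp only [StarSubalgebra.mem_centralizer_iff, Set.mem_singleton_iff, forall_eq] at h
      exact h.1
    · have est := (c n).estimate
      have nE : ‖E (j + 1) (j + 1)‖ ≤ 1 := norm_proj_le (sE _ _) (by simp [EE])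
      have h1 : ‖G.U.P * G.V.P * E (j + 1) (j + 1)‖ = 1 := by
        show ‖T₂.L _ * T₂.R (T₁.L _) * T₂.R (T₁.R _)‖ = 1
        rw [mul_assoc, ← map_mul, fock_P, T₁.rankOne_mul, T₂.rankOne_mul, norm_rankOne,
          T₂.norm_tm, T₁.norm_tm, n0, orthonormal_dl.1]
        norm_num
      have h2 : (c n).a * (G.U.P * G.V.P) * E (j + 1) (j + 1) =
          (t n : ℂ) • (G.U.P * G.V.P * E (j + 1) (j + 1)) := by
        rw [← ((c n).Ua.P.mul_left (c n).Va.P).eq, mul_assoc, aE, mul_smul_comm]
      have h3 := norm_mul_le_of_le est nE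
      rw [sub_mul, smul_mul_assoc, h2] at h3
      have h4 := norm_sub_norm_le ((Fintype.card I : ℂ) • (t n : ℂ) •
        (G.U.P * G.V.P * E (j + 1) (j + 1)))
        ((∑ k, (c n).W * G.U.s k * star (c n).W * G.V.σ k) * E (j + 1) (j + 1))
      rw [norm_sub_rev, norm_smul, norm_smul, h1, tn, Complex.norm_natCast, Complex.norm_real,
        Real.norm_of_nonneg (by norm_num)] at h4
      rw [tn] at h3
      have e1 : ∀ k, G.U.s k = S.φ ((fock e).s k) := fun k => (fock e).map_s _ _
      simp only [e1] at h3 h4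
      show _ ≤ ‖(∑ k, (c n).W * S.φ ((fock e).s k) * star (c n).W * G.V.σ k) * E (j + 1) (j + 1)‖
      linarith

end Crest.Agent.R78
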