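import Mathlib

/-! A normal operator is not close to a compact perturbation of an operator of index `-1`. -/

set_option autoImplicit false

noncomputable section

namespace Crest.Agent.R78

open scoped InnerProductSpace

variable {H : Type} [NormedAddCommGroup H] [InnerProductSpace ℂ H] [CompleteSpace H]

lemma fred {G K : H →L[ℂ] H} (hG : IsUnit G) (hK : IsCompactOperator K)
    (h : ∀ x, (G + K) x = 0 → x = 0) : IsUnit (G + K) := by
  obtain ⟨g, rfl⟩ := hG
  have hT : IsCompactOperator (-((g⁻¹ : (H →L[ℂ] H)ˣ).1 * K) : H →L[ℂ] H) :=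
    (hK.clm_comp (g⁻¹ : (H →L[ℂ] H)ˣ).1).neg
  have e : g.1 + K = g.1 * (1 - -((g⁻¹ : (H →L[ℂ] H)ˣ).1 * K)) := by
    rw [sub_neg_eq_add, mul_add, mul_one, ← mul_assoc, g.mul_inv, one_mul]
  rcases hT.hasEigenvalue_or_mem_resolventSet (μ := 1) one_ne_zero with h1 | h1
  · obtain ⟨x, hx⟩ := h1.exists_hasEigenvector
    have h2 : (-((g⁻¹ : (H →L[ℂ] H)ˣ).1 * K) : H →L[ℂ] H) x = x := by
      simpa using hx.apply_eq_smul
    refine absurd (h x ?_) hx.2
    rw [e, mul_apply_eq_comp, sub_apply, h2]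
    simp
  · rw [e]
    refine g.isUnit.mul ?_
    simpa [resolventSet] using h1

lemma unit_of_normal {Z Z₁ K : H →L[ℂ] H} (hZ : star Z * Z = Z * star Z) (e : Z = Z₁ + K)
    (hK : IsCompactOperator K) (hK' : IsCompactOperator (star K : H →L[ℂ] H)) {c : ℝ} (hc : 0 < c)
    (hl : ∀ x, ‖x‖ ≤ c * ‖Z₁ x‖) : IsUnit Z₁ := by
  have sq : ∀ (T : H →L[ℂ] H) x, ⟪(star T * T) x, x⟫_ℂ = (‖T x‖ ^ 2 : ℝ) := fun T x => by
    rw [mul_apply_eq_comp, ContinuousLinearMap.star_eq_adjoint,
      ContinuousLinearMap.adjoint_inner_left, inner_self_eq_norm_sq_to_K]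
    simp
  have hG : IsUnit (star Z₁ * Z₁) := by
    refine ContinuousLinearMap.isUnit_of_forall_le_norm_inner_map _
      (c := ⟨(c ^ 2)⁻¹, by positivity⟩) (by show (0 : ℝ) < (c ^ 2)⁻¹; positivity) fun x => ?_
    rw [sq, Complex.norm_real, Real.norm_of_nonneg (sq_nonneg _)]
    show ‖x‖ ^ 2 * (c ^ 2)⁻¹ ≤ _
    rw [← div_eq_mul_inv, div_le_iff₀ (by positivity), ← mul_pow, mul_comm]
    exact pow_le_pow_left₀ (norm_nonneg _) (hl x) 2
  have ker : ∀ (T : H →L[ℂ] H) x, (star T * T) x = 0 → T x = 0 := fun T x h => by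
    have := sq T x
    rw [h, inner_zero_left] at this
    have : ‖T x‖ ^ 2 = 0 := by exact_mod_cast this.symm
    simpa using this
  let q : H →L[ℂ] H := (LinearMap.ker Z.toLinearMap).starProjection
  have hq : IsStarProjection q := isStarProjection_starProjection
  have h1 : Z * q = 0 := by
    ext x
    exact (LinearMap.ker Z.toLinearMap).starProjection_apply_mem x
  have h2 : star Z * q = 0 := by
    ext x
    refine ker (star Z) _ ?_
    rw [star_star, ← hZ]
    show (star Z * Z * q) x = 0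
    rw [mul_assoc, h1, mul_zero]; rfl
  have h3 : q * Z = 0 := by simpa [hq.isSelfAdjoint.star_eq] using congrArg star h2
  have h4 : q * star Z = 0 := by simpa [hq.isSelfAdjoint.star_eq] using congrArg star h1
  have h5 : q * q = q := hq.isIdempotentElem
  set K₁ : H →L[ℂ] H := star Z₁ * K + star K * Z with hK₁
  have c1 : IsCompactOperator K₁ := (hK.clm_comp (star Z₁)).add (hK'.comp_clm Z)
  have e1 : star Z * Z = star Z₁ * Z₁ + K₁ := by
    rw [hK₁]
    conv_lhs => rw [e, star_add, add_mul, ← e]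
    rw [e]; noncomm_ring
  have c2 : IsCompactOperator q := by
    obtain ⟨g, hg⟩ := hG
    have : q = -((g⁻¹ : (H →L[ℂ] H)ˣ).1 * (K₁ * q)) := by
      have h6 : K₁ * q = -(g.1 * q) := by
        rw [hg]
        linear_combination (norm := noncomm_ring) star Z * h1 - e1 * q
      rw [h6, mul_neg, neg_neg, ← mul_assoc, g.inv_mul, one_mul]
    rw [this]
    exact ((c1.comp_clm q).clm_comp (g⁻¹ : (H →L[ℂ] H)ˣ).1).neg
  have u1 : IsUnit (star Z * Z + q) := by
    rw [e1, add_assoc]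
    refine fred hG (c1.add c2) fun x hx => ?_
    rw [← add_assoc, ← e1] at hx
    have a1 : q x = 0 := by
      have : q * (star Z * Z + q) = q := by rw [mul_add, ← mul_assoc, h4, zero_mul, zero_add, h5]
      rw [← this, mul_apply_eq_comp, hx, map_zero]
    rw [add_apply, a1, add_zero] at hx
    rw [← a1]
    exact (Submodule.starProjection_eq_self_iff.2 (ker Z x hx)).symm
  have u2 : IsUnit (Z + q) := by
    have a1 : star (Z + q) * (Z + q) = star Z * Z + q := by
      rw [star_add, hq.isSelfAdjoint.star_eq]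
      linear_combination (norm := noncomm_ring) h2 + h3 + h5
    have a2 : (Z + q) * star (Z + q) = star Z * Z + q := by
      rw [star_add, hq.isSelfAdjoint.star_eq]
      linear_combination (norm := noncomm_ring) h1 + h4 + h5 - hZ
    obtain ⟨g, hg⟩ := u1
    refine isUnit_iff_exists_and_exists.2 ⟨⟨star (Z + q) * (g⁻¹ : (H →L[ℂ] H)ˣ).1, ?_⟩,
      ⟨(g⁻¹ : (H →L[ℂ] H)ˣ).1 * star (Z + q), ?_⟩⟩
    · rw [← mul_assoc, a2, ← hg, g.mul_inv]
    · rw [mul_assoc, a1, ← hg, g.inv_mul]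
  have e2 : Z₁ = Z + q + -(K + q) := by rw [e]; abel
  rw [e2]
  refine fred u2 (hK.add c2).neg fun x hx => ?_
  have := hl x
  rw [e2, hx, norm_zero, mul_zero] at this
  exact norm_le_zero_iff.1 this

lemma no_normal {Z Z₀ K : H →L[ℂ] H} (hZ : star Z * Z = Z * star Z)
    (hK : IsCompactOperator K) (hK' : IsCompactOperator (star K : H →L[ℂ] H))
    (hl : ∀ x, ‖x‖ ≤ 4 * ‖Z₀ x‖) {v : H} (hv : v ≠ 0) (hv' : ∀ x, ⟪v, Z₀ x⟫_ℂ = 0)
    (hn : ‖Z - (Z₀ + K)‖ ≤ 1 / 10) : False := by
  set E := Z - (Z₀ + K) with hE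
  have hEx : ∀ x, ‖E x‖ ≤ 1 / 10 * ‖x‖ := E.le_of_opNorm_le hn
  have h1 : ∀ x, ‖x‖ ≤ 7 * ‖(Z₀ + E) x‖ := fun x => by
    have a1 : ‖Z₀ x‖ ≤ ‖(Z₀ + E) x‖ + ‖E x‖ := by
      refine le_trans (le_of_eq ?_) (norm_sub_le _ _)
      rw [add_apply, add_sub_cancel_right]
    linarith [hl x, hEx x, norm_nonneg x, norm_nonneg ((Z₀ + E) x)]
  obtain ⟨g, hg⟩ := unit_of_normal hZ (Z₁ := Z₀ + E) (by rw [hE]; abel) hK hK' (by norm_num) h1
  set x := (g⁻¹ : (H →L[ℂ] H)ˣ).1 v
  have h2 : (Z₀ + E) x = v := by rw [← hg, ← mul_apply_eq_comp, g.mul_inv]; rfl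
  have h3 : ⟪v, v⟫_ℂ = ⟪v, E x⟫_ℂ := by
    conv_lhs => rw [← h2, add_apply, inner_add_right, ← add_apply, h2, hv', zero_add]
  have h4 := norm_inner_le_norm (𝕜 := ℂ) v (E x)
  rw [← h3, inner_self_eq_norm_sq_to_K, norm_pow] at h4
  have h5 := h1 x
  rw [h2] at h5
  have h6 := norm_pos_iff.2 hv
  simp only [Complex.coe_algebraMap, Complex.norm_real, norm_norm] at h4
  nlinarith [hEx x]

lemma low_of_split {p Z : H →L[ℂ] H} (hp : IsStarProjection p) (hZ : Commute Z p) (x : H) {c : ℝ}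
    (hc : 0 ≤ c) (h1 : ‖p x‖ ≤ c * ‖Z (p x)‖) (h2 : ‖(1 - p) x‖ ≤ c * ‖Z ((1 - p) x)‖) :
    ‖x‖ ≤ 2 * c * ‖Z x‖ := by
  have key : ∀ q : H →L[ℂ] H, IsStarProjection q → Commute Z q → ‖Z (q x)‖ ≤ ‖Z x‖ := by
    intro q hq h
    rw [← mul_apply_eq_comp, h.eq, mul_apply_eq_comp]
    simpa using q.le_of_opNorm_le hq.norm_le (Z x)
  have a1 := mul_le_mul_of_nonneg_left (key p hp hZ) hc
  have a2 := mul_le_mul_of_nonneg_left (key _ hp.one_sub ((Commute.one_right Z).sub_right hZ)) hc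
  have a3 : ‖x‖ ≤ ‖p x‖ + ‖(1 - p) x‖ := by
    refine le_trans (le_of_eq ?_) (norm_add_le _ _)
    simp
  linarith

/-- the obstruction in block form -/
lemma no_normal_block {Z S B₁ B₂ p q : H →L[ℂ] H} (hZ : star Z * Z = Z * star Z)
    (hp : IsStarProjection p) (hq : IsStarProjection q) (hpq : Commute p q)
    (hS : star S * S = 1) (n₁ : ‖B₁‖ ≤ 1) (n₂ : ‖B₂‖ ≤ 1)
    (c₁ : Commute S p) (c₂ : Commute S q) (c₃ : Commute B₁ p) (c₄ : Commute B₁ q)
    (c₅ : Commute B₂ p) (c₆ : Commute B₂ q)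
    (hK : IsCompactOperator ((B₁ + Complex.I • B₂ - S) * (p * q) : H →L[ℂ] H))
    (hK' : IsCompactOperator (star ((B₁ + Complex.I • B₂ - S) * (p * q)) : H →L[ℂ] H))
    {v : H} (hv : v ≠ 0) (hvp : p v = v) (hvq : q v = v) (hvS : (star S) v = 0)
    (hn : ‖Z - ((2 + B₁) * p - 2 + Complex.I • ((2 + B₂) * q - 2))‖ ≤ 1 / 10) : False := by
  set Z₀ := (2 + B₁) * p - 2 + Complex.I • ((2 + B₂) * q - 2) - (B₁ + Complex.I • B₂ - S) * (p * q)
    with hZ₀
  have two : ∀ x : H →L[ℂ] H, Commute 2 x := fun x => Commute.ofNat_left 2 x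
  have com : ∀ r, Commute S r → Commute B₁ r → Commute B₂ r → Commute p r → Commute q r →
      Commute Z₀ r := fun r a1 a2 a3 a4 a5 =>
    ((((((two r).add_left a2).mul_left a4).sub_left (two r)).add_left
      (((((two r).add_left a3).mul_left a5).sub_left (two r)).smul_left _)).sub_left
      (((a2.add_left (a3.smul_left _)).sub_left a1).mul_left (a4.mul_left a5)))
  have cp := com p c₁ c₃ c₅ (Commute.refl _) hpq.symm
  have cq := com q c₂ c₄ c₆ hpq (Commute.refl _)
  have pp : ∀ x, p (p x) = p x := fun x => by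
    rw [← mul_apply_eq_comp, hp.isIdempotentElem.eq]
  have qq : ∀ x, q (q x) = q x := fun x => by
    rw [← mul_apply_eq_comp, hq.isIdempotentElem.eq]
  have qp : ∀ x, p (q x) = q (p x) := fun x => by
    rw [← mul_apply_eq_comp, hpq.eq, mul_apply_eq_comp]
  have two' : ∀ x : H, (2 : H →L[ℂ] H) x = (2 : ℂ) • x := fun x => by
    rw [← one_add_one_eq_two, add_apply, two_smul]; rfl
  have b11 : ∀ x, p x = x → q x = x → Z₀ x = S x := fun x h1 h2 => by
    simp only [hZ₀, sub_apply, add_apply, mul_apply_eq_comp, smul_apply, h1, h2, two']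
    module
  have low : ∀ (B : H →L[ℂ] H) (a : ℂ) (x : H), ‖B‖ ≤ 1 → 2 ≤ ‖a‖ → ‖x‖ ≤ 1 * ‖B x + a • x‖ := by
    intro B a x hB ha
    have a1 : ‖a • x‖ ≤ ‖B x + a • x‖ + ‖B x‖ := by
      refine le_trans (le_of_eq ?_) (norm_sub_le _ _)
      rw [add_sub_cancel_left]
    rw [norm_smul] at a1
    nlinarith [B.le_of_opNorm_le hB x, norm_nonneg x]
  refine no_normal (Z₀ := Z₀) hZ hK hK' (fun x => ?_) hv (fun x => ?_) (by simpa [hZ₀] using hn)
  · have k : ∀ y, (p y = y ∨ p y = 0) → ‖y‖ ≤ 2 * 1 * ‖Z₀ y‖ := by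
      intro y hy
      refine low_of_split hq cq y zero_le_one ?_ ?_
      · rcases hy with hy | hy
        · rw [b11 _ (by rw [qp, hy]) (qq y), one_mul,
            (ContinuousLinearMap.norm_map_iff_adjoint_comp_self S).2 hS]
        · have : Z₀ (q y) = (Complex.I • B₂) (q y) + (-2 : ℂ) • q y := by
            simp only [hZ₀, sub_apply, add_apply, mul_apply_eq_comp, smul_apply, qp, hy, qq,
              two', map_zero]
            module
          rw [this]
          exact low _ _ _ (by simpa [norm_smul] using n₂) (by simp)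
      · have h0 : q ((1 - q) y) = 0 := by simp [qq]
        have h1 : p ((1 - q) y) = (1 - q) (p y) := by simp [qp]
        rcases hy with hy | hy
        · rw [hy] at h1
          generalize (1 - q) y = z at *
          have : Z₀ z = B₁ z + (-2 * Complex.I) • z := by
            simp only [hZ₀, sub_apply, add_apply, mul_apply_eq_comp, smul_apply, h0, h1,
              two', map_zero]
            module
          rw [this]
          exact low _ _ _ n₁ (by simp)
        · rw [hy, map_zero] at h1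
          generalize (1 - q) y = z at *
          have : Z₀ z = (0 : H →L[ℂ] H) z + (-2 - 2 * Complex.I) • z := by
            simp only [hZ₀, sub_apply, add_apply, mul_apply_eq_comp, smul_apply, h0, h1,
              two', map_zero, zero_apply]
            module
          rw [this]
          refine low _ _ _ (by simp) ?_
          refine le_trans ?_ (Complex.abs_re_le_norm _)
          simp
    have := low_of_split hp cp x (c := 2 * 1) (by norm_num) (k _ (.inl (pp x)))
      (k _ (.inr (by simp [pp])))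
    linarith
  · have a1 : ⟪v, Z₀ x⟫_ℂ = ⟪v, p (q (Z₀ x))⟫_ℂ := by
      rw [← ContinuousLinearMap.adjoint_inner_left p, ← ContinuousLinearMap.adjoint_inner_left q,
        ← ContinuousLinearMap.star_eq_adjoint, ← ContinuousLinearMap.star_eq_adjoint,
        hp.isSelfAdjoint.star_eq, hq.isSelfAdjoint.star_eq, hvp, hvq]
    have a2 : p (q (Z₀ x)) = Z₀ (p (q x)) := by
      simp only [← mul_apply_eq_comp]
      rw [← mul_assoc, ← (cp.mul_right cq).eq]
    rw [a1, a2, b11 _ (pp _) (by rw [← qp, qq]), ← ContinuousLinearMap.adjoint_inner_left,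
      ← ContinuousLinearMap.star_eq_adjoint, hvS, inner_zero_left]

end Crest.Agent.R78
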