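import Crest.Agent.R78.Gad2
import Crest.Agent.R78.Index

/-! The near inclusion which is not implemented by a unitary near the identity. -/

set_option autoImplicit false

noncomputable section

namespace Crest.Agent.R78

open Finset

variable {H : Type} [NormedAddCommGroup H] [InnerProductSpace ℂ H] [CompleteSpace H]

/-- The commutant of a set of operators and their adjoints. -/
def vnC (s : Set (H →L[ℂ] H)) : VonNeumannAlgebra H where
  toStarSubalgebra := StarSubalgebra.centralizer ℂ s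
  centralizer_centralizer' := by
    change Set.centralizer (Set.centralizer (Set.centralizer (s ∪ star s))) =
      Set.centralizer (s ∪ star s)
    exact Set.centralizer_centralizer_centralizer _

lemma mem_vnC {s : Set (H →L[ℂ] H)} {z : H →L[ℂ] H} :
    z ∈ vnC s ↔ ∀ g ∈ s, g * z = z * g ∧ star g * z = z * star g :=
  StarSubalgebra.mem_centralizer_iff ℂ

variable {I : Type} [Fintype I] [DecidableEq I] {B : Type} [Ring B] [StarRing B] [Algebra ℂ B]

/-- two commuting Fock systems from two commuting legs -/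
def gb {A : Type*} [CStarAlgebra A] (F : FR I B) (φ ψ : B →⋆ₐ[ℂ] A)
    (h : ∀ x y, Commute (φ x) (ψ y)) : GB I A :=
  ⟨F.map φ, F.map ψ, fun _ => F.com_map φ fun b => h b _, fun _ => F.com_map φ fun b => h b _⟩

lemma conj_conj {A : Type*} [Ring A] [StarRing A] {u x y : A} (hu : star u * u = 1)
    (h : Commute x y) : Commute (u * x * star u) (u * y * star u) := by
  have := h.eq
  rw [commute_iff_eq]
  linear_combination (norm := noncomm_ring) u * x * hu * y * star u - u * y * hu * x * star u +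
    u * this * star u

lemma norm_conj_sub {A : Type*} [CStarAlgebra A] {u x : A} (hu : star u * u = 1) :
    ‖u * x * star u - x‖ ≤ 2 * ‖u - 1‖ * ‖x‖ := by
  have h1 : ‖star u‖ ≤ 1 := by rw [norm_star]; exact norm_le_one_of (hu ▸ nm1)
  have : u * x * star u - x = (u - 1) * x * star u + x * star (u - 1) := by
    rw [star_sub, star_one]; noncomm_ring
  rw [this]
  have h2 := norm_add_le_of_le (norm_mul_le_of_le (norm_mul_le (u - 1) x) h1)
    (norm_mul_le_of_le (le_refl ‖x‖) (norm_star (u - 1)).le)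
  linarith

omit [DecidableEq I] in
lemma approx_aux {A : Type*} [CStarAlgebra A] {u Y a p : A} (x y : I → A) (hu : star u * u = 1)
    (hx : ∀ k, ‖x k‖ ≤ 2) (hy : ∀ k, ‖y k‖ ≤ 2) {e : ℝ} (hn : 10000 ≤ √(Fintype.card I))
    (h1 : ‖∑ k, x k * y k - (Fintype.card I : ℂ) • Y‖ ≤ 7 * √(Fintype.card I))
    (h2 : ‖Y - (16⁻¹ : ℂ) • (a * p)‖ ≤ e) :
    ‖(16 / Fintype.card I : ℂ) • ∑ k, u * x k * star u * y k - a * p‖ ≤
      128 * ‖u - 1‖ + 112 / 10000 + 16 * e := by
  set n := Fintype.card I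
  have hn0 : (0 : ℝ) < n := by
    by_contra h
    rw [Real.sqrt_eq_zero_of_nonpos (not_lt.1 h)] at hn
    norm_num at hn
  have hn1 : (n : ℂ) ≠ 0 := by exact_mod_cast hn0.ne'
  have h3 : ‖∑ k, u * x k * star u * y k - ∑ k, x k * y k‖ ≤ n * (8 * ‖u - 1‖) := by
    rw [← sum_sub_distrib]
    refine (norm_sum_le _ _).trans ?_
    rw [← nsmul_eq_mul]
    refine sum_le_card_nsmul _ _ _ fun k _ => ?_
    rw [← sub_mul]
    have := norm_mul_le_of_le ((norm_conj_sub hu).trans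
      (mul_le_mul_of_nonneg_left (hx k) (by positivity))) (hy k)
    linarith
  have e1 : (16 / n : ℂ) • ∑ k, u * x k * star u * y k - a * p =
      (16 / n : ℂ) • ((∑ k, u * x k * star u * y k - ∑ k, x k * y k) +
        (∑ k, x k * y k - (n : ℂ) • Y)) + (16 : ℂ) • (Y - (16⁻¹ : ℂ) • (a * p)) := by
    simp only [smul_add, smul_sub, smul_smul, div_mul_cancel₀ _ hn1]
    module
  rw [e1]
  refine (norm_add_le _ _).trans ?_
  rw [norm_smul, norm_smul, norm_div, Complex.norm_natCast, Complex.norm_ofNat]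
  have h4 : 16 / n * ‖(∑ k, u * x k * star u * y k - ∑ k, x k * y k) +
      (∑ k, x k * y k - (n : ℂ) • Y)‖ ≤ 128 * ‖u - 1‖ + 112 / 10000 := by
    rw [div_mul_eq_mul_div, div_le_iff₀ hn0]
    have h5 := norm_add_le_of_le h3 h1
    have h6 := Real.mul_self_sqrt hn0.le
    nlinarith
  linarith

theorem core4 (F : FR I B) (φ : Fin 4 → B →⋆ₐ[ℂ] (H →L[ℂ] H))
    (hφ : ∀ i j, i ≠ j → ∀ x y, Commute (φ i x) (φ j y)) {S B₁ B₂ : H →L[ℂ] H}
    (hS : star S * S = 1) (n₁ : ‖B₁‖ ≤ 1) (n₂ : ‖B₂‖ ≤ 1) (s₁ : star B₁ = B₁) (s₂ : star B₂ = B₂)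
    (cS : ∀ i x, Commute (φ i x) S) (c₁ : ∀ i x, Commute (φ i x) B₁)
    (c₂ : ∀ i x, Commute (φ i x) B₂) {η : ℝ} (hη : ‖B₁ * B₂ - B₂ * B₁‖ ≤ η) (hη' : η ≤ 1 / 10000)
    (hK : IsCompactOperator ((B₁ + Complex.I • B₂ - S) *
      (φ 0 F.P * φ 1 F.P * (φ 2 F.P * φ 3 F.P)) : H →L[ℂ] H))
    (hK' : IsCompactOperator (star ((B₁ + Complex.I • B₂ - S) *
      (φ 0 F.P * φ 1 F.P * (φ 2 F.P * φ 3 F.P))) : H →L[ℂ] H))
    {v : H} (hv : v ≠ 0) (hvP : ∀ i, φ i F.P v = v) (hvS : (star S) v = 0)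
    (hn : 10000 ≤ √(Fintype.card I)) : ∃ M N : VonNeumannAlgebra H,
      (∀ x ∈ M, ‖x‖ ≤ 1 → ∃ y ∈ N, ‖x - y‖ ≤ 5 * η) ∧
      ∀ u : H →L[ℂ] H, u ∈ unitary (H →L[ℂ] H) →
        (∀ x ∈ M, u * x * star u ∈ N) → 1 / 10000 ≤ ‖u - 1‖ := by
  have ca : ∀ b : H →L[ℂ] H, (∀ i x, Commute (φ i x) b) →
      ∀ i x, Commute (φ i x) ((16⁻¹ : ℂ) • (2 + b)) := fun b h i x =>
    ((Commute.ofNat_right _ 2).add_right (h i x)).smul_right _
  have co : ∀ (i j : Fin 4) (h : i ≠ j) (b : H →L[ℂ] H), star b = b → ‖b‖ ≤ 1 →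
      (∀ i x, Commute (φ i x) b) →
      ∃ c : (gb F (φ i) (φ j) (hφ i j h)).Co, c.a = (16⁻¹ : ℂ) • (2 + b) := by
    intro i j h b sb nb cb
    refine GB.exists_co _ (F.com_map _ (ca b cb i)) (F.com_map _ (ca b cb j)) (by simp [sb]) ?_
    have h2 : ‖(2 : H →L[ℂ] H) + b‖ ≤ 1 + 1 + 1 := by
      rw [← one_add_one_eq_two]
      exact norm_add_le_of_le (norm_add_le_of_le nm1 nm1) nb
    rw [norm_smul, norm_inv, Complex.norm_ofNat]
    linarith
  obtain ⟨k₁, hk₁⟩ := co 0 1 (by decide) B₁ s₁ n₁ c₁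
  obtain ⟨k₂, hk₂⟩ := co 2 3 (by decide) B₂ s₂ n₂ c₂
  have a₁ : ∀ i x, Commute (φ i x) k₁.a := hk₁ ▸ ca B₁ c₁
  have a₂ : ∀ i x, Commute (φ i x) k₂.a := hk₂ ▸ ca B₂ c₂
  have haa : ‖k₁.a * k₂.a - k₂.a * k₁.a‖ ≤ η / 256 := by
    have : k₁.a * k₂.a - k₂.a * k₁.a = (256⁻¹ : ℂ) • (B₁ * B₂ - B₂ * B₁) := by
      rw [hk₁, hk₂, smul_mul_smul_comm, smul_mul_smul_comm, ← smul_sub]
      congr 1
      · norm_num
      · noncomm_ring
    rw [this, norm_smul, norm_inv, Complex.norm_ofNat]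
    linarith
  have haa' : ‖k₂.a * k₁.a - k₁.a * k₂.a‖ ≤ η / 256 := by rw [norm_sub_rev]; exact haa
  -- commutation of the unitaries with the other legs
  have W₁ : ∀ i : Fin 4, 0 ≠ i → 1 ≠ i → ∀ x, Commute k₁.W (φ i x) ∧ Commute (star k₁.W) (φ i x) :=
    fun i h h' x => ⟨k₁.W_comm (F.com_map _ fun b => hφ _ _ h b x)
      (F.com_map _ fun b => hφ _ _ h' b x) (a₁ i x).symm, k₁.sW_comm
      (F.com_map _ fun b => hφ _ _ h b x) (F.com_map _ fun b => hφ _ _ h' b x) (a₁ i x).symm⟩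
  have W₂ : ∀ i : Fin 4, 2 ≠ i → 3 ≠ i → ∀ x, Commute k₂.W (φ i x) ∧ Commute (star k₂.W) (φ i x) :=
    fun i h h' x => ⟨k₂.W_comm (F.com_map _ fun b => hφ _ _ h b x)
      (F.com_map _ fun b => hφ _ _ h' b x) (a₂ i x).symm, k₂.sW_comm
      (F.com_map _ fun b => hφ _ _ h b x) (F.com_map _ fun b => hφ _ _ h' b x) (a₂ i x).symm⟩
  set W := k₂.W * k₁.W with hW
  have hW1 : star W * W = 1 := by
    rw [hW, star_mul, mul_assoc, ← mul_assoc (star k₂.W), k₂.star_W, one_mul, k₁.star_W]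
  have hW2 : W * star W = 1 := by
    rw [hW, star_mul, mul_assoc, ← mul_assoc k₁.W, k₁.W_star, one_mul, k₂.W_star]
  have ss : ∀ i k, star (φ i (F.s k)) = φ i (F.s k) := fun i k => by rw [← map_star, F.star_s]
  have sσ : ∀ i k, star (φ i (F.σ k)) = φ i (F.σ k) := fun i k => by rw [← map_star, F.star_σ]
  let Sm : Set (H →L[ℂ] H) := {x | ∃ k, x = W * φ 0 (F.s k) * star W ∨ x = W * φ 2 (F.s k) * star W}
  let Sn : Set (H →L[ℂ] H) := {x | ∃ k, x = φ 1 (F.σ k) ∨ x = φ 3 (F.σ k)}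
  have memN : ∀ z, z ∈ vnC Sn ↔ ∀ k, Commute (φ 1 (F.σ k)) z ∧ Commute (φ 3 (F.σ k)) z := by
    intro z
    rw [mem_vnC]
    refine ⟨fun h k => ⟨(h _ ⟨k, .inl rfl⟩).1, (h _ ⟨k, .inr rfl⟩).1⟩, ?_⟩
    rintro h _ ⟨k, rfl | rfl⟩
    · rw [sσ]; exact ⟨(h k).1, (h k).1⟩
    · rw [sσ]; exact ⟨(h k).2, (h k).2⟩
  refine ⟨(vnC Sm).commutant, vnC Sn, fun x hx nx => ?_, fun u hu hM => ?_⟩
  · set x₀ := star W * x * W with hx₀
    have hc : ∀ g, (∀ k, Commute (φ 0 (F.s k)) g) → (∀ k, Commute (φ 2 (F.s k)) g) →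
        Commute g x₀ := by
      intro g h0 h2
      have : W * g * star W ∈ vnC Sm := by
        rw [mem_vnC]
        rintro _ ⟨k, rfl | rfl⟩
        · simp only [star_mul, star_star, ss, ← mul_assoc]
          exact ⟨by simpa only [mul_assoc] using (conj_conj hW1 (h0 k)).eq,
            by simpa only [mul_assoc] using (conj_conj hW1 (h0 k)).eq⟩
        · simp only [star_mul, star_star, ss, ← mul_assoc]
          exact ⟨by simpa only [mul_assoc] using (conj_conj hW1 (h2 k)).eq,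
            by simpa only [mul_assoc] using (conj_conj hW1 (h2 k)).eq⟩
      have h3 := VonNeumannAlgebra.mem_commutant_iff.1 hx _ this
      rw [commute_iff_eq, hx₀]
      linear_combination (norm := noncomm_ring) star W * h3 * W - hW1 * g * star W * x * W +
        star W * x * W * g * hW1
    have hcφ : ∀ i : Fin 4, 0 ≠ i → 2 ≠ i → ∀ b, Commute (φ i b) x₀ := fun i h h' b =>
      hc _ (fun k => hφ _ _ h _ _) fun k => hφ _ _ h' _ _
    have hσ0 : ∀ j, Commute (φ 0 (F.σ j)) x₀ := fun j =>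
      hc _ (fun k => (F.s_σ k j).map (φ 0)) fun k => hφ _ _ (by decide) _ _
    have hσ2 : ∀ j, Commute (φ 2 (F.σ j)) x₀ := fun j =>
      hc _ (fun k => hφ _ _ (by decide) _ _) fun k => (F.s_σ k j).map (φ 2)
    have ha₁ : Commute k₁.a x₀ := hc _ (fun k => a₁ _ _) fun k => a₁ _ _
    have ha₂ : Commute k₂.a x₀ := hc _ (fun k => a₂ _ _) fun k => a₂ _ _
    set y₁ := k₁.W * x₀ * star k₁.W with hy₁
    have hxy : x = k₂.W * y₁ * star k₂.W := by
      have : W * x₀ * star W = x := by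
        rw [hx₀]
        linear_combination (norm := noncomm_ring) hW2 * x * W * star W + x * hW2
      rw [← this, hy₁, hW, star_mul]; noncomm_ring
    have hy : ∀ i : Fin 4, 0 ≠ i → 1 ≠ i → ∀ b, Commute (φ i b) x₀ → Commute (φ i b) y₁ :=
      fun i h h' b hb => ((W₁ i h h' b).1.symm.mul_right hb).mul_right (W₁ i h h' b).2.symm
    obtain ⟨w, w1, w2, w3⟩ := k₂.near (x := y₁)
      (F.com_map _ fun b => hy 3 (by decide) (by decide) b (hcφ 3 (by decide) (by decide) b))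
      (fun j => by
        show Commute ((F.map (φ 2)).σ j) y₁
        rw [F.map_σ]; exact hy 2 (by decide) (by decide) _ (hσ2 j))
    refine ⟨w, (memN w).2 fun k => ⟨(w2 _ (F.com_map _ fun b => hφ _ _ (by decide) _ _)
      (F.com_map _ fun b => hφ _ _ (by decide) _ _) (a₂ _ _).symm ?_).symm, ?_⟩, ?_⟩
    · have := k₁.conj_comm k (k₁.y_comm (x := x₀)
        (F.com_map _ fun b => hcφ 1 (by decide) (by decide) b) (fun j => by
          show Commute ((F.map (φ 0)).σ j) x₀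
          rw [F.map_σ]; exact hσ0 j) ha₁ (k₁.comm_δ' ha₁) k)
      rw [← F.map_σ]
      exact this.symm
    · rw [← F.map_σ]; exact w1 k
    · have b1 := (k₁.comm_W (F.com_map _ (a₂ 0)) (F.com_map _ (a₂ 1))).trans
        (mul_le_mul_of_nonneg_left haa (by norm_num))
      have b2 : ‖x₀‖ ≤ 1 * 1 * 1 := norm_mul_le_of_le (norm_mul_le_of_le
        ((norm_star _).le.trans (norm_le_one_of (hW1 ▸ nm1))) nx) (norm_le_one_of (hW1 ▸ nm1))
      have b3 : k₂.a * y₁ - y₁ * k₂.a = k₁.W * x₀ * star (k₁.W * k₂.a - k₂.a * k₁.W) -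
          (k₁.W * k₂.a - k₂.a * k₁.W) * x₀ * star k₁.W := by
        have := ha₂.eq
        rw [hy₁, star_sub, star_mul, star_mul, k₂.sa]
        linear_combination (norm := noncomm_ring) k₁.W * this * star k₁.W
      have b4 := norm_sub_le_of_le (norm_mul_le_of_le (norm_mul_le_of_le k₁.norm_W b2)
        ((norm_star _).le.trans b1)) (norm_mul_le_of_le (norm_mul_le_of_le b1 b2)
        ((norm_star _).le.trans k₁.norm_W))
      rw [← b3] at b4
      rw [hxy]
      have : 0 ≤ η := (norm_nonneg _).trans hη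
      linarith
  · by_contra hlt
    rw [not_le] at hlt
    have hu1 : star u * u = 1 := hu.1
    have hm : ∀ i : Fin 4, i = 0 ∨ i = 2 → ∀ k j,
        Commute (φ 1 (F.σ j)) (u * (W * φ i (F.s k) * star W) * star u) ∧
        Commute (φ 3 (F.σ j)) (u * (W * φ i (F.s k) * star W) * star u) := by
      intro i hi k
      refine (memN _).1 (hM _ (VonNeumannAlgebra.mem_commutant_iff.2 fun g hg =>
        ((mem_vnC.1 hg) _ ⟨k, ?_⟩).1.symm))
      rcases hi with rfl | rfl
      · exact .inl rfl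
      · exact .inr rfl
    set n := Fintype.card I
    let X : Fin 4 → Fin 4 → H →L[ℂ] H := fun i j =>
      (16 / n : ℂ) • ∑ k, u * (W * φ i (F.s k) * star W) * star u * φ j (F.σ k)
    have sX : ∀ i j, (∀ k, Commute (φ j (F.σ k)) (u * (W * φ i (F.s k) * star W) * star u)) →
        star (X i j) = X i j := fun i j h => by
      simp only [X, star_smul, star_sum]
      congr 1
      · simp
      · refine sum_congr rfl fun k _ => ?_
        rw [star_mul, sσ, ← (h k).eq]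
        simp only [star_mul, star_star, ss, mul_assoc]
    have sX₁ := sX 0 1 fun k => (hm 0 (.inl rfl) k k).1
    have sX₂ := sX 2 3 fun k => (hm 2 (.inr rfl) k k).2
    have cX : Commute (X 0 1) (X 2 3) := by
      refine ((Commute.sum_left _ _ _ fun k _ => Commute.sum_right _ _ _ fun j _ => ?_).smul_left
        _).smul_right _
      exact ((conj_conj hu1 (conj_conj hW1 (hφ _ _ (by decide) _ _))).mul_right
        (hm 0 (.inl rfl) k j).2.symm).mul_left
        ((hm 2 (.inr rfl) j k).1.mul_right (hφ _ _ (by decide) _ _))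
    have nW : ‖W‖ ≤ 1 := norm_le_one_of (hW1 ▸ nm1)
    have ns : ∀ i k, ‖W * φ i (F.s k) * star W‖ ≤ 2 := fun i k => by
      have h1 : ‖φ i (F.s k)‖ ≤ 2 := by rw [← F.map_s]; exact FR.norm_s _ k
      simpa using norm_mul_le_of_le (norm_mul_le_of_le nW h1) ((norm_star _).le.trans nW)
    have nσ : ∀ i k, ‖φ i (F.σ k)‖ ≤ 2 := fun i k => by rw [← F.map_σ]; exact FR.norm_σ _ k
    have pr : ∀ i j, i ≠ j → IsStarProjection (φ i F.P * φ j F.P) := fun i j h =>
      IsStarProjection.mul ⟨(F.map (φ i)).P_P, (F.map (φ i)).sP⟩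
        ⟨(F.map (φ j)).P_P, (F.map (φ j)).sP⟩ (hφ _ _ h _ _)
    have e₂ : ‖X 2 3 - (2 + B₂) * (φ 2 F.P * φ 3 F.P)‖ ≤ 128 * ‖u - 1‖ + 112 / 10000 + 16 * 0 := by
      refine approx_aux (Y := k₂.a * (φ 2 F.P * φ 3 F.P)) _ _ hu1 (ns 2) (nσ 3) hn ?_
        (by rw [hk₂, smul_mul_assoc, sub_self, norm_zero])
      refine le_trans (le_of_eq ?_) k₂.estimate
      congr 2
      refine sum_congr rfl fun k _ => ?_
      show _ = k₂.W * (F.map (φ 2)).s k * star k₂.W * (F.map (φ 3)).σ k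
      have h1 := (W₁ 2 (by decide) (by decide) (F.s k)).1.eq
      have h2 := k₁.W_star
      rw [F.map_s, F.map_σ, hW, star_mul]
      linear_combination (norm := noncomm_ring) k₂.W * h1 * star k₁.W * star k₂.W * φ 3 (F.σ k) +
        k₂.W * φ 2 (F.s k) * h2 * star k₂.W * φ 3 (F.σ k)
    have e₁ : ‖X 0 1 - (2 + B₁) * (φ 0 F.P * φ 1 F.P)‖ ≤
        128 * ‖u - 1‖ + 112 / 10000 + 16 * (16 * (η / 256)) := by
      refine approx_aux (Y := k₂.W * (k₁.a * (φ 0 F.P * φ 1 F.P)) * star k₂.W) _ _ hu1 (ns 0)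
        (nσ 1) hn ?_ ?_
      · have := norm_mul_le_of_le (norm_mul_le_of_le k₂.norm_W k₁.estimate)
          ((norm_star _).le.trans k₂.norm_W)
        rw [one_mul, mul_one] at this
        refine le_trans (le_of_eq ?_) this
        rw [mul_sub, sub_mul, mul_smul_comm, smul_mul_assoc, mul_sum, sum_mul]
        congr 2
        refine sum_congr rfl fun k _ => ?_
        show _ = k₂.W * (k₁.W * (F.map (φ 0)).s k * star k₁.W * (F.map (φ 1)).σ k) * star k₂.W
        have h1 := (W₂ 1 (by decide) (by decide) (F.σ k)).2.eq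
        rw [F.map_s, F.map_σ, hW, star_mul]
        linear_combination (norm := noncomm_ring) k₂.W * k₁.W * φ 0 (F.s k) * star k₁.W * h1
      · have b1 := (k₂.comm_W (F.com_map _ (a₁ 2)) (F.com_map _ (a₁ 3))).trans
          (mul_le_mul_of_nonneg_left haa' (by norm_num))
        have h1 := ((W₂ 0 (by decide) (by decide) F.P).1.mul_right
          (W₂ 1 (by decide) (by decide) F.P).1).eq
        have h2 := k₂.W_star
        have := norm_mul_le_of_le (norm_mul_le_of_le b1 (pr 0 1 (by decide)).norm_le)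
          ((norm_star _).le.trans k₂.norm_W)
        rw [mul_one, mul_one] at this
        refine le_trans (le_of_eq ?_) this
        rw [← smul_mul_assoc, ← hk₁]
        congr 1
        linear_combination (norm := noncomm_ring) k₁.a * h1 * star k₂.W +
          k₁.a * (φ 0 F.P * φ 1 F.P) * h2
    have cP : ∀ b : H →L[ℂ] H, (∀ i x, Commute (φ i x) b) → ∀ i j, Commute b (φ i F.P * φ j F.P) :=
      fun b h i j => (h i _).symm.mul_right (h j _).symm
    refine no_normal_block (Z := X 0 1 - 2 + Complex.I • (X 2 3 - 2)) ?_ (pr 0 1 (by decide))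
      (pr 2 3 (by decide)) (((hφ _ _ (by decide) _ _).mul_right (hφ _ _ (by decide) _ _)).mul_left
        ((hφ _ _ (by decide) _ _).mul_right (hφ _ _ (by decide) _ _))) hS n₁ n₂ (cP _ cS _ _)
      (cP _ cS _ _) (cP _ c₁ _ _) (cP _ c₁ _ _) (cP _ c₂ _ _) (cP _ c₂ _ _) hK hK' hv
      (by rw [mul_apply_eq_comp, hvP, hvP]) (by rw [mul_apply_eq_comp, hvP, hvP]) hvS ?_
    · have h1 : Commute (X 0 1 - 2) (X 2 3 - 2) :=
        (cX.sub_right (Commute.ofNat_right _ 2)).sub_left (Commute.ofNat_left 2 _)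
      rw [star_add, star_smul, star_sub, star_sub, sX₁, sX₂, star_ofNat]
      exact (((Commute.refl _).add_right (h1.smul_right _)).add_left
        ((h1.symm.add_right ((Commute.refl _).smul_right _)).smul_left _)).eq
    · have : X 0 1 - 2 + Complex.I • (X 2 3 - 2) - ((2 + B₁) * (φ 0 F.P * φ 1 F.P) - 2 +
          Complex.I • ((2 + B₂) * (φ 2 F.P * φ 3 F.P) - 2)) =
          (X 0 1 - (2 + B₁) * (φ 0 F.P * φ 1 F.P)) +
            Complex.I • (X 2 3 - (2 + B₂) * (φ 2 F.P * φ 3 F.P)) := by module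
      rw [this]
      refine (norm_add_le _ _).trans ?_
      rw [norm_smul, Complex.norm_I]
      linarith

end Crest.Agent.R78
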