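import Crest.Agent.R78.Base
import Crest.Prelude.Def_Hochschild

/-!
# Row 78, statement S0103 (Kadison–Kastler): definitions and interface statements

Every `...Stmt` is a `Prop`; proofs live in the other files of `Crest/Agent/R78/`.
Convention: `⟪a, b⟫_ℂ` is conjugate linear in `a`.
-/

set_option autoImplicit false

open scoped InnerProductSpace Matrix

noncomputable section

namespace Crest.Agent.R78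

open Crest.Agent.R124

universe u v

section
variable {H : Type u} [NormedAddCommGroup H] [InnerProductSpace ℂ H] [CompleteSpace H]

/-- The graph of `y ξ ↦ y⋆ ξ`. -/
def graph (M : VonNeumannAlgebra H) (ξ : H) : Set (H × H) :=
  {q | ∃ y ∈ M, q = (y ξ, star y ξ)}

/-- Rieffel–van Daele operators: `A = 2 (1 + Δ)⁻¹` and its conjugate linear partner `D`.
`(A η, D η)` is the orthogonal projection of `(2 η, 0)` onto the closed graph. -/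
structure IsRvD (M : VonNeumannAlgebra H) (ξ : H) (A : H →L[ℂ] H) (D : H →ₗ⋆[ℂ] H) : Prop where
  mem : ∀ η, (A η, D η) ∈ closure (graph M ξ)
  eqn : ∀ η, ∀ y ∈ M, ⟪y ξ, A η⟫_ℂ + ⟪D η, star y ξ⟫_ℂ = 2 * ⟪y ξ, η⟫_ℂ

/-- `p` is the support projection in `M` of the vector state of `ξ`. -/
structure IsSupp (M : VonNeumannAlgebra H) (ξ : H) (p : H →L[ℂ] H) : Prop where
  mem : p ∈ M
  proj : IsStarProjection p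
  fix : ∀ a ∈ M.commutant, p (a ξ) = a ξ
  sep : ∀ z ∈ M, z ξ = 0 → z * p = 0

end

/-- The function giving the RvD operator of a tensor product with a matrix state. -/
def tw (r a : ℝ) : ℝ := 2 * a / (a + r * (2 - a))

/-- The filter function (`cosh ((s + log r) / 2) ^ (-2 k)` for `a = 2 / (1 + e^s)`). -/
def gf (k : ℕ) (r a : ℝ) : ℝ := (tw r a * (2 - tw r a)) ^ k

/-- Sign/position vector of the catalyst. -/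
def wv {D : ℕ} {d : Fin D → ℕ} (f : (m : Fin D) → Fin (d m) × Bool) (i : Σ m, Fin (d m)) : ℝ :=
  if i.2 = (f i.1).1 then (if (f i.1).2 then 1 else -1) else 0

/-! ### Hahn–Banach and distance to the commutant -/

def HBStmt : Prop :=
  ∀ (H : Type u) [NormedAddCommGroup H] [InnerProductSpace ℂ H] [CompleteSpace H]
    (N : VonNeumannAlgebra H) (X : Type v) [NormedAddCommGroup X] [NormedSpace ℝ X]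
    (ι : X →ₗ[ℝ] (H →L[ℂ] H)) (γ : ℝ), 0 ≤ γ →
    (∀ (J : Type) [Fintype J] (x : J → X) (ζ η : J → H), (∀ j, ‖x j‖ ≤ 1) →
      ∑ j, ‖ζ j‖ ^ 2 ≤ 1 → ∑ j, ‖η j‖ ^ 2 ≤ 1 →
      (∀ y ∈ N, ∑ j, (⟪η j, y (ζ j)⟫_ℂ).re • x j = 0) →
      (∑ j, ⟪η j, ι (x j) (ζ j)⟫_ℂ).re ≤ γ) →
    ∃ L : X →ₗ[ℝ] (H →L[ℂ] H), ∀ x, L x ∈ N ∧ ‖L x - ι x‖ ≤ γ * ‖x‖

def DistStmt (C : ℝ) : Prop :=
  ∀ (H : Type u) [NormedAddCommGroup H] [InnerProductSpace ℂ H] [CompleteSpace H]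
    (P : VonNeumannAlgebra H) (Y : H →L[ℂ] H) (g : ℝ), 0 ≤ g →
    (∀ a ∈ P, ‖Y * a - a * Y‖ ≤ g * ‖a‖) → ∃ Z ∈ P.commutant, ‖Y - Z‖ ≤ C * g

def NearStmt (C : ℝ) : Prop :=
  ∀ (H : Type u) [NormedAddCommGroup H] [InnerProductSpace ℂ H] [CompleteSpace H]
    (M N : VonNeumannAlgebra H) (δ : ℝ), 0 ≤ δ → Near M N δ →
    Near N.commutant M.commutant (C * δ)

/-! ### Rieffel–van Daele calculus -/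

def RvDExStmt : Prop :=
  ∀ (H : Type u) [NormedAddCommGroup H] [InnerProductSpace ℂ H] [CompleteSpace H]
    (M : VonNeumannAlgebra H) (ξ : H), ∃ (A : H →L[ℂ] H) (D : H →ₗ⋆[ℂ] H), IsRvD M ξ A D

def SuppStmt : Prop :=
  ∀ (H : Type u) [NormedAddCommGroup H] [InnerProductSpace ℂ H] [CompleteSpace H]
    (M : VonNeumannAlgebra H) (ξ : H), ∃ p, IsSupp M ξ p

/-- Sakai's linear Radon–Nikodym theorem. -/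
def RNStmt : Prop :=
  ∀ (H : Type u) [NormedAddCommGroup H] [InnerProductSpace ℂ H] [CompleteSpace H]
    (M : VonNeumannAlgebra H) (ξ : H) (A : H →L[ℂ] H) (D : H →ₗ⋆[ℂ] H), IsRvD M ξ A D →
    ∀ p, IsSupp M ξ p → ∀ a ∈ M.commutant, 0 ≤ a →
      ∃ y ∈ M, 0 ≤ y ∧ ‖y‖ ≤ ‖a‖ ∧ y * p = y ∧ y ξ = A (a ξ)

def DualStmt : Prop :=
  ∀ (H : Type u) [NormedAddCommGroup H] [InnerProductSpace ℂ H] [CompleteSpace H]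
    (M : VonNeumannAlgebra H) (ξ : H) (A A' : H →L[ℂ] H) (D D' : H →ₗ⋆[ℂ] H), IsRvD M ξ A D →
    IsRvD M.commutant ξ A' D' → ∀ y ∈ M, A' (y ξ) = (2 - A) (y ξ)

def EntryStmt : Prop :=
  ∀ (H : Type u) [NormedAddCommGroup H] [InnerProductSpace ℂ H] [CompleteSpace H]
    (M : VonNeumannAlgebra H) (ξ : H) (A : H →L[ℂ] H) (D : H →ₗ⋆[ℂ] H), IsRvD M ξ A D →
    ∀ (ι : Type) [Fintype ι] [DecidableEq ι] (μ : ι → ℝ), (∀ i, 0 < μ i) →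
    ∀ (Ab : Amp ι (Amp ι H) →L[ℂ] Amp ι (Amp ι H)) (Db : Amp ι (Amp ι H) →ₗ⋆[ℂ] Amp ι (Amp ι H)),
      IsRvD (bigVN ι M) (bigVec μ ξ) Ab Db →
      ∀ (Θ : Amp ι (Amp ι H)) (j i : ι), Ab Θ j i = cfc (tw (μ i / μ j)) A (Θ j i)

def TwoPosStmt : Prop :=
  ∀ (H : Type u) [NormedAddCommGroup H] [InnerProductSpace ℂ H] [CompleteSpace H]
    (N : VonNeumannAlgebra H) (Ξ : H) (A : H →L[ℂ] H) (D : H →ₗ⋆[ℂ] H), IsRvD N Ξ A D →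
    ∀ X ∈ N.commutant, ∀ Y ∈ N.commutant, ∀ X₁ ∈ N.commutant, ∀ Y₁ ∈ N.commutant,
      2 * (⟪A ((star X * Y) Ξ), (star X₁ * Y₁) Ξ⟫_ℂ).re ≤
        (⟪A ((star X * X) Ξ), (star X₁ * X₁) Ξ⟫_ℂ).re +
          (⟪A ((star Y * Y) Ξ), (star Y₁ * Y₁) Ξ⟫_ℂ).re

def ApproxStmt : Prop :=
  ∀ (H : Type u) [NormedAddCommGroup H] [InnerProductSpace ℂ H] [CompleteSpace H]
    (M : VonNeumannAlgebra H) (ξ : H) (A : H →L[ℂ] H) (D : H →ₗ⋆[ℂ] H), IsRvD M ξ A D →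
    ∀ x ∈ M, ∀ a ∈ M.commutant, ∀ ε : ℝ, 0 < ε → ∃ η : ℝ, 0 < η ∧
      ∀ φ : ℝ → ℝ, ContinuousOn φ (Set.Icc 0 2) → (∀ s ∈ Set.Icc (0 : ℝ) 2, |φ s - 1| ≤ 1) →
        (∀ s ∈ Set.Icc (0 : ℝ) 2, |φ s - 1| * (s * (2 - s)) ≤ η) →
        ‖⟪a ξ, cfc φ A (x ξ)⟫_ℂ - ⟪a ξ, x ξ⟫_ℂ‖ ≤ ε

/-! ### Lemma A: centralised tests -/

def LemAStmt : Prop :=
  ∀ (H : Type u) [NormedAddCommGroup H] [InnerProductSpace ℂ H] [CompleteSpace H]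
    (M N : VonNeumannAlgebra H) (δ e Λ : ℝ) (Ξ : H) (J : Type) [Fintype J] [Nonempty J]
    (u u' c c' : J → (H →L[ℂ] H)) (n : ℕ), 1 ≤ n → 0 ≤ δ → δ ≤ 1 → 0 ≤ e → 0 ≤ Λ → ‖Ξ‖ ≤ 2 →
    Near M N δ → Near M.commutant N.commutant δ →
    (∀ j, u j ∈ M ∧ u j ∈ unitary (H →L[ℂ] H)) →
    (∀ j, u' j ∈ M.commutant ∧ u' j ∈ unitary (H →L[ℂ] H)) →
    (∀ j, c j ∈ M.commutant ∧ c j ∈ N.commutant ∧ c' j ∈ M.commutant ∧ c' j ∈ N.commutant) →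
    (∀ w, ∑ j, ‖c j w‖ ^ 2 ≤ Fintype.card J * ‖w‖ ^ 2) →
    (∀ w, ∑ j, ‖c' j w‖ ^ 2 ≤ Fintype.card J * ‖w‖ ^ 2) →
    (∀ j w, ‖c j w‖ ^ 2 ≤ Λ * ‖w‖ ^ 2) → (∀ j w, ‖c' j w‖ ^ 2 ≤ Λ * ‖w‖ ^ 2) →
    IsSelfAdjoint (∑ j, u j * u' j) → (∀ j, ‖u j (u' j Ξ) - Ξ‖ ≤ e) →
    (∀ y ∈ N, ∑ j, ⟪c' j Ξ, y (c j Ξ)⟫_ℂ • u j = 0) →
    ‖∑ j, ⟪c' j Ξ, u j (c j Ξ)⟫_ℂ‖ ≤ Fintype.card J * (100 * (δ * (1 + Λ / n) + √n * e))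

/-! ### Lemma B: the catalyst -/

def CatStmt : Prop :=
  ∀ η : ℝ, 0 < η → ∃ (D k : ℕ) (d : Fin D → ℕ) (μ : Fin D → ℝ) (θ ρ : ℝ),
    0 < D ∧ 1 ≤ k ∧ 0 < θ ∧ 0 ≤ ρ ∧ (∀ m, 0 < μ m) ∧ (∀ m, 0 < d m) ∧
    ∑ m, (d m : ℝ) * μ m ≤ 2 ∧ (∀ m, 1 ≤ (D : ℝ) * d m * μ m) ∧
    (∀ m, ∑ m', gf k (μ m / μ m') 1 ≤ θ) ∧
    (∀ a ∈ Set.Icc (0 : ℝ) 2, |(∑ m, ∑ m', gf k (μ m / μ m') a) / (D * θ) - 1| ≤ 1) ∧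
    (∀ a ∈ Set.Icc (0 : ℝ) 2,
      |(∑ m, ∑ m', gf k (μ m / μ m') a) / (D * θ) - 1| * (a * (2 - a)) ≤ η) ∧
    (∀ a ∈ Set.Icc (0 : ℝ) 2,
      ∑ m, ∑ m', μ m' * ((tw (μ m / μ m') a - 1) * gf k (μ m / μ m') a) ^ 2 ≤ ρ * θ ^ 2) ∧
    (∑ m, 1 / (D * μ m) + 1) * ρ ≤ η

def AvgStmt : Prop :=
  ∀ (K : Type u) [NormedAddCommGroup K] [InnerProductSpace ℂ K] (D : ℕ) (d : Fin D → ℕ),
    (∀ m, 0 < d m) → ∀ Θ : (Σ m, Fin (d m)) → K,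
      ∑ f : (m : Fin D) → Fin (d m) × Bool, ‖∑ i, ((wv f i : ℝ) : ℂ) • Θ i‖ ^ 2 =
        Fintype.card ((m : Fin D) → Fin (d m) × Bool) * ∑ i, ‖Θ i‖ ^ 2 / d i.1

def FiltStmt : Prop :=
  ∀ (H : Type u) [NormedAddCommGroup H] [InnerProductSpace ℂ H] [CompleteSpace H]
    (M : VonNeumannAlgebra H) (ξ : H) (A : H →L[ℂ] H) (D : H →ₗ⋆[ℂ] H), IsRvD M ξ A D →
    ∀ p, IsSupp M ξ p → ∀ k : ℕ, 1 ≤ k → ∀ (θ : ℝ) (bp bm g : H →L[ℂ] H),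
      bp ∈ M → bm ∈ M → g ∈ M → 0 ≤ bp → 0 ≤ bm → ‖g‖ ≤ θ →
      ((A * (2 - A)) ^ k) ((bp + bm) ξ) = (2 : ℂ) • g ξ →
      ∃ t ∈ M, ∃ c ∈ M.commutant, IsSelfAdjoint t ∧ IsSelfAdjoint c ∧ ‖t‖ ≤ θ ∧ ‖c‖ ≤ θ ∧
        t * p = t ∧ (2 : ℂ) • t ξ = ((A * (2 - A)) ^ k) ((bp - bm) ξ) ∧ c ξ = (2 - A) (t ξ)

def UnitStmt : Prop :=
  ∀ (H : Type u) [NormedAddCommGroup H] [InnerProductSpace ℂ H] [CompleteSpace H]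
    (M : VonNeumannAlgebra H) (ξ : H), ∀ t ∈ M, ∀ c ∈ M.commutant, IsSelfAdjoint t →
    IsSelfAdjoint c → ‖t‖ ≤ 1 → ‖c‖ ≤ 1 →
    ∃ u ∈ M, ∃ u' ∈ M.commutant, u ∈ unitary (H →L[ℂ] H) ∧ u' ∈ unitary (H →L[ℂ] H) ∧
      u + star u = t ∧ ‖u (u' ξ) - ξ‖ ≤ ‖t ξ - c ξ‖ ∧ ‖star u (star u' ξ) - ξ‖ ≤ ‖t ξ - c ξ‖

def BlockStmt : Prop :=
  ∀ (H : Type u) [NormedAddCommGroup H] [InnerProductSpace ℂ H] [CompleteSpace H]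
    (M : VonNeumannAlgebra H) (ξ : H) (A : H →L[ℂ] H) (D : H →ₗ⋆[ℂ] H), IsRvD M ξ A D →
    ∀ (ι : Type) [Fintype ι] [DecidableEq ι] (μ w : ι → ℝ) (k : ℕ) (θ ρ : ℝ), (∀ i, 0 < μ i) →
      (∀ i, w i = 0 ∨ w i = 1 ∨ w i = -1) → 1 ≤ k → 0 < θ →
      (∀ i, w i ≠ 0 → ∑ j, w j ^ 2 * gf k (μ i / μ j) 1 ≤ θ) →
      (∀ a ∈ Set.Icc (0 : ℝ) 2, ∑ i, ∑ j, w i ^ 2 * w j ^ 2 *
        (μ j * ((tw (μ i / μ j) a - 1) * gf k (μ i / μ j) a) ^ 2) ≤ ρ * θ ^ 2) →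
      ∃ p : Amp ι (Amp ι H) →L[ℂ] Amp ι (Amp ι H),
        (∀ z ∈ bigVN ι M, z (bigVec μ ξ) = 0 → z * p = 0) ∧
        ∀ x ∈ M, IsSelfAdjoint x → ‖x‖ ≤ 1 →
          ∃ t ∈ bigVN ι M, ∃ c ∈ (bigVN ι M).commutant, IsSelfAdjoint t ∧ IsSelfAdjoint c ∧
            ‖t‖ ≤ 1 ∧ ‖c‖ ≤ 1 ∧ t * p = t ∧
            (∀ j i, t (bigVec μ ξ) j i =
              ((√(μ j) * w i * w j / θ : ℝ) : ℂ) • cfc (gf k (μ i / μ j)) A (x ξ)) ∧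
            ‖t (bigVec μ ξ) - c (bigVec μ ξ)‖ ^ 2 ≤ ρ * ‖x ξ‖ ^ 2

/-- The test inequality for dominated tests. -/
def Test0Stmt : Prop :=
  ∀ (H : Type u) [NormedAddCommGroup H] [InnerProductSpace ℂ H] [CompleteSpace H]
    (M N : VonNeumannAlgebra H) (δ Λ : ℝ) (ξ : H) (J : Type) [Fintype J] [Nonempty J]
    (x c c' : J → (H →L[ℂ] H)), 0 ≤ δ → δ ≤ 1 → 1 ≤ Λ → ‖ξ‖ ^ 2 ≤ 2 →
    (∀ (ι : Type) [Fintype ι] [DecidableEq ι], Near (bigVN ι M) (bigVN ι N) δ ∧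
      Near (bigVN ι M).commutant (bigVN ι N).commutant δ) →
    (∀ j, x j ∈ M ∧ IsSelfAdjoint (x j) ∧ ‖x j‖ ≤ 1) →
    (∀ j, c j ∈ M.commutant ∧ c j ∈ N.commutant ∧ c' j ∈ M.commutant ∧ c' j ∈ N.commutant) →
    (∀ w, ∑ j, ‖c j w‖ ^ 2 ≤ Fintype.card J * ‖w‖ ^ 2) →
    (∀ w, ∑ j, ‖c' j w‖ ^ 2 ≤ Fintype.card J * ‖w‖ ^ 2) →
    (∀ j w, ‖c j w‖ ^ 2 ≤ Λ * ‖w‖ ^ 2) → (∀ j w, ‖c' j w‖ ^ 2 ≤ Λ * ‖w‖ ^ 2) →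
    (∀ y ∈ N, ∑ j, ⟪c' j ξ, y (c j ξ)⟫_ℂ • x j = 0) →
    ‖∑ j, ⟪c' j ξ, x j (c j ξ)⟫_ℂ‖ ≤ Fintype.card J * (400 * δ)

/-- The test inequality. -/
def TestStmt (C δ₀ : ℝ) : Prop :=
  ∀ (H : Type u) [NormedAddCommGroup H] [InnerProductSpace ℂ H] [CompleteSpace H]
    (M N : VonNeumannAlgebra H) (δ : ℝ), 0 ≤ δ → δ ≤ δ₀ → Near2 M N δ →
    ∀ (J : Type) [Fintype J] (x : J → (H →L[ℂ] H)) (ζ η : J → H),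
      (∀ j, x j ∈ M ∧ IsSelfAdjoint (x j) ∧ ‖x j‖ ≤ 1) →
      ∑ j, ‖ζ j‖ ^ 2 ≤ 1 → ∑ j, ‖η j‖ ^ 2 ≤ 1 →
      (∀ y ∈ N, ∑ j, ⟪η j, y (ζ j)⟫_ℂ • x j = 0) →
      ‖∑ j, ⟪η j, x j (ζ j)⟫_ℂ‖ ≤ C * δ

/-! ### From the linear lifting to a unitary -/

/-- `L : M → N` is linear, adjoint preserving and `γ`-close to the inclusion. -/
def IsLift {H : Type u} [NormedAddCommGroup H] [InnerProductSpace ℂ H] [CompleteSpace H]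
    (M N : VonNeumannAlgebra H) (γ : ℝ) (L : M.toStarSubalgebra →ₗ[ℂ] (H →L[ℂ] H)) : Prop :=
  ∀ x : M.toStarSubalgebra, L x ∈ N ∧ L (star x) = star (L x) ∧
    ‖L x - (x : H →L[ℂ] H)‖ ≤ γ * ‖x‖

def LiftStmt (C δ₀ : ℝ) : Prop :=
  ∀ (H : Type u) [NormedAddCommGroup H] [InnerProductSpace ℂ H] [CompleteSpace H]
    (M N : VonNeumannAlgebra H) (δ : ℝ), 0 ≤ δ → δ ≤ δ₀ → Near2 M N δ →
    ∃ L, IsLift M N (C * δ) L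

/-- Vanishing of bounded Hochschild cohomology with an absolute norm bound. -/
def CohStmt (n : ℕ) (K : ℝ) : Prop :=
  ∀ (H : Type u) [NormedAddCommGroup H] [InnerProductSpace ℂ H] [CompleteSpace H]
    (M : VonNeumannAlgebra H)
    (f : ContinuousMultilinearMap ℂ (fun _ : Fin (n + 1) => M.toStarSubalgebra) M.toStarSubalgebra),
    (∀ a : Fin (n + 2) → M.toStarSubalgebra, Crest.OpAlg.hochschildDiff f a = 0) →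
    ∃ g : ContinuousMultilinearMap ℂ (fun _ : Fin n => M.toStarSubalgebra) M.toStarSubalgebra,
      (∀ a : Fin (n + 1) → M.toStarSubalgebra, Crest.OpAlg.hochschildDiff g a = f a) ∧
        ‖g‖ ≤ K * ‖f‖

/-- One Newton step: the multiplicative defect is halved. -/
def StepStmt (C γ₀ : ℝ) : Prop :=
  ∀ (H : Type u) [NormedAddCommGroup H] [InnerProductSpace ℂ H] [CompleteSpace H]
    (M N : VonNeumannAlgebra H) (L : M.toStarSubalgebra →ₗ[ℂ] (H →L[ℂ] H))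
    (L' : N.toStarSubalgebra →ₗ[ℂ] (H →L[ℂ] H)), IsLift M N γ₀ L → IsLift N M γ₀ L' →
    ∀ (θ : M.toStarSubalgebra →ₗ[ℂ] (H →L[ℂ] H)) (η : ℝ), IsLift M N γ₀ θ → 0 ≤ η → η ≤ γ₀ →
      (∀ x y, ‖θ (x * y) - θ x * θ y‖ ≤ η * ‖x‖ * ‖y‖) →
      ∃ θ' : M.toStarSubalgebra →ₗ[ℂ] (H →L[ℂ] H),
        (∀ x, θ' x ∈ N ∧ θ' (star x) = star (θ' x) ∧ ‖θ' x - θ x‖ ≤ C * η * ‖x‖) ∧
        ∀ x y, ‖θ' (x * y) - θ' x * θ' y‖ ≤ η / 2 * ‖x‖ * ‖y‖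

def HomStmt (C γ₀ : ℝ) : Prop :=
  ∀ (H : Type u) [NormedAddCommGroup H] [InnerProductSpace ℂ H] [CompleteSpace H]
    (M N : VonNeumannAlgebra H) (γ : ℝ) (L : M.toStarSubalgebra →ₗ[ℂ] (H →L[ℂ] H))
    (L' : N.toStarSubalgebra →ₗ[ℂ] (H →L[ℂ] H)), 0 ≤ γ → γ ≤ γ₀ → IsLift M N γ L →
    IsLift N M γ L' →
    ∃ θ : M.toStarSubalgebra →⋆ₐ[ℂ] (H →L[ℂ] H),
      ∀ x, θ x ∈ N ∧ ‖θ x - (x : H →L[ℂ] H)‖ ≤ C * γ * ‖x‖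

/-- A `⋆`-homomorphism close to the inclusion is implemented by a unitary close to `1`. -/
def ImplStmt (C γ₀ : ℝ) : Prop :=
  ∀ (H : Type u) [NormedAddCommGroup H] [InnerProductSpace ℂ H] [CompleteSpace H]
    (M : VonNeumannAlgebra H) (γ : ℝ) (θ : M.toStarSubalgebra →⋆ₐ[ℂ] (H →L[ℂ] H)),
    0 ≤ γ → γ ≤ γ₀ → (∀ x, ‖θ x - (x : H →L[ℂ] H)‖ ≤ γ * ‖x‖) →
    ∃ w : H →L[ℂ] H, w ∈ unitary (H →L[ℂ] H) ∧ ‖w - 1‖ ≤ C * γ ∧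
      ∀ x : M.toStarSubalgebra, θ x = w * x * star w

/-- The statement S0103. -/
def S0103Stmt : Prop :=
  ∀ ε : ℝ, 0 < ε → ∃ δ : ℝ, 0 < δ ∧
    ∀ (H : Type u) [NormedAddCommGroup H] [InnerProductSpace ℂ H] [CompleteSpace H]
      (M N : VonNeumannAlgebra H),
      (∀ x ∈ M, ‖x‖ ≤ 1 → ∃ y ∈ N, ‖y‖ ≤ 1 ∧ ‖x - y‖ < δ) →
      (∀ y ∈ N, ‖y‖ ≤ 1 → ∃ x ∈ M, ‖x‖ ≤ 1 ∧ ‖y - x‖ < δ) →
      ∃ w : H →L[ℂ] H, w ∈ unitary (H →L[ℂ] H) ∧ ‖w - 1‖ < ε ∧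
        ∀ y : H →L[ℂ] H, y ∈ N ↔ ∃ x ∈ M, y = w * x * star w

end Crest.Agent.R78
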