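import Crest.Agent.R78.RvD

/-!
# Row 78: the entry lemma and two-positivity
-/

set_option autoImplicit false
set_option linter.unusedSectionVars false
set_option linter.deprecated false

open scoped InnerProductSpace Matrix ComplexConjugate

noncomputable section

namespace Crest.Agent.R78

open Crest.Agent.R124

universe u

section aux
variable {H : Type u} [NormedAddCommGroup H] [InnerProductSpace ℂ H] [CompleteSpace H]
variable {ι : Type} [Fintype ι] [DecidableEq ι]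

lemma entry_bigVec_outer (μ : ι → ℝ) (ξ : H) (j : ι) :
    bigVec μ ξ j = inj j (((√(μ j) : ℝ) : ℂ) • ξ) := by
  ext i
  rw [bigVec_apply, inj_apply]
  split_ifs with h
  · rw [h]
  · rfl

lemma entry_diag_apply (μ : ι → ℝ) (ξ : H) (Y : Amp ι H →L[ℂ] Amp ι H) (j i : ι) :
    diagOp ι Y (bigVec μ ξ) j i = ((√(μ j) : ℝ) : ℂ) • ent Y i j ξ := by
  rw [diagOp_apply, entry_bigVec_outer, ← ent_apply, map_smul]

lemma entry_single_apply (μ : ι → ℝ) (ξ : H) (y : H →L[ℂ] H) (i j : ι) :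
    diagOp ι (matOp (Matrix.single i j y)) (bigVec μ ξ) =
      inj j (inj i (((√(μ j) : ℝ) : ℂ) • y ξ)) := by
  ext l : 1
  rw [diagOp_apply, matOp_single_apply, bigVec_apply, inj_apply]
  by_cases h : l = j
  · subst h; simp
  · simp [h, Ne.symm h]

lemma entry_single_star (y : H →L[ℂ] H) (i j : ι) :
    star (diagOp ι (matOp (Matrix.single i j y))) =
      diagOp ι (matOp (Matrix.single j i (star y))) := by
  rw [← diagOp_star, ← matOp_star]
  congr 2
  ext1 a b
  rw [Matrix.star_apply, Matrix.single_apply, Matrix.single_apply]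
  by_cases h1 : i = b <;> by_cases h2 : j = a <;> simp [h1, h2]

lemma entry_graph {M : VonNeumannAlgebra H} {ξ : H} (μ : ι → ℝ) (i j : ι) {q : H × H}
    (hq : q ∈ closure (graph M ξ)) :
    ((inj j (inj i (((√(μ j) : ℝ) : ℂ) • q.1)), inj i (inj j (((√(μ i) : ℝ) : ℂ) • q.2))) :
      Amp ι (Amp ι H) × Amp ι (Amp ι H)) ∈ closure (graph (bigVN ι M) (bigVec μ ξ)) := by
  refine map_mem_closure (f := fun q : H × H =>
    ((inj j (inj i (((√(μ j) : ℝ) : ℂ) • q.1)), inj i (inj j (((√(μ i) : ℝ) : ℂ) • q.2))) :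
      Amp ι (Amp ι H) × Amp ι (Amp ι H))) (by fun_prop) hq ?_
  rintro _ ⟨y, hy, rfl⟩
  refine ⟨diagOp ι (matOp (Matrix.single i j y)), diagOp_mem_diagVN (matOp_mem_matVN.2 ?_), ?_⟩
  · intro a b
    rw [Matrix.single_apply]
    split_ifs
    · exact hy
    · exact zero_mem M
  · rw [entry_single_star, entry_single_apply, entry_single_apply]

lemma entry_cfc {A : H →L[ℂ] H} (hA : IsSelfAdjoint A) (hs : spectrum ℝ A ⊆ Set.Icc 0 2)
    {a b : ℝ} (ha : 0 < a) (hb : 0 < b) :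
    ∃ G : H →L[ℂ] H, ∀ η, (b : ℂ) • A (G η) + (a : ℂ) • (2 - A) (G η) = (2 * (√b : ℝ) : ℂ) • η ∧
      ((√b : ℝ) : ℂ) • A (G η) = cfc (tw (a / b)) A η := by
  have hden : ∀ s ∈ spectrum ℝ A, 0 < b * s + a * (2 - s) := fun s h => by
    obtain ⟨h0, h2⟩ := hs h
    rcases h0.eq_or_lt with h | h
    · rw [← h]; linarith
    · have := mul_pos hb h
      have := mul_nonneg ha.le (sub_nonneg.2 h2)
      linarith
  set g : ℝ → ℝ := fun s => 2 * √b / (b * s + a * (2 - s)) with hg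
  have hgc : ContinuousOn g (spectrum ℝ A) :=
    ContinuousOn.div continuousOn_const (by fun_prop) fun s h => (hden s h).ne'
  have hAG : A * cfc g A = cfc (fun s => s * g s) A := by
    rw [cfc_mul (fun s : ℝ => s) g A, cfc_id' ℝ A]
  have h1 : b • (A * cfc g A) + a • ((2 : ℝ) • cfc g A - A * cfc g A) =
      (2 * √b) • (1 : H →L[ℂ] H) := by
    rw [hAG, ← cfc_const_mul b _ A, ← cfc_const_mul 2 g A, ← cfc_sub _ _ A,
      ← cfc_const_mul a _ A, ← cfc_add (a := A) _ _, ← Algebra.algebraMap_eq_smul_one,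
      ← cfc_const (2 * √b) A]
    refine cfc_congr fun s h => ?_
    have := (hden s h).ne'
    simp only [hg]
    field_simp
  have h2 : √b • (A * cfc g A) = cfc (tw (a / b)) A := by
    rw [hAG, ← cfc_const_mul _ _ A]
    refine cfc_congr fun s h => ?_
    have := (hden s h).ne'
    have hb' := hb.ne'
    have h3 : s + a / b * (2 - s) = (b * s + a * (2 - s)) / b := by field_simp
    simp only [hg, tw]
    rw [h3]
    field_simp
    rw [Real.sq_sqrt hb.le, mul_comm b s]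
  refine ⟨cfc g A, fun η => ⟨?_, ?_⟩⟩
  · have := congrArg (fun T : H →L[ℂ] H => T η) h1
    simp only [ContinuousLinearMap.add_apply, ContinuousLinearMap.smul_apply,
      ContinuousLinearMap.sub_apply, ContinuousLinearMap.mul_apply,
      ContinuousLinearMap.one_apply] at this
    rw [two_sub_apply, Complex.coe_smul, Complex.coe_smul]
    have e2 : (2 : ℂ) • cfc g A η = (2 : ℝ) • cfc g A η := by
      rw [← Complex.coe_smul]; norm_num
    have e3 : (2 * (√b : ℝ) : ℂ) • η = (2 * √b) • η := by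
      rw [← Complex.coe_smul]; norm_num
    rw [e2, e3, this]
  · rw [← h2, Complex.coe_smul]; rfl

lemma entry_basic {M : VonNeumannAlgebra H} {ξ : H} {A : H →L[ℂ] H} {D : H →ₗ⋆[ℂ] H}
    (h : IsRvD M ξ A D) {μ : ι → ℝ} (hμ : ∀ i, 0 < μ i)
    {Ab : Amp ι (Amp ι H) →L[ℂ] Amp ι (Amp ι H)} {Db : Amp ι (Amp ι H) →ₗ⋆[ℂ] Amp ι (Amp ι H)}
    (hb : IsRvD (bigVN ι M) (bigVec μ ξ) Ab Db) (j i : ι) (η : H) :
    Ab (inj j (inj i η)) = inj j (inj i (cfc (tw (μ i / μ j)) A η)) := by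
  obtain ⟨G, hG⟩ := entry_cfc h.isSelfAdjoint h.spectrum_subset (hμ i) (hμ j)
  obtain ⟨h1, h2⟩ := hG η
  rw [← h2]
  refine (hb.unique (entry_graph μ i j (h.mem (G η))) fun Y hY => ?_).1
  obtain ⟨Y0, hY0, rfl⟩ := mem_diagVN.1 hY
  have hy : ent Y0 i j ∈ M := mem_matVN.1 hY0 i j
  have inner_right : ∀ (w : Amp ι (Amp ι H)) (z : H),
      ⟪w, inj j (inj i z)⟫_ℂ = ⟪w j i, z⟫_ℂ := fun w z => by
    rw [← inner_conj_symm, inner_inj_left, inner_inj_left, inner_conj_symm]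
  rw [inner_right, inner_right, inner_inj_left, inner_inj_left, ← diagOp_star, entry_diag_apply,
    entry_diag_apply, ent_star, Matrix.star_apply]
  simp only [inner_smul_left, inner_smul_right, Complex.conj_ofReal]
  rw [h.inner_D _ hy]
  have h3 := congrArg (fun z => ⟪ent Y0 i j ξ, z⟫_ℂ) h1
  simp only [inner_add_right, inner_smul_right] at h3
  have ei : ((√(μ i) : ℝ) : ℂ) * ((√(μ i) : ℝ) : ℂ) = μ i := by
    rw [← Complex.ofReal_mul, Real.mul_self_sqrt (hμ i).le]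
  have ej : ((√(μ j) : ℝ) : ℂ) * ((√(μ j) : ℝ) : ℂ) = μ j := by
    rw [← Complex.ofReal_mul, Real.mul_self_sqrt (hμ j).le]
  linear_combination h3 + ⟪ent Y0 i j ξ, A (G η)⟫_ℂ * ej + ⟪ent Y0 i j ξ, (2 - A) (G η)⟫_ℂ * ei

end aux

theorem entry : EntryStmt.{u} := by
  intro H _ _ _ M ξ A D h ι _ _ μ hμ Ab Db hb Θ j i
  have e : Θ = ∑ l, ∑ m, inj l (inj m (Θ l m)) := by
    conv_lhs => rw [← sum_inj Θ]
    refine Finset.sum_congr rfl fun l _ => ?_
    rw [← map_sum, sum_inj]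
  have e2 : Ab Θ = ∑ l, inj l (∑ m, inj m (cfc (tw (μ m / μ l)) A (Θ l m))) := by
    conv_lhs => rw [e]
    simp only [map_sum, entry_basic h hμ hb]
  rw [e2, amp_sum_apply, Finset.sum_eq_single j]
  · rw [inj_apply, if_pos rfl, amp_sum_apply, Finset.sum_eq_single i]
    · rw [inj_apply, if_pos rfl]
    · intro k _ hk; rw [inj_apply, if_neg (Ne.symm hk)]
    · simp
  · intro k _ hk; rw [inj_apply, if_neg (Ne.symm hk)]
  · simp

section aux2
variable {H : Type u} [NormedAddCommGroup H] [InnerProductSpace ℂ H] [CompleteSpace H]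

/-- The row operator with entries `1 ⊗ V l`. -/
def entryRow (V : Fin 2 → (H →L[ℂ] H)) :
    Amp (Fin 2) (Amp (Fin 2) H) →L[ℂ] Amp (Fin 2) (Amp (Fin 2) H) :=
  matOp (Matrix.of fun a l => if a = 0 then diagOp (Fin 2) (V l) else 0)

lemma entryRow_mem {N : VonNeumannAlgebra H} {V : Fin 2 → (H →L[ℂ] H)}
    (hV : ∀ l, V l ∈ N.commutant) : entryRow V ∈ (bigVN (Fin 2) N).commutant := by
  rw [bigVN, commutant_diagVN, commutant_matVN, entryRow, matOp_mem_matVN]
  intro a l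
  rw [Matrix.of_apply]
  split_ifs
  · exact diagOp_mem_diagVN (hV l)
  · exact zero_mem _

lemma entryRow_apply (V : Fin 2 → (H →L[ℂ] H)) (Ξ : H) (j i : Fin 2) :
    (star (entryRow V) * entryRow V) (bigVec (fun _ => 1) Ξ) j i = (star (V j) * V i) Ξ := by
  rw [entryRow, ← matOp_star, ← matOp_mul, matOp_apply, amp_sum_apply]
  have e : ∀ l : Fin 2, (star (Matrix.of fun a l => if a = 0 then diagOp (Fin 2) (V l) else 0) *
      (Matrix.of fun a l => if a = 0 then diagOp (Fin 2) (V l) else 0) :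
      Matrix (Fin 2) (Fin 2) (Amp (Fin 2) H →L[ℂ] Amp (Fin 2) H)) j l =
        diagOp (Fin 2) (star (V j) * V l) := fun l => by
    rw [Matrix.mul_apply, Fin.sum_univ_two]
    simp [Matrix.star_apply, diagOp_mul, diagOp_star]
  simp only [e, diagOp_apply, bigVec_apply]
  rw [Finset.sum_eq_single i]
  · simp
  · intro k _ hk; simp [Ne.symm hk]
  · simp

end aux2

theorem twoPos (hEx : RvDExStmt.{u}) (hS : SuppStmt.{u}) (hRN : RNStmt.{u}) : TwoPosStmt.{u} := by
  intro H _ _ _ N Ξ A D h X hX Y hY X₁ hX₁ Y₁ hY₁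
  obtain ⟨Ab, Db, hb⟩ := hEx _ (bigVN (Fin 2) N) (bigVec (fun _ => 1) Ξ)
  obtain ⟨p, hp⟩ := hS _ (bigVN (Fin 2) N) (bigVec (fun _ => 1) Ξ)
  have hV : ∀ l, (![X, Y] : Fin 2 → (H →L[ℂ] H)) l ∈ N.commutant := fun l => by
    fin_cases l
    · exact hX
    · exact hY
  have hV₁ : ∀ l, (![X₁, -Y₁] : Fin 2 → (H →L[ℂ] H)) l ∈ N.commutant := fun l => by
    fin_cases l
    · exact hX₁
    · exact neg_mem hY₁
  have hR := entryRow_mem hV
  have hR₁ := entryRow_mem hV₁
  obtain ⟨y, hy, hy0, -, -, hyΞ⟩ := hRN _ _ _ Ab Db hb p hp _ (mul_mem (star_mem hR) hR)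
    (star_mul_self_nonneg _)
  have hpos : 0 ≤ (⟪Ab ((star (entryRow ![X, Y]) * entryRow ![X, Y]) (bigVec (fun _ => 1) Ξ)),
      (star (entryRow ![X₁, -Y₁]) * entryRow ![X₁, -Y₁]) (bigVec (fun _ => 1) Ξ)⟫_ℂ).re := by
    rw [← hyΞ, ContinuousLinearMap.mul_apply, ContinuousLinearMap.star_eq_adjoint,
      ContinuousLinearMap.adjoint_inner_right]
    have hc : entryRow ![X₁, -Y₁] (y (bigVec (fun _ => 1) Ξ)) =
        y (entryRow ![X₁, -Y₁] (bigVec (fun _ => 1) Ξ)) :=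
      (congrArg (fun T : Amp (Fin 2) (Amp (Fin 2) H) →L[ℂ] Amp (Fin 2) (Amp (Fin 2) H) =>
        T (bigVec (fun _ => 1) Ξ)) (comm_of_mem hy hR₁)).symm
    rw [hc]
    exact ((ContinuousLinearMap.nonneg_iff_isPositive y).1 hy0).re_inner_nonneg_left _
  have htw : cfc (tw ((1 : ℝ) / 1)) A = A := by
    have := h.isSelfAdjoint
    have e : tw ((1 : ℝ) / 1) = fun s : ℝ => s := by
      funext s; simp only [tw]; ring
    rw [e, cfc_id' ℝ A]
  have hent : ∀ (Θ : Amp (Fin 2) (Amp (Fin 2) H)) (j i : Fin 2), Ab Θ j i = A (Θ j i) :=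
    fun Θ j i => by
      rw [entry H N Ξ A D h (Fin 2) (fun _ => 1) (fun _ => one_pos) Ab Db hb Θ j i, htw]
  rw [PiLp.inner_apply] at hpos
  simp only [PiLp.inner_apply, hent, entryRow_apply, Fin.sum_univ_two, Matrix.cons_val_zero,
    Matrix.cons_val_one, star_neg, neg_mul, mul_neg, neg_neg, ContinuousLinearMap.neg_apply,
    inner_neg_right, Complex.add_re, Complex.neg_re] at hpos
  have hz : star X * Y ∈ N.commutant := mul_mem (star_mem hX) hY
  have hz₁ : star X₁ * Y₁ ∈ N.commutant := mul_mem (star_mem hX₁) hY₁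
  have hc := h.inner_comm ((star X * Y) Ξ) hz₁
  rw [h.D_comm hz, star_mul, star_mul, star_star, star_star, ← inner_conj_symm] at hc
  have hc' := congrArg Complex.re hc
  rw [Complex.conj_re] at hc'
  linarith

end Crest.Agent.R78
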