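import Crest.Agent.R78.RvD

/-!
# Row 78: existence of the Rieffel–van Daele operators, support projections, duality
-/

set_option autoImplicit false
set_option linter.unusedSectionVars false

open scoped InnerProductSpace Matrix ComplexConjugate

noncomputable section

namespace Crest.Agent.R78

open Crest.Agent.R124

universe u

/-- Orthogonal projection onto a closed real subspace of a complex Hilbert space. -/
lemma ex_real_proj {E : Type u} [NormedAddCommGroup E] [InnerProductSpace ℂ E] [CompleteSpace E]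
    {S : Set E} (hc : IsClosed S) (h0 : (0 : E) ∈ S) (hadd : ∀ x ∈ S, ∀ y ∈ S, x + y ∈ S)
    (hsmul : ∀ r : ℝ, ∀ x ∈ S, (r : ℂ) • x ∈ S) (u : E) :
    ∃ v ∈ S, ∀ w ∈ S, (⟪u - v, w⟫_ℂ).re = 0 := by
  let _ : InnerProductSpace ℝ E := InnerProductSpace.rclikeToReal ℂ E
  let K : Submodule ℝ E :=
    { carrier := S
      zero_mem' := h0
      add_mem' := fun {x y} hx hy => hadd x hx y hy
      smul_mem' := fun r x hx => hsmul r x hx }
  have : CompleteSpace K := hc.completeSpace_coe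
  exact ⟨K.starProjection u, K.starProjection_apply_mem u,
    fun w hw => K.starProjection_inner_eq_zero u w hw⟩

variable {H : Type u} [NormedAddCommGroup H] [InnerProductSpace ℂ H] [CompleteSpace H]

lemma ex_pair (M : VonNeumannAlgebra H) (ξ η : H) : ∃ q : H × H, q ∈ closure (graph M ξ) ∧
    ∀ y ∈ M, ⟪y ξ, q.1⟫_ℂ + ⟪q.2, star y ξ⟫_ℂ = 2 * ⟪y ξ, η⟫_ℂ := by
  obtain ⟨v, hv, h⟩ := ex_real_proj (E := WithLp 2 (H × H))
    (S := WithLp.ofLp ⁻¹' closure (graph M ξ))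
    (isClosed_closure.preimage (WithLp.prod_continuous_ofLp 2 H H))
    (by
      have := graph_mem (ξ := ξ) (zero_mem M)
      rw [star_zero] at this
      exact this)
    (fun x hx y hy => by simpa using graph_add hx hy)
    (fun r x hx => by
      have := graph_smul (r : ℂ) hx
      rw [Complex.conj_ofReal] at this
      exact this)
    (WithLp.toLp 2 ((2 : ℂ) • η, 0))
  refine ⟨WithLp.ofLp v, hv, fun y hy => ?_⟩
  have key : ∀ z ∈ M, (⟪z ξ, v.fst⟫_ℂ + ⟪v.snd, star z ξ⟫_ℂ - 2 * ⟪z ξ, η⟫_ℂ).re = 0 := by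
    intro z hz
    have h1 := h (WithLp.toLp 2 (z ξ, star z ξ)) (graph_mem hz)
    rw [WithLp.prod_inner_apply] at h1
    change (⟪(2 : ℂ) • η - v.fst, z ξ⟫_ℂ + ⟪0 - v.snd, star z ξ⟫_ℂ).re = 0 at h1
    simp only [inner_sub_left, inner_smul_left, inner_zero_left, map_ofNat] at h1
    have e1 : (⟪z ξ, v.fst⟫_ℂ).re = (⟪v.fst, z ξ⟫_ℂ).re := by
      rw [← inner_conj_symm, Complex.conj_re]
    have e2 : (⟪z ξ, η⟫_ℂ).re = (⟪η, z ξ⟫_ℂ).re := by
      rw [← inner_conj_symm, Complex.conj_re]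
    simp only [Complex.add_re, Complex.sub_re, Complex.mul_re, Complex.re_ofNat, Complex.im_ofNat,
      zero_mul, sub_zero, Complex.zero_re] at h1 ⊢
    linarith
  have h1 := key y hy
  have h2 := key (Complex.I • y) (vn_smul_mem _ hy)
  simp only [star_smul, smul_apply, inner_smul_left, inner_smul_right,
    Complex.star_def] at h2
  rw [← sub_eq_zero]
  apply Complex.ext
  · exact h1
  · simp only [Complex.conj_I, Complex.add_re, Complex.sub_re, Complex.mul_re, Complex.re_ofNat,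
      Complex.im_ofNat, Complex.neg_re, Complex.neg_im, Complex.I_re, Complex.I_im, Complex.add_im,
      Complex.sub_im, Complex.mul_im, Complex.zero_im] at h2 ⊢
    change (⟪y ξ, v.fst⟫_ℂ).im + (⟪v.snd, star y ξ⟫_ℂ).im - _ = 0
    linarith

theorem rvdEx : RvDExStmt.{u} := by
  intro H _ _ _ M ξ
  choose F hF hE using ex_pair M ξ
  have uniq : ∀ η (q : H × H), q ∈ closure (graph M ξ) →
      (∀ y ∈ M, ⟪y ξ, q.1⟫_ℂ + ⟪q.2, star y ξ⟫_ℂ = 2 * ⟪y ξ, η⟫_ℂ) → F η = q := by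
    intro η q hq he
    have := graph_eq_zero (graph_sub (hF η) hq) fun y hy => by
      simp only [Prod.fst_sub, Prod.snd_sub, inner_sub_right, inner_sub_left]
      linear_combination hE η y hy - he y hy
    exact sub_eq_zero.1 this
  have hadd : ∀ η ζ, F (η + ζ) = F η + F ζ := fun η ζ =>
    uniq _ _ (graph_add (hF η) (hF ζ)) fun y hy => by
      simp only [Prod.fst_add, Prod.snd_add, inner_add_right, inner_add_left]
      linear_combination hE η y hy + hE ζ y hy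
  have hsmul : ∀ (c : ℂ) η, F (c • η) = (c • (F η).1, conj c • (F η).2) := fun c η =>
    uniq _ _ (graph_smul c (hF η)) fun y hy => by
      simp only [inner_smul_right, inner_smul_left, Complex.conj_conj]
      linear_combination c * hE η y hy
  have hbd : ∀ η, ‖(F η).1‖ ≤ 2 * ‖η‖ := by
    intro η
    have h0 : ⟪(F η).1, (F η).1⟫_ℂ + ⟪(F η).2, (F η).2⟫_ℂ = 2 * ⟪(F η).1, η⟫_ℂ :=
      graph_induction (P := fun r => ⟪r.1, (F η).1⟫_ℂ + ⟪(F η).2, r.2⟫_ℂ = 2 * ⟪r.1, η⟫_ℂ)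
        (isClosed_eq (by fun_prop) (by fun_prop)) (hE η) (hF η)
    have h1 := congrArg Complex.re h0
    simp only [Complex.add_re, re_inner_self, Complex.mul_re, Complex.re_ofNat,
      Complex.im_ofNat, zero_mul, sub_zero] at h1
    have h2 : (⟪(F η).1, η⟫_ℂ).re ≤ ‖(F η).1‖ * ‖η‖ :=
      (Complex.re_le_norm _).trans (norm_inner_le_norm _ _)
    by_contra hc
    push Not at hc
    nlinarith [sq_nonneg ‖(F η).2‖, norm_nonneg η, norm_nonneg (F η).1]
  let A₀ : H →ₗ[ℂ] H :=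
    { toFun := fun η => (F η).1
      map_add' := fun η ζ => by rw [hadd]; rfl
      map_smul' := fun c η => by rw [hsmul]; rfl }
  let D : H →ₗ⋆[ℂ] H :=
    { toFun := fun η => (F η).2
      map_add' := fun η ζ => by rw [hadd]; rfl
      map_smul' := fun c η => by rw [hsmul] }
  exact ⟨A₀.mkContinuous 2 hbd, D, ⟨fun η => hF η, fun η => hE η⟩⟩

/-- The cyclic projection onto the closure of `P ζ`. -/
lemma ex_cyc (P : VonNeumannAlgebra H) (ζ : H) : ∃ e : H →L[ℂ] H, IsStarProjection e ∧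
    e ∈ P.commutant ∧ (∀ a ∈ P, e (a ζ) = a ζ) ∧
    (∀ w, e w ∈ closure {v | ∃ a ∈ P, v = a ζ}) ∧ ∀ w, (∀ a ∈ P, ⟪a ζ, w⟫_ℂ = 0) → e w = 0 := by
  let K₀ : Submodule ℂ H :=
    { carrier := {v | ∃ a ∈ P, v = a ζ}
      zero_mem' := ⟨0, zero_mem P, rfl⟩
      add_mem' := by
        rintro _ _ ⟨a, ha, rfl⟩ ⟨b, hb, rfl⟩
        exact ⟨a + b, add_mem ha hb, rfl⟩
      smul_mem' := by
        rintro c _ ⟨a, ha, rfl⟩
        exact ⟨c • a, vn_smul_mem c ha, rfl⟩ }
  let K := K₀.topologicalClosure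
  have hK : ∀ v, v ∈ K ↔ v ∈ closure {v | ∃ a ∈ P, v = a ζ} := fun v => Iff.rfl
  have hinv : ∀ a ∈ P, ∀ v ∈ K, a v ∈ K := by
    intro a ha v hv
    refine map_mem_closure a.continuous hv ?_
    rintro _ ⟨b, hb, rfl⟩
    exact ⟨a * b, mul_mem ha hb, rfl⟩
  refine ⟨K.starProjection, isStarProjection_starProjection, mem_commutant_of fun a ha => ?_,
    fun a ha => Submodule.starProjection_eq_self_iff.2 (subset_closure ⟨a, ha, rfl⟩),
    fun w => K.starProjection_apply_mem w, fun w hw => ?_⟩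
  · ext w
    symm
    refine Submodule.eq_starProjection_of_mem_of_inner_eq_zero
      (hinv a ha _ (K.starProjection_apply_mem w)) fun v hv => ?_
    change ⟪a w - a (K.starProjection w), v⟫_ℂ = 0
    rw [← map_sub, ← ContinuousLinearMap.adjoint_inner_right,
      ← ContinuousLinearMap.star_eq_adjoint]
    exact K.starProjection_inner_eq_zero w _ (hinv _ (star_mem ha) v hv)
  · refine Submodule.eq_starProjection_of_mem_of_inner_eq_zero K.zero_mem fun v hv => ?_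
    rw [sub_zero, inner_eq_zero_symm]
    refine closure_minimal (t := {v | ⟪v, w⟫_ℂ = 0}) ?_
      (isClosed_eq (by fun_prop) continuous_const) hv
    rintro _ ⟨a, ha, rfl⟩
    exact hw a ha

theorem supp : SuppStmt.{u} := by
  intro H _ _ _ M ξ
  obtain ⟨e, he, hm, hfix, hcl, -⟩ := ex_cyc M.commutant ξ
  rw [VonNeumannAlgebra.commutant_commutant] at hm
  refine ⟨e, hm, he, hfix, fun z hz h0 => ?_⟩
  ext w
  refine closure_minimal (t := {v | z v = 0}) ?_ (isClosed_eq z.continuous continuous_const) (hcl w)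
  rintro _ ⟨a, ha, rfl⟩
  have := congrArg (fun T : H →L[ℂ] H => T ξ) (comm_of_mem hz ha)
  simpa [h0] using this

lemma ex_proj_inner {e : H →L[ℂ] H} (he : IsStarProjection e) (w : H) :
    ⟪w, e w⟫_ℂ = ⟪e w, e w⟫_ℂ := by
  have h1 : ContinuousLinearMap.adjoint e = e := he.isSelfAdjoint
  have h2 : e (e w) = e w := congrArg (fun T : H →L[ℂ] H => T w) he.isIdempotentElem
  rw [← ContinuousLinearMap.adjoint_inner_right e w (e w), h1, h2]

/-- The `2 × 2` matrix trick of Rieffel and van Daele. -/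
lemma ex_trick (M : VonNeumannAlgebra H) {ξ μ ν : H}
    (h1 : ∀ b ∈ M.commutant, ⟪b ξ, μ⟫_ℂ + ⟪ν, star b ξ⟫_ℂ = 0)
    (h2 : ∀ z ∈ M, ⟪z ξ, μ⟫_ℂ = ⟪ν, star z ξ⟫_ℂ) : ∀ z ∈ M, ⟪z ξ, μ⟫_ℂ = 0 := by
  set ζ : Amp (Fin 2) H := inj 0 ξ + inj 1 ν with hζ
  obtain ⟨e, he, hm, hfix, -, hperp⟩ := ex_cyc (diagVN (Fin 2) M) ζ
  rw [commutant_diagVN, mem_matVN] at hm
  have hsa : ContinuousLinearMap.adjoint e = e := he.isSelfAdjoint
  have hin : ∀ (z : H →L[ℂ] H) (w : Amp (Fin 2) H),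
      ⟪diagOp (Fin 2) z ζ, w⟫_ℂ = ⟪z ξ, w 0⟫_ℂ + ⟪z ν, w 1⟫_ℂ := by
    intro z w
    rw [PiLp.inner_apply, Fin.sum_univ_two]
    simp [hζ, inj_apply]
  have e1 : e ζ = ζ := hfix 1 (one_mem _)
  have e2 : e (inj 0 μ - inj 1 ξ) = 0 := by
    refine hperp _ fun a ha => ?_
    obtain ⟨z, hz, rfl⟩ := mem_diagVN.1 ha
    rw [hin]
    have := h2 z hz
    rw [ContinuousLinearMap.star_eq_adjoint, ContinuousLinearMap.adjoint_inner_right] at this
    simp [inj_apply, this]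
  have e3 : ent e 0 0 ξ + ent e 0 1 ν = ξ := by
    have := congrArg (fun w : Amp (Fin 2) H => w 0) e1
    simpa [hζ, inj_apply, ent_apply] using this
  have e4 : ent e 0 0 μ = ent e 0 1 ξ := by
    have := congrArg (fun w : Amp (Fin 2) H => w 0) e2
    simpa [ent_apply, sub_eq_zero] using this
  have hp : ∀ v : H, (⟪v, ent e 0 0 v⟫_ℂ).re = ‖e (inj 0 v)‖ ^ 2 := fun v => by
    rw [ent_apply, ← inner_inj_left, ex_proj_inner he, re_inner_self]
  have hle : ‖e (inj 0 ξ)‖ ^ 2 ≤ ‖ξ‖ ^ 2 := by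
    have h3 := hp ξ
    have h4 : (⟪(inj 0 ξ : Amp (Fin 2) H), e (inj 0 ξ)⟫_ℂ).re ≤ ‖ξ‖ * ‖e (inj 0 ξ)‖ := by
      rw [← norm_inj_apply (0 : Fin 2) ξ]
      exact (Complex.re_le_norm _).trans (norm_inner_le_norm _ _)
    rw [inner_inj_left, ← ent_apply, h3] at h4
    nlinarith [norm_nonneg ξ, norm_nonneg (e (inj 0 ξ)), sq_nonneg (‖ξ‖ - ‖e (inj 0 ξ)‖)]
  have h5 := h1 _ (hm 0 1)
  rw [ContinuousLinearMap.star_eq_adjoint, ContinuousLinearMap.adjoint_inner_right,
    eq_sub_of_add_eq' e3, ← e4, inner_sub_left] at h5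
  have h6 := congrArg Complex.re h5
  have s1 : (⟪ent e 0 0 μ, μ⟫_ℂ).re = ‖e (inj 0 μ)‖ ^ 2 := by
    rw [← hp, ← inner_conj_symm, Complex.conj_re]
  have s2 : (⟪ent e 0 0 ξ, ξ⟫_ℂ).re = ‖e (inj 0 ξ)‖ ^ 2 := by
    rw [← hp, ← inner_conj_symm, Complex.conj_re]
  simp only [Complex.add_re, Complex.sub_re, re_inner_self, s1, s2, Complex.zero_re] at h6
  have h7 : e (inj 0 μ) = 0 := by
    have : ‖e (inj 0 μ)‖ ^ 2 = 0 := le_antisymm (by linarith) (sq_nonneg _)
    simpa using this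
  intro z hz
  have h8 := hin z (inj 0 μ)
  rw [← hfix _ (diagOp_mem_diagVN hz), ← ContinuousLinearMap.adjoint_inner_right, hsa, h7] at h8
  simpa [inj_apply] using h8.symm

theorem dual : DualStmt.{u} := by
  intro H _ _ _ M ξ A A' D D' h h' y hy
  set η := y ξ with hη
  set μ := (2 - A) η - A' η with hμ
  have h1 : ∀ b ∈ M.commutant, ⟪b ξ, μ⟫_ℂ + ⟪D η - D' η, star b ξ⟫_ℂ = 0 := fun b hb => by
    rw [hμ, two_sub_apply]
    simp only [inner_sub_right, inner_sub_left, inner_smul_right]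
    linear_combination -h'.eqn η b hb - h.inner_comm η hb
  have h2 : ∀ z ∈ M, ⟪z ξ, μ⟫_ℂ = ⟪D η - D' η, star z ξ⟫_ℂ := fun z hz => by
    have hz' : z ∈ M.commutant.commutant := by rwa [VonNeumannAlgebra.commutant_commutant]
    rw [hμ, inner_sub_right, inner_sub_left, h.inner_D η hz, h'.inner_comm η hz']
  have k1 := ex_trick M h1 h2
  have k2 := ex_trick M.commutant (μ := μ) (ν := -(D η - D' η))
    (fun z hz => by
      rw [VonNeumannAlgebra.commutant_commutant] at hz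
      rw [inner_neg_left, h2 z hz, add_neg_cancel])
    (fun b hb => by
      rw [inner_neg_left]
      linear_combination h1 b hb)
  have a1 : ⟪A η, μ⟫_ℂ = 0 :=
    graph_induction (P := fun q => ⟪q.1, μ⟫_ℂ = 0) (isClosed_eq (by fun_prop) continuous_const)
      k1 (h.mem η)
  have a2 : ⟪A' η, μ⟫_ℂ = 0 :=
    graph_induction (P := fun q => ⟪q.1, μ⟫_ℂ = 0) (isClosed_eq (by fun_prop) continuous_const)
      k2 (h'.mem η)
  have a3 : ⟪η, μ⟫_ℂ = 0 := k1 y hy
  have a4 : ⟪μ, μ⟫_ℂ = 0 := by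
    have : ⟪(2 - A) η - A' η, μ⟫_ℂ = 0 := by
      rw [two_sub_apply, inner_sub_left, inner_sub_left, inner_smul_left, a1, a2, a3]
      simp
    exact this
  exact (sub_eq_zero.1 (inner_self_eq_zero.1 a4)).symm

end Crest.Agent.R78
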