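import Crest.Agent.R78.Core4

/-! Tools for the extension algebras. -/

set_option autoImplicit false

noncomputable section

namespace Crest.Agent.R78

open Finset Filter Topology TopologicalSpace

section
variable {A : Type*} [CStarAlgebra A]

open WithCStarModule in
lemma row_col {I : Type} [Fintype I] (a z : I → A) (ha : ‖∑ i, a i * star (a i)‖ ≤ 1) {C : ℝ}
    (hC : 0 ≤ C) (hz : ∀ i, ‖z i‖ ≤ C) : ‖∑ i, a i * z i‖ ≤ √(Fintype.card I) * C := by
  let _ := CStarAlgebra.spectralOrder A
  have := CStarAlgebra.spectralOrderedRing A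
  let x : C⋆ᵐᵒᵈ(A, Π _ : I, A) := (equiv _ _).symm fun i => star (z i)
  let y : C⋆ᵐᵒᵈ(A, Π _ : I, A) := (equiv _ _).symm a
  have h := CStarModule.norm_inner_le (A := A) C⋆ᵐᵒᵈ(A, Π _ : I, A) (x := x) (y := y)
  rw [pi_inner, pi_norm, pi_norm] at h
  simp only [inner_def, x, y, equiv_symm_pi_apply, star_star] at h
  have h2 : ‖∑ i, star (z i) * z i‖ ≤ Fintype.card I * C ^ 2 := by
    refine (norm_sum_le _ _).trans ?_
    rw [← card_univ, ← nsmul_eq_mul]
    refine sum_le_card_nsmul _ _ _ fun i _ => ?_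
    rw [CStarRing.norm_star_mul_self, sq]
    exact mul_le_mul (hz i) (hz i) (norm_nonneg _) hC
  have h3 := Real.sqrt_le_sqrt h2
  rw [Real.sqrt_mul (Nat.cast_nonneg _), Real.sqrt_sq hC] at h3
  have h4 := Real.sqrt_le_one.2 ha
  refine h.trans ?_
  simpa using mul_le_mul h3 h4 (Real.sqrt_nonneg _) (by positivity)

lemma sep_adjoin {s : Set A} (hs : IsSeparable s) :
    IsSeparable ((StarAlgebra.adjoin ℂ s).topologicalClosure : Set A) := by
  obtain ⟨c, hc, hsc⟩ := hs
  have h1 : (StarAlgebra.adjoin ℂ s).topologicalClosure ≤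
      (StarAlgebra.adjoin ℂ c).topologicalClosure :=
    StarSubalgebra.topologicalClosure_minimal (StarAlgebra.adjoin_le
      (hsc.trans (closure_mono (StarAlgebra.subset_adjoin ℂ c))))
      (StarSubalgebra.isClosed_topologicalClosure _)
  refine IsSeparable.mono (IsSeparable.closure ?_) h1
  have h2 : (c ∪ star c).Countable := hc.union (hc.preimage star_injective)
  have := h2.to_subtype
  have h3 : (Submonoid.closure (c ∪ star c) : Set A).Countable := by
    refine (Set.countable_range fun l : List (c ∪ star c : Set A) =>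
      (l.map Subtype.val).prod).mono fun x hx => ?_
    obtain ⟨l, hl, rfl⟩ := Submonoid.exists_list_of_mem_closure hx
    exact ⟨l.pmap Subtype.mk hl, by simp [List.map_pmap]⟩
  refine h3.isSeparable.span (R := ℂ) |>.mono fun x hx => ?_
  rw [← StarAlgebra.adjoin_eq_span]
  exact hx

/-- vanishing at infinity relative to a sequence of projections -/
def Van (P : ℕ → A) (j : A) : Prop :=
  Tendsto (fun n => j * (1 - P n)) atTop (𝓝 0) ∧ Tendsto (fun n => (1 - P n) * j) atTop (𝓝 0)

variable {P : ℕ → A}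

lemma Van.zero : Van P 0 := by simp [Van]

lemma Van.add {j j' : A} (h : Van P j) (h' : Van P j') : Van P (j + j') :=
  ⟨by simpa only [add_mul, add_zero] using h.1.add h'.1,
    by simpa only [mul_add, add_zero] using h.2.add h'.2⟩

lemma Van.sub {j j' : A} (h : Van P j) (h' : Van P j') : Van P (j - j') :=
  ⟨by simpa only [sub_mul, sub_zero] using h.1.sub h'.1,
    by simpa only [mul_sub j, mul_sub (1 - P _), sub_zero] using h.2.sub h'.2⟩

lemma Van.star (hP : ∀ n, star (P n) = P n) {j : A} (h : Van P j) : Van P (star j) :=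
  ⟨by simpa only [star_mul, star_sub, star_one, hP, star_zero] using h.2.star,
    by simpa only [star_mul, star_sub, star_one, hP, star_zero] using h.1.star⟩

lemma Van.mul {j j' : A} (h : Van P j) (h' : Van P j') : Van P (j * j') :=
  ⟨by simpa only [mul_assoc, mul_zero] using h'.1.const_mul j,
    by simpa only [mul_assoc, zero_mul] using h.2.mul_const j'⟩

lemma Van.mul_left {j x : A} (h : Van P j) (hx : ∀ n, Commute x (P n)) : Van P (x * j) :=
  ⟨by simpa only [mul_assoc, mul_zero] using h.1.const_mul x, by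
    have := h.2.const_mul x
    simp only [← mul_assoc, ((Commute.one_right x).sub_right (hx _)).eq, mul_zero] at this
    simpa only [mul_assoc] using this⟩

lemma Van.mul_right {j x : A} (h : Van P j) (hx : ∀ n, Commute x (P n)) : Van P (j * x) :=
  ⟨by
    have := h.1.mul_const x
    simp only [mul_assoc, ← ((Commute.one_right x).sub_right (hx _)).eq, zero_mul] at this
    simpa only [mul_assoc] using this,
    by simpa only [mul_assoc, zero_mul] using h.2.mul_const x⟩

lemma Van.of_eventually {j : A} (h : ∀ᶠ n in atTop, j * P n = j ∧ P n * j = j) : Van P j :=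
  ⟨tendsto_const_nhds.congr' (h.mono fun n hn => by simp [mul_sub, hn.1]),
    tendsto_const_nhds.congr' (h.mono fun n hn => by simp [sub_mul, hn.2])⟩

lemma Van.mul_eq_zero {j p : A} (h : Van P j) (hp : ∀ n, P n * p = 0) : j * p = 0 := by
  have := h.1.mul_const p
  simp only [mul_assoc, sub_mul, one_mul, hp, sub_zero, zero_mul] at this
  exact tendsto_nhds_unique tendsto_const_nhds this

lemma isClosed_van (hP : ∀ n, ‖1 - P n‖ ≤ 1) : IsClosed {j | Van P j} := by
  refine IsClosed.inter (Equicontinuous.isClosed_setOfPred_tendsto (f := fun _ => 0)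
    (F := fun n j => j * (1 - P n)) ?_ continuous_const)
    (Equicontinuous.isClosed_setOfPred_tendsto (f := fun _ => 0)
    (F := fun n j => (1 - P n) * j) ?_ continuous_const)
  · refine (LipschitzWith.uniformEquicontinuous _ 1 fun n => ?_).equicontinuous
    refine LipschitzWith.of_dist_le_mul fun x y => ?_
    rw [dist_eq_norm, dist_eq_norm, ← sub_mul]
    simpa using norm_mul_le_of_le (le_refl ‖x - y‖) (hP n)
  · refine (LipschitzWith.uniformEquicontinuous _ 1 fun n => ?_).equicontinuous
    refine LipschitzWith.of_dist_le_mul fun x y => ?_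
    rw [dist_eq_norm, dist_eq_norm, ← mul_sub]
    simpa using norm_mul_le_of_le (hP n) (le_refl ‖x - y‖)

variable {I : Type} [Fintype I] [DecidableEq I] {G : GB I A}

lemma GB.Co.norm_δ_sub (c c' : G.Co) : ‖c.δ - c'.δ‖ ≤ ‖c.a - c'.a‖ := by
  have h : (c.δ - c'.δ) + (c.δ - c'.δ) = c.a * (c.a - c'.a) + (c.a - c'.a) * c'.a +
      (c.δ * (c.δ - c'.δ) + (c.δ - c'.δ) * c'.δ) := by
    linear_combination (norm := noncomm_ring) c.eq - c'.eq
  set x := c.δ - c'.δ
  set y := c.a - c'.a
  have h1 : ‖x + x‖ = 2 * ‖x‖ := by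
    rw [← two_smul ℝ x, norm_smul]; simp
  have h2 := norm_add_le_of_le (norm_add_le_of_le (norm_mul_le_of_le c.na (le_refl ‖y‖))
    (norm_mul_le_of_le (le_refl ‖y‖) c'.na)) (norm_add_le_of_le
      (norm_mul_le_of_le c.nδ (le_refl ‖x‖)) (norm_mul_le_of_le (le_refl ‖x‖) c'.nδ))
  rw [← h, h1] at h2
  linarith [norm_nonneg x, norm_nonneg y]

lemma GB.Co.W_fix' (c : G.Co) {p : A} (hU : G.U.Com p) (hV : G.V.Com p) (ha : c.a * p = 0) :
    c.W * p = p := by
  have hδ : c.δ * p = 0 := by
    have h : c.δ * p + c.δ * p = c.δ * (c.δ * p) := by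
      linear_combination (norm := noncomm_ring) c.eq * p + c.a * ha
    have h1 : ‖c.δ * p + c.δ * p‖ = 2 * ‖c.δ * p‖ := by
      rw [← two_smul ℝ, norm_smul]; simp
    have h2 := norm_mul_le_of_le c.nδ (le_refl ‖c.δ * p‖)
    rw [← h, h1] at h2
    exact norm_le_zero_iff.1 (by linarith [norm_nonneg (c.δ * p)])
  have h1 : c.α * p = 0 := by
    rw [GB.Co.α, mul_assoc, (G.S_com hU hV).eq, ← mul_assoc, ha, zero_mul]
  have h2 : c.β * p = 0 := by
    rw [GB.Co.β, mul_assoc, (G.St_com hU hV).eq, ← mul_assoc, ha, zero_mul]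
  have h3 : c.du * p = 0 := by rw [GB.Co.du, mul_assoc, hU.P.eq, ← mul_assoc, hδ, zero_mul]
  have h4 : c.dv * p = 0 := by rw [GB.Co.dv, mul_assoc, hV.P.eq, ← mul_assoc, hδ, zero_mul]
  exact c.W_fix h1 h2 (by rw [h3, h4]) (by rw [mul_assoc, h3, mul_zero])
    (by rw [mul_assoc, h4, mul_zero])

end

end Crest.Agent.R78
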