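import Crest.Agent.R78.Ext1

/-! A family of extension algebras indexed by unitaries. -/

set_option autoImplicit false

noncomputable section

namespace Crest.Agent.R78

open Finset Filter Topology TopologicalSpace InnerProductSpace
open scoped InnerProductSpace

variable (F H : Type) [NormedAddCommGroup F] [InnerProductSpace ℂ F] [CompleteSpace F]
  [NormedAddCommGroup H] [InnerProductSpace ℂ H] [CompleteSpace H]

/-- the data common to all algebras of the family -/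
structure ES where
  A₀ : StarSubalgebra ℂ (F →L[ℂ] F)
  cl₀ : IsClosed (A₀ : Set (F →L[ℂ] F))
  Ω : F
  nΩ : ‖Ω‖ = 1
  tr : ∀ x ∈ A₀, ‖x Ω‖ = ‖(star x) Ω‖
  fa : ∀ x ∈ A₀, x Ω = 0 → x = 0
  φ : (F →L[ℂ] F) →⋆ₐ[ℂ] (H →L[ℂ] H)
  E : ℕ → ℕ → H →L[ℂ] H
  EE : ∀ i j k l, E i j * E k l = if j = k then E i l else 0
  sE : ∀ i j, star (E i j) = E j i
  φE : ∀ x i j, Commute (φ x) (E i j)
  tot : ∀ X : H →L[ℂ] H, (∀ k, X * E k k = 0) → X = 0
  totR : ∀ X : H →L[ℂ] H, (∀ v w, X * φ (rankOne ℂ v w) = 0) → X = 0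
  ι : F →L[ℂ] H
  nι : ∀ v, ‖ι v‖ = ‖v‖
  φι : ∀ x v, φ x (ι v) = ι (x v)
  Eι : ∀ v, E 0 0 (ι v) = ι v
  M : StarSubalgebra ℂ (H →L[ℂ] H)
  clM : IsClosed (M : Set (H →L[ℂ] H))
  EM : ∀ i j, E i j ∈ M
  RM : ∀ v w i j, φ (rankOne ℂ v w) * E i j ∈ M

variable {F H}

namespace ES
variable (S : ES F H)

def P (n : ℕ) : H →L[ℂ] H := ∑ k ∈ range n, S.E (k + 1) (k + 1)

lemma sP (n : ℕ) : star (S.P n) = S.P n := by simp [P, star_sum, S.sE]

lemma P_E (n i j : ℕ) : S.P n * S.E (i + 1) j = if i < n then S.E (i + 1) j else 0 := by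
  simp [P, sum_mul, S.EE]

lemma E_P (n i j : ℕ) : S.E i (j + 1) * S.P n = if j < n then S.E i (j + 1) else 0 := by
  simp [P, mul_sum, S.EE]

lemma P_E0 (n : ℕ) : S.P n * S.E 0 0 = 0 := by simp [P, sum_mul, S.EE]

lemma PP (n : ℕ) : S.P n * S.P n = S.P n := by
  conv_lhs => enter [2]; rw [P]
  rw [mul_sum]
  exact sum_congr rfl fun k hk => by rw [P_E, if_pos (mem_range.1 hk)]

lemma van_E (i j : ℕ) : Van S.P (S.E (i + 1) (j + 1)) :=
  Van.of_eventually ((eventually_gt_atTop (max i j)).mono fun n hn => by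
    rw [E_P, P_E, if_pos (by omega), if_pos (by omega)]; exact ⟨rfl, rfl⟩)

lemma com_P {x : H →L[ℂ] H} (h : ∀ k, Commute x (S.E (k + 1) (k + 1))) (n : ℕ) :
    Commute x (S.P n) := Commute.sum_right _ _ _ fun k _ => h k

lemma tot' (X : H →L[ℂ] H) (h : ∀ k, S.E k k * X = 0) : X = 0 :=
  star_eq_zero.1 (S.tot _ fun k => by simpa [S.sE] using congrArg star (h k))

lemma tot₁ {X : H →L[ℂ] H} (h : ∀ k, X * S.E (k + 1) (k + 1) = 0) : X * (1 - S.E 0 0) = 0 :=
  S.tot _ fun k => by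
    cases k with
    | zero => simp [mul_assoc, sub_mul, S.EE]
    | succ k => simp [mul_assoc, sub_mul, S.EE, h]

lemma tot₁' {X : H →L[ℂ] H} (h : ∀ k, S.E (k + 1) (k + 1) * X = 0) : (1 - S.E 0 0) * X = 0 := by
  simpa [S.sE] using congrArg star (S.tot₁ (X := star X) fun k => by
    simpa [S.sE] using congrArg star (h k))

/-- compression to the distinguished copy of `F` -/
def κ : (H →L[ℂ] H) →L[ℂ] (F →L[ℂ] F) :=
  (ContinuousLinearMap.compL ℂ F H F (ContinuousLinearMap.adjoint S.ι)).comp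
    ((ContinuousLinearMap.compL ℂ F H H).flip S.ι)

lemma κ_apply (m : H →L[ℂ] H) (v : F) : S.κ m v = ContinuousLinearMap.adjoint S.ι (m (S.ι v)) := rfl

lemma ιι (v : F) : ContinuousLinearMap.adjoint S.ι (S.ι v) = v :=
  DFunLike.congr_fun ((ContinuousLinearMap.norm_map_iff_adjoint_comp_self S.ι).1 S.nι) v

lemma κ_φ (x : F →L[ℂ] F) : S.κ (S.φ x) = x := by
  ext v; rw [κ_apply, S.φι, ιι]

lemma κ_p (m : H →L[ℂ] H) : S.κ (m * S.E 0 0) = S.κ m := by
  ext v; rw [κ_apply, κ_apply, mul_apply_eq_comp, S.Eι]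

lemma κ_star (m : H →L[ℂ] H) : S.κ (star m) = star (S.κ m) := by
  rw [ContinuousLinearMap.star_eq_adjoint (S.κ m), ContinuousLinearMap.eq_adjoint_iff]
  intro x y
  rw [κ_apply, κ_apply, ContinuousLinearMap.adjoint_inner_left,
    ContinuousLinearMap.adjoint_inner_right, ContinuousLinearMap.star_eq_adjoint,
    ContinuousLinearMap.adjoint_inner_left]

lemma norm_κ (m : H →L[ℂ] H) : ‖S.κ m‖ ≤ ‖m‖ := by
  have h1 : ‖S.ι‖ ≤ 1 := S.ι.opNorm_le_bound zero_le_one fun v => by simp [S.nι]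
  refine ContinuousLinearMap.opNorm_le_bound _ (norm_nonneg _) fun v => ?_
  have h2 := (ContinuousLinearMap.adjoint S.ι).le_of_opNorm_le
    ((ContinuousLinearMap.adjoint.norm_map S.ι).le.trans h1) (m (S.ι v))
  have h3 := m.le_opNorm (S.ι v)
  rw [S.nι] at h3
  rw [κ_apply]; linarith

/-- range projection of `ι` -/
def e : H →L[ℂ] H := S.ι ∘L ContinuousLinearMap.adjoint S.ι

lemma κ_mul (m m' : H →L[ℂ] H) : S.κ m * S.κ m' = S.κ (m * S.e * m') := rfl

lemma se : star S.e = S.e := by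
  simp [e, ContinuousLinearMap.star_eq_adjoint]

lemma ee : S.e * S.e = S.e := by
  ext v; simp [e, ιι]

/-- admissible unitaries -/
structure Adm (W : H →L[ℂ] H) : Prop where
  u1 : star W * W = 1
  u2 : W * star W = 1
  p : W * S.E 0 0 = S.E 0 0
  c : ∀ k, Commute W (S.E (k + 1) (k + 1))
  m : ∀ x ∈ S.A₀, W * S.φ x * star W ∈ S.M

variable {S} {W W' : H →L[ℂ] H}

lemma Adm.θP (h : S.Adm W) (x : F →L[ℂ] F) (n : ℕ) : Commute (W * S.φ x * star W) (S.P n) :=
  S.com_P (fun k => ((h.c k).mul_left (S.φE _ _ _)).mul_left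
    (by simpa [S.sE] using (h.c k).star_star)) n

lemma Adm.θp (h : S.Adm W) (x : F →L[ℂ] F) :
    W * S.φ x * star W * S.E 0 0 = S.φ x * S.E 0 0 := by
  have h1 := h.p
  have h2 := h.u1
  have h3 := (S.φE x 0 0).eq
  linear_combination (norm := noncomm_ring) W * S.φ x * h2 * S.E 0 0 - W * S.φ x * star W * h1 +
    W * h3 + h1 * S.φ x - h3

lemma Adm.θmul (h : S.Adm W) (x y : F →L[ℂ] F) :
    W * S.φ (x * y) * star W = W * S.φ x * star W * (W * S.φ y * star W) := by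
  have := h.u1
  rw [map_mul]
  linear_combination (norm := noncomm_ring) -(W * S.φ x * this * S.φ y * star W)

/-- the extension algebra -/
def Adm.alg (h : S.Adm W) : StarSubalgebra ℂ (H →L[ℂ] H) where
  carrier := {m | m ∈ S.M ∧ ∃ x ∈ S.A₀, Van S.P (m - W * S.φ x * star W)}
  mul_mem' := by
    rintro m m' ⟨h1, x, hx, h2⟩ ⟨h3, y, hy, h4⟩
    refine ⟨mul_mem h1 h3, x * y, mul_mem hx hy, ?_⟩
    convert ((h2.mul h4).add (h2.mul_right (h.θP y))).add (h4.mul_left (h.θP x)) using 1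
    rw [h.θmul]; noncomm_ring
  add_mem' := by
    rintro m m' ⟨h1, x, hx, h2⟩ ⟨h3, y, hy, h4⟩
    refine ⟨add_mem h1 h3, x + y, add_mem hx hy, ?_⟩
    convert h2.add h4 using 1
    rw [map_add]; noncomm_ring
  algebraMap_mem' c := by
    refine ⟨algebraMap_mem _ c, algebraMap ℂ _ c, algebraMap_mem _ c, ?_⟩
    rw [AlgHomClass.commutes, ← Algebra.commutes, mul_assoc, h.u2, mul_one, sub_self]
    exact Van.zero
  star_mem' := by
    rintro m ⟨h1, x, hx, h2⟩
    refine ⟨star_mem h1, star x, star_mem hx, ?_⟩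
    convert h2.star S.sP using 1
    simp [map_star, mul_assoc]

lemma Adm.κ_eq (h : S.Adm W) {m : H →L[ℂ] H} {x : F →L[ℂ] F}
    (hv : Van S.P (m - W * S.φ x * star W)) : m * S.E 0 0 = S.φ x * S.E 0 0 ∧ S.κ m = x := by
  have h1 := hv.mul_eq_zero S.P_E0
  rw [sub_mul, h.θp, sub_eq_zero] at h1
  exact ⟨h1, by rw [← S.κ_p, h1, S.κ_p, S.κ_φ]⟩

lemma Adm.mem_iff (h : S.Adm W) {m : H →L[ℂ] H} : m ∈ h.alg ↔
    m ∈ S.M ∧ S.κ m ∈ S.A₀ ∧ Van S.P (m - W * S.φ (S.κ m) * star W) :=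
  ⟨fun ⟨h1, x, hx, h2⟩ => by rw [(h.κ_eq h2).2]; exact ⟨h1, hx, h2⟩,
    fun ⟨h1, h2, h3⟩ => ⟨h1, _, h2, h3⟩⟩

lemma Adm.closed (h : S.Adm W) : IsClosed (h.alg : Set (H →L[ℂ] H)) := by
  have : (h.alg : Set (H →L[ℂ] H)) = (S.M : Set (H →L[ℂ] H)) ∩ (S.κ ⁻¹' S.A₀ ∩
      (fun m => m - W * S.φ (S.κ m) * star W) ⁻¹' {j | Van S.P j}) := Set.ext fun m => h.mem_iff
  rw [this]
  have hφ : Continuous S.φ := map_continuous S.φ
  exact S.clM.inter ((S.cl₀.preimage S.κ.continuous).inter ((isClosed_van fun n =>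
    norm_one_sub_proj_le (S.sP n) (S.PP n)).preimage (by fun_prop)))

lemma Adm.of_van (h : S.Adm W) {m : H →L[ℂ] H} (h1 : m ∈ S.M) (h2 : Van S.P m) : m ∈ h.alg :=
  ⟨h1, 0, zero_mem _, by simpa using h2⟩

lemma Adm.θ_mem (h : S.Adm W) {x : F →L[ℂ] F} (hx : x ∈ S.A₀) : W * S.φ x * star W ∈ h.alg :=
  ⟨h.m x hx, x, hx, by simpa using Van.zero⟩

lemma Adm.van_of (h : S.Adm W) {m : H →L[ℂ] H} (h1 : m ∈ h.alg) (h2 : m * S.E 0 0 = 0) :
    Van S.P m := by
  have := (h.mem_iff.1 h1).2.2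
  rw [← S.κ_p, h2] at this
  simpa using this

lemma Adm.κ_mul (h : S.Adm W) {m m' : H →L[ℂ] H} (h1 : m ∈ h.alg) (h2 : m' ∈ h.alg) :
    S.κ (m * m') = S.κ m * S.κ m' := by
  have a1 := (h.κ_eq (h.mem_iff.1 h1).2.2).1
  have a2 := (h.κ_eq (h.mem_iff.1 h2).2.2).1
  rw [← S.κ_p, mul_assoc, a2, (S.φE _ _ _).eq, ← mul_assoc, a1, mul_assoc, ← (S.φE _ _ _).eq,
    ← mul_assoc, S.κ_p, ← map_mul, S.κ_φ]

lemma Adm.close (h : S.Adm W) (h' : S.Adm W') {ε : ℝ} (hε : 4 * ‖W - W'‖ < ε) (a : H →L[ℂ] H)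
    (ha : a ∈ h.alg) (na : ‖a‖ ≤ 1) : ∃ b ∈ h'.alg, ‖b‖ ≤ 1 ∧ ‖a - b‖ < ε := by
  obtain ⟨h1, h2, h3⟩ := h.mem_iff.1 ha
  set x := S.κ a
  have nx : ‖S.φ x‖ ≤ 1 := (NonUnitalStarAlgHom.norm_apply_le S.φ x).trans ((S.norm_κ a).trans na)
  set η := ‖W - W'‖
  have hη : 0 ≤ η := norm_nonneg _
  set d := W' * S.φ x * star W' - W * S.φ x * star W with hd
  have nd : ‖d‖ ≤ 2 * η := by
    have : d = -((W - W') * S.φ x * star W') - W * S.φ x * star (W - W') := by
      rw [hd, star_sub]; noncomm_ring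
    rw [this]
    have b1 := norm_mul_le_of_le (norm_mul_le_of_le (le_refl η) nx)
      ((norm_star _).le.trans (norm_le_one_of (h'.u1 ▸ nm1)))
    have b2 := norm_mul_le_of_le (norm_mul_le_of_le (norm_le_one_of (h.u1 ▸ nm1)) nx)
      (norm_star (W - W')).le
    refine (norm_sub_le _ _).trans ?_
    rw [norm_neg]; linarith
  have hb : a + d ∈ h'.alg := ⟨add_mem h1 (sub_mem (h'.m x h2) (h.m x h2)), x, h2, by
    convert h3 using 1; rw [hd]; abel⟩
  have nb : ‖a + d‖ ≤ 1 + 2 * η := norm_add_le_of_le na nd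
  have hp : 0 < 1 + 2 * η := by linarith
  have hn : ‖(((1 + 2 * η)⁻¹ : ℝ) : ℂ) • (a + d)‖ ≤ 1 := by
    rw [norm_smul, Complex.norm_real, Real.norm_of_nonneg (inv_pos.2 hp).le, inv_mul_le_iff₀ hp]
    linarith
  refine ⟨_, SMulMemClass.smul_mem _ hb, hn, ?_⟩
  have : a - (((1 + 2 * η)⁻¹ : ℝ) : ℂ) • (a + d) =
      ((2 * η : ℝ) : ℂ) • (((1 + 2 * η)⁻¹ : ℝ) : ℂ) • (a + d) - d := by
    have e : ((2 * η : ℝ) : ℂ) * (((1 + 2 * η)⁻¹ : ℝ) : ℂ) = 1 - (((1 + 2 * η)⁻¹ : ℝ) : ℂ) := by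
      rw [← Complex.ofReal_mul, ← Complex.ofReal_one, ← Complex.ofReal_sub]
      congr 1; field_simp; ring
    rw [smul_smul, e]; module
  rw [this]
  refine (norm_sub_le _ _).trans_lt ?_
  rw [norm_smul, Complex.norm_real, Real.norm_of_nonneg (by linarith)]
  nlinarith

lemma Adm.cent_le (h : S.Adm W) (h' : S.Adm W') :
    Set.centralizer (h.alg : Set (H →L[ℂ] H)) ⊆ Set.centralizer h'.alg := by
  intro T hT m hm
  obtain ⟨h1, x, h2, h3⟩ := hm
  have a1 : ∀ k, S.E (k + 1) (k + 1) * T = T * S.E (k + 1) (k + 1) := fun k =>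
    hT _ (h.of_van (S.EM _ _) (S.van_E k k))
  have a2 : ∀ k, (m * T - T * m) * S.E (k + 1) (k + 1) = 0 := fun k => by
    have b1 : Van S.P (m * S.E (k + 1) (k + 1)) := by
      convert (h3.mul (S.van_E k k)).add ((S.van_E k k).mul_left (h'.θP x)) using 1
      noncomm_ring
    have b2 := hT _ (h.of_van (mul_mem h1 (S.EM _ _)) b1)
    linear_combination (norm := noncomm_ring) b2 - m * a1 k
  have a3 : (1 - S.E 0 0) * (T * S.E 0 0) = 0 := S.tot₁' fun k => by
    rw [← mul_assoc, a1, mul_assoc, S.EE]; simp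
  have a4 := hT _ (h.θ_mem h2)
  have a5 := (h'.κ_eq h3).1
  have a6 := h.θp x
  have a7 := S.tot₁ a2
  linear_combination (norm := noncomm_ring) a7 + m * a3 + a5 * T * S.E 0 0 - a6 * T * S.E 0 0 -
    W * S.φ x * star W * a3 + a4 * S.E 0 0 + T * a6 - T * a5

/-- an isomorphism between two of the algebras respects the ideals -/
lemma Adm.conj_E (h : S.Adm W) (h' : S.Adm W') {u : H →L[ℂ] H} (hu : star u * u = 1)
    (hA : ∀ m ∈ h.alg, u * m * star u ∈ h'.alg) :
    (1 - S.E 0 0) * (star u * S.E 0 0) = 0 := by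
  have mem : ∀ i j, u * S.E (i + 1) (j + 1) * star u ∈ h'.alg := fun i j =>
    hA _ (h.of_van (S.EM _ _) (S.van_E i j))
  let x : ℕ → ℕ → F →L[ℂ] F := fun i j => S.κ (u * S.E (i + 1) (j + 1) * star u)
  have xm : ∀ i j, x i j ∈ S.A₀ := fun i j => (h'.mem_iff.1 (mem i j)).2.1
  have sx : ∀ i j, star (x i j) = x j i := fun i j => by
    simp only [x, ← S.κ_star, star_mul, star_star, S.sE, mul_assoc]
  have xx : ∀ i j k, x i j * x j k = x i k := fun i j k => by
    simp only [x]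
    rw [← h'.κ_mul (mem i j) (mem j k)]
    congr 1
    have := S.EE (i + 1) (j + 1) (j + 1) (k + 1)
    rw [if_pos rfl] at this
    linear_combination (norm := noncomm_ring)
      u * S.E (i + 1) (j + 1) * hu * S.E (j + 1) (k + 1) * star u + u * this * star u
  have val : ∀ i j, ⟪S.Ω, x j j S.Ω⟫_ℂ = (‖x i j S.Ω‖ ^ 2 : ℝ) := fun i j => by
    rw [← xx j i j, ← sx i j, mul_apply_eq_comp, ContinuousLinearMap.star_eq_adjoint,
      ContinuousLinearMap.adjoint_inner_right, inner_self_eq_norm_sq_to_K]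
    simp
  have val' : ∀ j, ⟪S.Ω, x j j S.Ω⟫_ℂ = ⟪S.Ω, x 0 0 S.Ω⟫_ℂ := fun j => by
    rw [val 0 j, val j 0, S.tr _ (xm 0 j), sx]
  have bd : ∀ n : ℕ, n * ‖x 0 0 S.Ω‖ ^ 2 ≤ 1 := fun n => by
    have b1 : ⟪S.Ω, S.κ (u * S.P n * star u) S.Ω⟫_ℂ = ((n * ‖x 0 0 S.Ω‖ ^ 2 : ℝ) : ℂ) := by
      rw [P, mul_sum, sum_mul, map_sum, _root_.sum_apply, inner_sum,
        sum_congr rfl fun k _ => (val' k).trans (val 0 0)]
      simp
    have nu : ‖u‖ ≤ 1 := norm_le_one_of (hu ▸ nm1)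
    have b2 := (S.norm_κ _).trans (norm_mul_le_of_le (norm_mul_le_of_le nu
      (norm_proj_le (S.sP n) (S.PP n))) ((norm_star _).le.trans nu))
    have b3 := (norm_inner_le_norm (𝕜 := ℂ) S.Ω _).trans (mul_le_mul_of_nonneg_left
      (ContinuousLinearMap.le_of_opNorm_le _ b2 S.Ω) (norm_nonneg _))
    rw [b1, S.nΩ, Complex.norm_real, Real.norm_of_nonneg (by positivity)] at b3
    linarith
  have z0 : ‖x 0 0 S.Ω‖ ^ 2 = 0 := by
    by_contra hne
    have hpos : 0 < ‖x 0 0 S.Ω‖ ^ 2 := lt_of_le_of_ne (sq_nonneg _) (Ne.symm hne)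
    obtain ⟨n, hn⟩ := exists_nat_gt (1 / ‖x 0 0 S.Ω‖ ^ 2)
    rw [div_lt_iff₀ hpos] at hn
    linarith [bd n]
  refine S.tot₁' fun k => ?_
  have z1 : x k k = 0 := by
    refine S.fa _ (xm k k) ?_
    have := (val k k).symm.trans ((val' k).trans (val 0 0))
    rw [z0] at this
    have : ‖x k k S.Ω‖ ^ 2 = 0 := by exact_mod_cast this
    simpa using this
  have z2 := (h'.κ_eq (h'.mem_iff.1 (mem k k)).2.2).1
  rw [show S.κ (u * S.E (k + 1) (k + 1) * star u) = 0 from z1, map_zero, zero_mul] at z2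
  linear_combination (norm := noncomm_ring) star u * z2 -
    hu * S.E (k + 1) (k + 1) * star u * S.E 0 0

/-- the coarse estimate on the untwisted side -/
lemma Adm.not_conj {I : Type} [Fintype I] [DecidableEq I] (h : S.Adm W) (h' : S.Adm 1)
    (U : FR I (F →L[ℂ] F)) (hs : ∀ k, U.s k ∈ S.A₀) (y : I → H →L[ℂ] H) (ny : ∀ k, ‖y k‖ ≤ 2)
    (cy : ∀ k, ∀ m ∈ S.M, Commute (y k) m) {u : H →L[ℂ] H} (hu : star u * u = 1)
    (hu' : u * star u = 1) (hA : ∀ m ∈ h.alg, u * m * star u ∈ h'.alg)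
    (hB : ∀ m ∈ h'.alg, star u * m * u ∈ h.alg) {c : ℝ}
    (hc : ∀ j, c ≤ ‖(∑ k, W * S.φ (U.s k) * star W * y k) * S.E (j + 1) (j + 1)‖) :
    c ≤ 4 * √(Fintype.card I) := by
  have nu : ‖u‖ ≤ 1 := norm_le_one_of (hu ▸ nm1)
  have nu' : ‖star u‖ ≤ 1 := (norm_star _).le.trans nu
  have pp : S.E 0 0 * S.E 0 0 = S.E 0 0 := by simp [S.EE]
  have up : u * S.E 0 0 = S.E 0 0 * u := by
    have a1 := congrArg star (h.conj_E h' hu hA)
    have a2 := h'.conj_E h (u := star u) (by simpa using hu') (by simpa using hB)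
    simp only [star_mul, star_sub, star_star, star_one, S.sE, star_zero] at a1 a2
    linear_combination (norm := noncomm_ring) a2 - a1
  let L : I → H →L[ℂ] H := fun k => u * W * S.φ (U.l k) * star (u * W)
  have uW : star (u * W) * (u * W) = 1 := by
    rw [star_mul, mul_assoc, ← mul_assoc (star u), hu, one_mul, h.u1]
  have LL : ∀ i j, star (L i) * L j = if i = j then 1 else 0 := fun i j => by
    have : star (L i) * L j = u * W * S.φ (star (U.l i) * U.l j) * star (u * W) := by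
      simp only [L, star_mul (u * W * _), star_mul (u * W), star_star, map_mul, map_star]
      linear_combination (norm := noncomm_ring)
        u * W * star (S.φ (U.l i)) * uW * S.φ (U.l j) * star (u * W)
    rw [this, U.ll]
    split_ifs
    · rw [map_one, mul_one, star_mul, mul_assoc, ← mul_assoc W, h.u2, one_mul, hu']
    · simp
  let m : I → H →L[ℂ] H := fun k => u * (W * S.φ (U.s k) * star W) * star u
  have hm : ∀ k, m k ∈ h'.alg := fun k => hA _ (h.θ_mem (hs k))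
  have mL : ∀ k, S.κ (m k) = S.κ (L k) + star (S.κ (L k)) := fun k => by
    rw [← S.κ_star, ← map_add]
    congr 1
    simp only [m, L, FR.s, map_add, map_star, star_mul, star_star, mul_add, add_mul, mul_assoc]
  let z : I → H →L[ℂ] H := fun k => u * y k * star u * (1 - S.E 0 0)
  have nz : ∀ k, ‖z k‖ ≤ 2 := fun k => by
    simpa using norm_mul_le_of_le (norm_mul_le_of_le (norm_mul_le_of_le nu (ny k)) nu')
      (norm_one_sub_proj_le (S.sE 0 0) pp)
  have cz : ∀ k b, Commute (S.φ b) (z k) := fun k b => by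
    have a1 : ∀ v w n, Commute (u * y k * star u) (S.φ (rankOne ℂ v w) * S.E (n + 1) (n + 1)) := by
      intro v w n
      have b1 := (cy k _ (hB _ (h'.of_van (S.RM v w _ _) ((S.van_E n n).mul_left
        (S.com_P fun k => S.φE _ _ _)))).1).eq
      rw [commute_iff_eq]
      generalize S.φ (rankOne ℂ v w) * S.E (n + 1) (n + 1) = r at *
      linear_combination (norm := noncomm_ring) u * b1 * star u - u * y k * star u * r * hu' +
        hu' * r * u * y k * star u
    have a2 : (S.φ b * (u * y k * star u) - u * y k * star u * S.φ b) * (1 - S.E 0 0) = 0 := by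
      refine S.tot₁ fun n => S.totR _ fun v w => ?_
      have b1 := (a1 v w n).eq
      have b2 := (a1 (b v) w n).eq
      have b3 : S.φ (rankOne ℂ (b v) w) = S.φ b * S.φ (rankOne ℂ v w) := by
        rw [← map_mul, ← comp_rankOne]; rfl
      have b4 := (S.φE (rankOne ℂ v w) (n + 1) (n + 1)).eq
      rw [b3] at b2
      generalize u * y k * star u = r at *
      linear_combination (norm := noncomm_ring) S.φ b * b1 - b2 - (S.φ b * r - r * S.φ b) * b4
    have a3 := (S.φE b 0 0).eq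
    rw [commute_iff_eq]
    simp only [z]
    linear_combination (norm := noncomm_ring) a2 - u * y k * star u * a3
  have row : ‖∑ k, S.φ (S.κ (L k)) * star (S.φ (S.κ (L k)))‖ ≤ 1 := by
    simp only [← map_star, ← map_mul, ← S.κ_star, S.κ_mul, ← map_sum]
    refine (NonUnitalStarAlgHom.norm_apply_le S.φ _).trans ((S.norm_κ _).trans
      (norm_proj_le ?_ ?_))
    · simp [star_sum, S.se, mul_assoc]
    · rw [sum_mul_sum]
      refine sum_congr rfl fun i _ => ?_
      have : ∀ j, L i * S.e * star (L i) * (L j * S.e * star (L j)) =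
          if i = j then L i * S.e * star (L j) else 0 := fun j => by
        have e1 := LL i j
        have e2 := S.ee
        split_ifs at e1 ⊢
        · linear_combination (norm := noncomm_ring) L i * S.e * e1 * S.e * star (L j) +
            L i * e2 * star (L j)
        · linear_combination (norm := noncomm_ring) L i * S.e * e1 * S.e * star (L j)
      simp only [this, sum_ite_eq, mem_univ, if_true]
  have coarse : ‖∑ k, S.φ (S.κ (m k)) * z k‖ ≤ 4 * √(Fintype.card I) := by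
    have : ∑ k, S.φ (S.κ (m k)) * z k =
        ∑ k, S.φ (S.κ (L k)) * z k + star (∑ k, S.φ (S.κ (L k)) * star (z k)) := by
      simp only [mL, map_add, add_mul, sum_add_distrib, star_sum, star_mul (S.φ _), star_star,
        ← map_star, (cz _ _).eq]
    rw [this]
    have b1 := row_col _ z row zero_le_two nz
    have b2 := row_col _ (fun k => star (z k)) row zero_le_two fun k =>
      (norm_star _).le.trans (nz k)
    refine (norm_add_le _ _).trans ?_
    rw [norm_star]; linarith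
  let j : I → H →L[ℂ] H := fun k => star u * (m k - S.φ (S.κ (m k))) * u
  have vj : ∀ k, Van S.P (j k) := fun k => by
    have b1 := (h'.mem_iff.1 (hm k)).2
    have b2 : S.φ (S.κ (m k)) ∈ h'.alg := by simpa using h'.θ_mem b1.1
    refine h.van_of (hB _ (sub_mem (hm k) b2)) ?_
    rw [mul_assoc, up, ← mul_assoc, mul_assoc (star u), sub_mul, (h'.κ_eq b1.2).1]
    simp
  have lim : Tendsto (fun n => 4 * √(Fintype.card I) + ∑ k, ‖j k * (1 - S.P n)‖ * 2) atTop
      (𝓝 (4 * √(Fintype.card I) + ∑ _k : I, 0 * 2)) :=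
    (tendsto_finsetSum _ fun k _ => (tendsto_zero_iff_norm_tendsto_zero.1 (vj k).1).mul_const
      2).const_add _
  simp only [zero_mul, sum_const_zero, add_zero] at lim
  refine ge_of_tendsto' lim fun n => (hc n).trans ?_
  have nE : ‖S.E (n + 1) (n + 1)‖ ≤ 1 := norm_proj_le (S.sE _ _) (by simp [S.EE])
  have : (∑ k, W * S.φ (U.s k) * star W * y k) * S.E (n + 1) (n + 1) =
      star u * (∑ k, S.φ (S.κ (m k)) * z k) * u * S.E (n + 1) (n + 1) +
        ∑ k, j k * (1 - S.P n) * (y k * S.E (n + 1) (n + 1)) := by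
    simp only [mul_sum, sum_mul, ← sum_add_distrib]
    refine sum_congr rfl fun k _ => ?_
    have e1 : S.P n * S.E (n + 1) (n + 1) = 0 := by rw [S.P_E, if_neg (lt_irrefl n)]
    have e2 : S.E 0 0 * S.E (n + 1) (n + 1) = 0 := by simp [S.EE]
    have e3 := (cy k _ (S.EM (n + 1) (n + 1))).eq
    simp only [j, z]
    generalize S.φ (S.κ (m k)) = x
    simp only [m]
    generalize W * S.φ (U.s k) * star W = θ
    generalize S.E (n + 1) (n + 1) = E at *
    linear_combination (norm := noncomm_ring) -(hu * θ * y k * E) - star u * u * θ * hu * y k * E -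
      star u * x * u * y k * hu * E - star u * x * u * y k * star u * up * E +
      star u * x * u * y k * star u * u * e2 +
      star u * (u * θ * star u - x) * u * S.P n * e3 +
      star u * (u * θ * star u - x) * u * e1 * y k
  rw [this]
  refine norm_add_le_of_le ?_ (norm_sum_le_of_le _ fun k _ => norm_mul_le_of_le le_rfl ?_)
  · simpa using norm_mul_le_of_le (norm_mul_le_of_le (norm_mul_le_of_le nu' coarse) nu) nE
  · simpa using norm_mul_le_of_le (ny k) nE

end ES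

end Crest.Agent.R78
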