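import Mathlib

/-! Abstract two-sided Fock relations and the row/column estimates. -/

set_option autoImplicit false

namespace Crest.Agent.R78

open Finset

/-- Two-sided Fock relations: left creations `l`, right creations `r`, vacuum projection `P`. -/
structure FR (I : Type) [Fintype I] [DecidableEq I] (B : Type*) [Ring B] [StarRing B] where
  l : I → B
  r : I → B
  P : B
  ll : ∀ i j, star (l i) * l j = if i = j then 1 else 0
  rr : ∀ i j, star (r i) * r j = if i = j then 1 else 0
  sl : ∑ i, l i * star (l i) = 1 - P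
  sr : ∑ i, r i * star (r i) = 1 - P
  lr : ∀ i j, l i * r j = r j * l i
  slr : ∀ i j, star (l i) * r j = r j * star (l i) + if i = j then P else 0
  lP : ∀ i, l i * P = r i * P
  sP : star P = P

namespace FR

variable {I : Type} [Fintype I] [DecidableEq I]

section ring
variable {B : Type*} [Ring B] [StarRing B] (U : FR I B)

/-- left field operator -/
def s (i : I) : B := U.l i + star (U.l i)
/-- right field operator -/
def σ (i : I) : B := U.r i + star (U.r i)

lemma star_s (i : I) : star (U.s i) = U.s i := by simp [s, add_comm]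
lemma star_σ (i : I) : star (U.σ i) = U.σ i := by simp [σ, add_comm]

lemma sl_P (i : I) : star (U.l i) * U.P = 0 := by
  have : star (U.l i) * (1 - U.P) = star (U.l i) := by
    rw [← U.sl, mul_sum]
    simp only [← mul_assoc, U.ll]
    simp
  rw [mul_sub, mul_one, sub_eq_self] at this
  exact this

lemma sr_P (i : I) : star (U.r i) * U.P = 0 := by
  have : star (U.r i) * (1 - U.P) = star (U.r i) := by
    rw [← U.sr, mul_sum]
    simp only [← mul_assoc, U.rr]
    simp
  rw [mul_sub, mul_one, sub_eq_self] at this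
  exact this

lemma P_l (i : I) : U.P * U.l i = 0 := by
  simpa [U.sP] using congrArg star (U.sl_P i)

lemma P_r (i : I) : U.P * U.r i = 0 := by
  simpa [U.sP] using congrArg star (U.sr_P i)

lemma P_P : U.P * U.P = U.P := by
  have : U.P * (1 - U.P) = 0 := by
    rw [← U.sl, mul_sum]
    simp only [← mul_assoc, U.P_l]
    simp
  rw [mul_sub, mul_one, sub_eq_zero] at this
  exact this.symm

lemma P_sl (i : I) : U.P * star (U.l i) = U.P * star (U.r i) := by
  simpa [U.sP] using congrArg star (U.lP i)

lemma s_σ (i j : I) : Commute (U.s i) (U.σ j) := by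
  have h1 := U.lr i j
  have h2 := U.slr i j
  have h3 : star (U.r j) * star (U.l i) = star (U.l i) * star (U.r j) := by
    simpa using congrArg star h1
  have h4 : star (U.r j) * U.l i = U.l i * star (U.r j) + if i = j then U.P else 0 := by
    have := congrArg star h2
    simp only [star_mul, star_star, star_add] at this
    rw [this]
    split_ifs <;> simp [U.sP]
  unfold s σ
  rw [commute_iff_eq]
  simp only [mul_add, add_mul, h1, h2, h3, h4]
  abel

/-- `x` commutes with all generators -/
structure Com (x : B) : Prop where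
  l : ∀ i, Commute (U.l i) x
  sl : ∀ i, Commute (star (U.l i)) x
  r : ∀ i, Commute (U.r i) x
  sr : ∀ i, Commute (star (U.r i)) x

variable {U}

lemma Com.P {x : B} (h : U.Com x) : Commute U.P x := by
  have : U.P = 1 - ∑ i, U.l i * star (U.l i) := by rw [U.sl]; abel
  rw [this]
  exact (Commute.one_left x).sub_left (Commute.sum_left _ _ _ fun i _ => (h.l i).mul_left (h.sl i))

lemma Com.s {x : B} (h : U.Com x) (i : I) : Commute (U.s i) x := (h.l i).add_left (h.sl i)
lemma Com.σ {x : B} (h : U.Com x) (i : I) : Commute (U.σ i) x := (h.r i).add_left (h.sr i)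

lemma Com.star {x : B} (h : U.Com x) : U.Com (star x) :=
  ⟨fun i => by simpa using (h.sl i).star_star, fun i => (h.l i).star_star,
    fun i => by simpa using (h.sr i).star_star, fun i => (h.r i).star_star⟩

lemma Com.mul {x y : B} (h : U.Com x) (h' : U.Com y) : U.Com (x * y) :=
  ⟨fun i => (h.l i).mul_right (h'.l i), fun i => (h.sl i).mul_right (h'.sl i),
    fun i => (h.r i).mul_right (h'.r i), fun i => (h.sr i).mul_right (h'.sr i)⟩

lemma Com.add {x y : B} (h : U.Com x) (h' : U.Com y) : U.Com (x + y) :=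
  ⟨fun i => (h.l i).add_right (h'.l i), fun i => (h.sl i).add_right (h'.sl i),
    fun i => (h.r i).add_right (h'.r i), fun i => (h.sr i).add_right (h'.sr i)⟩

lemma Com.sub {x y : B} (h : U.Com x) (h' : U.Com y) : U.Com (x - y) :=
  ⟨fun i => (h.l i).sub_right (h'.l i), fun i => (h.sl i).sub_right (h'.sl i),
    fun i => (h.r i).sub_right (h'.r i), fun i => (h.sr i).sub_right (h'.sr i)⟩

lemma Com.one : U.Com 1 :=
  ⟨fun _ => Commute.one_right _, fun _ => Commute.one_right _, fun _ => Commute.one_right _,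
    fun _ => Commute.one_right _⟩

end ring

section map
variable {B C : Type*} [Ring B] [StarRing B] [Algebra ℂ B] [Ring C] [StarRing C] [Algebra ℂ C]

/-- transport along a star homomorphism -/
def map (U : FR I B) (φ : B →⋆ₐ[ℂ] C) : FR I C where
  l i := φ (U.l i)
  r i := φ (U.r i)
  P := φ U.P
  ll i j := by rw [← map_star, ← map_mul, U.ll]; split_ifs <;> simp
  rr i j := by rw [← map_star, ← map_mul, U.rr]; split_ifs <;> simp
  sl := by simp only [← map_star, ← map_mul, ← map_sum, U.sl, map_sub, map_one]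
  sr := by simp only [← map_star, ← map_mul, ← map_sum, U.sr, map_sub, map_one]
  lr i j := by rw [← map_mul, ← map_mul, U.lr]
  slr i j := by
    rw [← map_star, ← map_mul, ← map_mul, U.slr, map_add]; split_ifs <;> simp
  lP i := by rw [← map_mul, ← map_mul, U.lP]
  sP := by rw [← map_star, U.sP]

lemma map_l (U : FR I B) (φ : B →⋆ₐ[ℂ] C) (i : I) : (U.map φ).l i = φ (U.l i) := rfl
lemma map_r (U : FR I B) (φ : B →⋆ₐ[ℂ] C) (i : I) : (U.map φ).r i = φ (U.r i) := rfl
lemma map_P (U : FR I B) (φ : B →⋆ₐ[ℂ] C) : (U.map φ).P = φ U.P := rfl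
lemma map_s (U : FR I B) (φ : B →⋆ₐ[ℂ] C) (i : I) : (U.map φ).s i = φ (U.s i) := by
  simp only [s, map_l, map_add, map_star]
lemma map_σ (U : FR I B) (φ : B →⋆ₐ[ℂ] C) (i : I) : (U.map φ).σ i = φ (U.σ i) := by
  simp only [σ, map_r, map_add, map_star]

lemma com_map (U : FR I B) (φ : B →⋆ₐ[ℂ] C) {x : C} (h : ∀ b, Commute (φ b) x) :
    (U.map φ).Com x :=
  ⟨fun _ => h _, fun i => by rw [map_l, ← map_star]; exact h _, fun _ => h _,
    fun i => by rw [map_r, ← map_star]; exact h _⟩

end map

end FR

section norms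
variable {A : Type*} [CStarAlgebra A] {I : Type} [Fintype I] [DecidableEq I]

lemma nm1 : ‖(1 : A)‖ ≤ 1 := by
  nontriviality A
  simp

lemma norm_le_one_of {x : A} (h : ‖star x * x‖ ≤ 1) : ‖x‖ ≤ 1 := by
  rw [CStarRing.norm_star_mul_self] at h
  nlinarith [norm_nonneg x]

lemma norm_proj_le {p : A} (h1 : star p = p) (h2 : p * p = p) : ‖p‖ ≤ 1 :=
  IsStarProjection.norm_le p ⟨h2, h1⟩

lemma norm_one_sub_proj_le {p : A} (h1 : star p = p) (h2 : p * p = p) : ‖1 - p‖ ≤ 1 :=
  norm_proj_le (by simp [h1]) (by simp [mul_sub, sub_mul, h2])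

/-- row estimate for isometries with orthogonal ranges -/
lemma norm_sum_row (v b : I → A) (hv : ∀ i j, star (v i) * v j = if i = j then 1 else 0)
    {C : ℝ} (hC : 0 ≤ C) (hb : ∀ i, ‖b i‖ ≤ C) :
    ‖∑ i, v i * b i‖ ≤ √(Fintype.card I) * C := by
  have h1 : star (∑ i, v i * b i) * (∑ i, v i * b i) = ∑ i, star (b i) * b i := by
    rw [star_sum, sum_mul_sum]
    refine sum_congr rfl fun i _ => ?_
    have : ∀ j, star (v i * b i) * (v j * b j) = if i = j then star (b i) * b j else 0 := by
      intro j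
      rw [star_mul, mul_assoc, ← mul_assoc (star (v i)), hv]
      split_ifs <;> simp
    simp only [this, sum_ite_eq, mem_univ, if_true]
  have h2 : ‖∑ i, star (b i) * b i‖ ≤ Fintype.card I * C ^ 2 := by
    refine (norm_sum_le _ _).trans ?_
    rw [← card_univ, ← nsmul_eq_mul]
    refine sum_le_card_nsmul _ _ _ fun i _ => ?_
    rw [CStarRing.norm_star_mul_self, sq]
    exact mul_le_mul (hb i) (hb i) (norm_nonneg _) hC
  rw [← h1, CStarRing.norm_star_mul_self, ← sq] at h2
  refine (pow_le_pow_iff_left₀ (norm_nonneg _) (by positivity) two_ne_zero).1 ?_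
  rwa [mul_pow, Real.sq_sqrt (Nat.cast_nonneg _)]

namespace FR
variable (U : FR I A)

lemma norm_l (i : I) : ‖U.l i‖ ≤ 1 := norm_le_one_of (by simpa [U.ll] using nm1)
lemma norm_r (i : I) : ‖U.r i‖ ≤ 1 := norm_le_one_of (by simpa [U.rr] using nm1)
lemma norm_P : ‖U.P‖ ≤ 1 := norm_proj_le U.sP U.P_P
lemma norm_s (i : I) : ‖U.s i‖ ≤ 2 := by
  refine (norm_add_le _ _).trans ?_
  rw [norm_star]; linarith [U.norm_l i]
lemma norm_σ (i : I) : ‖U.σ i‖ ≤ 2 := by
  refine (norm_add_le _ _).trans ?_
  rw [norm_star]; linarith [U.norm_r i]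

/-- coarse estimate -/
lemma norm_sum_s (b : I → A) (hb : ∀ i, Commute (star (U.l i)) (b i)) {C : ℝ} (hC : 0 ≤ C)
    (hn : ∀ i, ‖b i‖ ≤ C) : ‖∑ i, U.s i * b i‖ ≤ 2 * (√(Fintype.card I) * C) := by
  have h1 : ∑ i, U.s i * b i = ∑ i, U.l i * b i + star (∑ i, U.l i * star (b i)) := by
    simp only [s, add_mul, sum_add_distrib, star_sum, star_mul, star_star, (hb _).eq]
  have h2 := norm_sum_row U.l b U.ll hC hn
  have h3 := norm_sum_row U.l (fun i => star (b i)) U.ll hC fun i => by simpa using hn i
  rw [h1]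
  refine (norm_add_le _ _).trans ?_
  rw [norm_star]; linarith

lemma norm_sum_sσ :
    ‖∑ i, U.s i * U.σ i - (Fintype.card I : ℂ) • U.P‖ ≤ 4 * √(Fintype.card I) := by
  have h1 : ∑ i, U.s i * U.σ i - (Fintype.card I : ℂ) • U.P =
      ∑ i, U.l i * U.σ i + ∑ i, U.r i * star (U.l i) + star (∑ i, U.r i * U.l i) := by
    have : ∀ i, U.s i * U.σ i = U.l i * U.σ i + U.r i * star (U.l i) +
        star (U.r i * U.l i) + U.P := by
      intro i
      have := U.slr i i
      rw [if_pos rfl] at this
      simp only [s, σ, add_mul, mul_add, this, star_mul]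
      abel
    simp only [this, sum_add_distrib, star_sum, sum_const, card_univ, Nat.cast_smul_eq_nsmul]
    abel
  have h2 := norm_sum_row U.l U.σ U.ll zero_le_two U.norm_σ
  have h3 := norm_sum_row U.r (fun i => star (U.l i)) U.rr zero_le_one fun i => by
    simpa using U.norm_l i
  have h4 := norm_sum_row U.r U.l U.rr zero_le_one U.norm_l
  rw [h1]
  refine (norm_add₃_le).trans ?_
  rw [norm_star]; linarith

end FR

end norms

end Crest.Agent.R78
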