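import Crest.Agent.R124.Amp
import Crest.Prelude.Def_Hochschild

/-!
# Row 78, finishing part of S0103: basic definitions

`Close M N d`, matrix and diagonal amplifications of von Neumann algebras, the test inequality.
-/

set_option autoImplicit false
set_option linter.unusedSectionVars false

open scoped InnerProductSpace

noncomputable section

namespace Crest.Agent.R78.Fin

open Crest.Agent.R124

universe u

section Defs
variable {H : Type u} [NormedAddCommGroup H] [InnerProductSpace ℂ H] [CompleteSpace H]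

/-- Homogeneous near inclusion. -/
def Close (M N : VonNeumannAlgebra H) (d : ℝ) : Prop :=
  ∀ x ∈ M, ∃ y ∈ N, ‖x - y‖ ≤ d * ‖x‖

lemma Close.mono {M N : VonNeumannAlgebra H} {d d' : ℝ} (h : Close M N d) (hd : d ≤ d') :
    Close M N d' := fun x hx => by
  obtain ⟨y, hy, h1⟩ := h x hx
  exact ⟨y, hy, h1.trans (by gcongr)⟩

lemma vn_smul_mem (M : VonNeumannAlgebra H) (c : ℂ) {x : H →L[ℂ] H} (hx : x ∈ M) : c • x ∈ M :=
  SMulMemClass.smul_mem (s := M.toStarSubalgebra) c hx

lemma vn_comm {M : VonNeumannAlgebra H} {x y : H →L[ℂ] H} (hx : x ∈ M) (hy : y ∈ M.commutant) :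
    x * y = y * x := VonNeumannAlgebra.mem_commutant_iff.1 hy x hx

lemma vn_mem_of_comm {M : VonNeumannAlgebra H} {x : H →L[ℂ] H}
    (h : ∀ y ∈ M.commutant, y * x = x * y) : x ∈ M := by
  rw [← M.commutant_commutant]
  exact VonNeumannAlgebra.mem_commutant_iff.2 h

/-- The commutant of a set (and of its adjoints) as a von Neumann algebra. -/
def cent (S : Set (H →L[ℂ] H)) : VonNeumannAlgebra H where
  toStarSubalgebra := StarSubalgebra.centralizer ℂ S
  centralizer_centralizer' := Set.centralizer_centralizer_centralizer _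

lemma mem_cent {S : Set (H →L[ℂ] H)} {x : H →L[ℂ] H} :
    x ∈ cent S ↔ ∀ y ∈ S, y * x = x * y ∧ star y * x = x * star y :=
  StarSubalgebra.mem_centralizer_iff ℂ

variable (ι : Type) [Fintype ι] [DecidableEq ι]

/-- Matrices with entries in `M`. -/
def ampVN (M : VonNeumannAlgebra H) : VonNeumannAlgebra (Amp ι H) :=
  cent (diagOp ι '' (M.commutant : Set (H →L[ℂ] H)))

/-- Diagonal copies of elements of `M`. -/
def diagVN (M : VonNeumannAlgebra H) : VonNeumannAlgebra (Amp ι H) :=
  (ampVN ι M.commutant).commutant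

variable {ι}

lemma comm_diag_iff (y : H →L[ℂ] H) (X : Amp ι H →L[ℂ] Amp ι H) :
    diagOp ι y * X = X * diagOp ι y ↔ ∀ i j, y * ent X i j = ent X i j * y := by
  conv_lhs => rw [← matOp_ent X, diagOp_mul_matOp, matOp_mul_diagOp]
  rw [matOp_injective.eq_iff]
  constructor
  · intro h i j
    simpa using congrFun (congrFun h i) j
  · intro h
    refine Matrix.ext fun i j => ?_
    simpa using h i j

lemma mem_ampVN {M : VonNeumannAlgebra H} {X : Amp ι H →L[ℂ] Amp ι H} :
    X ∈ ampVN ι M ↔ ∀ i j, ent X i j ∈ M := by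
  rw [ampVN, mem_cent]
  constructor
  · intro h i j
    exact vn_mem_of_comm fun y hy => (comm_diag_iff y X).1 (h _ ⟨y, hy, rfl⟩).1 i j
  · rintro h _ ⟨y, hy, rfl⟩
    rw [← diagOp_star]
    exact ⟨(comm_diag_iff y X).2 fun i j => (vn_comm (h i j) hy).symm,
      (comm_diag_iff _ X).2 fun i j => (vn_comm (h i j) (star_mem hy)).symm⟩

lemma matOp_mem_ampVN {M : VonNeumannAlgebra H} {x : Matrix ι ι (H →L[ℂ] H)} :
    matOp x ∈ ampVN ι M ↔ ∀ i j, x i j ∈ M := by
  rw [mem_ampVN, ent_matOp]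

lemma diagOp_mem_ampVN {M : VonNeumannAlgebra H} {x : H →L[ℂ] H} (hx : x ∈ M) :
    diagOp ι x ∈ ampVN ι M := by
  rw [diagOp_eq, matOp_mem_ampVN]
  intro i j
  rw [Matrix.diagonal_apply]
  split_ifs
  · exact hx
  · exact zero_mem M

lemma diagOp_mem_commutant_ampVN {M : VonNeumannAlgebra H} {y : H →L[ℂ] H}
    (hy : y ∈ M.commutant) : diagOp ι y ∈ (ampVN ι M).commutant :=
  VonNeumannAlgebra.mem_commutant_iff.2 fun X hX =>
    ((comm_diag_iff y X).2 fun i j => (vn_comm (mem_ampVN.1 hX i j) hy).symm).symm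

lemma mem_commutant_ampVN {M : VonNeumannAlgebra H} {X : Amp ι H →L[ℂ] Amp ι H} :
    X ∈ (ampVN ι M).commutant ↔ ∃ y ∈ M.commutant, X = diagOp ι y := by
  constructor
  · intro hX
    have h : ∀ (i j : ι) (a : H →L[ℂ] H), a ∈ M →
        Matrix.single i j a * ent X = ent X * Matrix.single i j a := fun i j a ha => by
      have := VonNeumannAlgebra.mem_commutant_iff.1 hX (matOp (Matrix.single i j a))
        (matOp_mem_ampVN.2 fun k l => by
          rw [Matrix.single_apply]
          split_ifs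
          · exact ha
          · exact zero_mem M)
      have h2 := congrArg ent this
      rwa [ent_mul, ent_mul, ent_matOp] at h2
    rcases isEmpty_or_nonempty ι with hι | ⟨⟨i₀⟩⟩
    · exact ⟨0, zero_mem _, by ext w i; exact hι.elim i⟩
    · refine ⟨ent X i₀ i₀, VonNeumannAlgebra.mem_commutant_iff.2 fun a ha => ?_, ?_⟩
      · simpa using congrFun (congrFun (h i₀ i₀ a ha) i₀) i₀
      · rw [diagOp_eq, ← matOp_ent X]
        congr 1
        refine Matrix.ext fun i j => ?_
        rw [Matrix.diagonal_apply, ent_matOp]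
        split_ifs with hij
        · subst hij
          simpa using (congrFun (congrFun (h i i₀ 1 (one_mem M)) i) i₀).symm
        · have := congrFun (congrFun (h j j 1 (one_mem M)) i) j
          rw [Matrix.single_mul_apply_of_ne _ _ _ _ _ hij] at this
          simpa using this.symm
  · rintro ⟨y, hy, rfl⟩
    exact diagOp_mem_commutant_ampVN hy

lemma mem_diagVN {M : VonNeumannAlgebra H} {X : Amp ι H →L[ℂ] Amp ι H} :
    X ∈ diagVN ι M ↔ ∃ x ∈ M, X = diagOp ι x := by
  rw [diagVN, mem_commutant_ampVN, VonNeumannAlgebra.commutant_commutant]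

lemma diagOp_mem_diagVN {M : VonNeumannAlgebra H} {x : H →L[ℂ] H} (hx : x ∈ M) :
    diagOp ι x ∈ diagVN ι M := mem_diagVN.2 ⟨x, hx, rfl⟩

@[simp] lemma commutant_diagVN (M : VonNeumannAlgebra H) :
    (diagVN ι M).commutant = ampVN ι M.commutant := by
  rw [diagVN, VonNeumannAlgebra.commutant_commutant]

@[simp] lemma commutant_ampVN (M : VonNeumannAlgebra H) :
    (ampVN ι M).commutant = diagVN ι M.commutant := by
  rw [diagVN, VonNeumannAlgebra.commutant_commutant]

lemma Close.diag {M N : VonNeumannAlgebra H} {d : ℝ} (h : Close M N d) (hd : 0 ≤ d) :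
    Close (diagVN ι M) (diagVN ι N) d := by
  intro X hX
  obtain ⟨x, hx, rfl⟩ := mem_diagVN.1 hX
  rcases isEmpty_or_nonempty ι with hι | hι
  · refine ⟨0, zero_mem _, ?_⟩
    have : diagOp ι x = 0 := by ext w i; exact hι.elim i
    simp [this]
  · obtain ⟨y, hy, h1⟩ := h x hx
    refine ⟨diagOp ι y, diagOp_mem_diagVN hy, ?_⟩
    rw [← diagOp_sub]
    exact (norm_diagOp_le _).trans (h1.trans (by gcongr; exact norm_le_norm_diagOp x))

end Defs

/-- The test inequality (dual form of the existence of a linear lifting). -/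
def TestIneq (C : ℝ) : Prop :=
  ∀ (H : Type u) [NormedAddCommGroup H] [InnerProductSpace ℂ H] [CompleteSpace H]
    (M N : VonNeumannAlgebra H) (d : ℝ), 0 ≤ d → d ≤ 1 → Close M N d → Close N M d →
    ∀ (J : Type) [Fintype J] (x : J → (H →L[ℂ] H)) (z z' : J → H),
      (∀ j, x j ∈ M ∧ IsSelfAdjoint (x j) ∧ ‖x j‖ ≤ 1) →
      ∑ j, ‖z j‖ ^ 2 ≤ 1 → ∑ j, ‖z' j‖ ^ 2 ≤ 1 →
      (∀ y ∈ N, ∑ j, ⟪z' j, y (z j)⟫_ℂ • x j = 0) →
      ‖∑ j, ⟪z' j, x j (z j)⟫_ℂ‖ ≤ C * d

/-- Uniform vanishing of bounded Hochschild cohomology in degree `n + 1`. -/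
def UnifCoh (n : ℕ) (K : ℝ) : Prop :=
  ∀ (H : Type u) [NormedAddCommGroup H] [InnerProductSpace ℂ H] [CompleteSpace H]
    (M : VonNeumannAlgebra H)
    (f : ContinuousMultilinearMap ℂ (fun _ : Fin (n + 1) => M.toStarSubalgebra)
      M.toStarSubalgebra),
    (∀ a : Fin (n + 2) → M.toStarSubalgebra, Crest.OpAlg.hochschildDiff f a = 0) →
    ∃ g : ContinuousMultilinearMap ℂ (fun _ : Fin n => M.toStarSubalgebra) M.toStarSubalgebra,
      (∀ a : Fin (n + 1) → M.toStarSubalgebra, Crest.OpAlg.hochschildDiff g a = f a) ∧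
        ‖g‖ ≤ K * ‖f‖

end Crest.Agent.R78.Fin
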