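import Crest.Agent.R78.FinBasic
import Crest.Agent.R124.All1

/-!
# Row 78: a Hahn–Banach lemma for families of operators, Arveson's distance formula,
closeness of commutants and of matrix amplifications.
-/

set_option autoImplicit false
set_option linter.unusedSectionVars false

open scoped InnerProductSpace

noncomputable section

namespace Crest.Agent.R78.Fin

open Crest.Agent.R124

universe u

variable {H : Type u} [NormedAddCommGroup H] [InnerProductSpace ℂ H] [CompleteSpace H]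

/-- A bounded sesquilinear form is given by an operator. -/
lemma exists_op_of_sesq (b : H → H → ℂ) (c : ℝ) (hc : 0 ≤ c)
    (h1 : ∀ z₁ z₂ z', b (z₁ + z₂) z' = b z₁ z' + b z₂ z')
    (h2 : ∀ (t : ℂ) z z', b (t • z) z' = t * b z z')
    (h3 : ∀ z z₁ z₂, b z (z₁ + z₂) = b z z₁ + b z z₂)
    (h4 : ∀ (t : ℂ) z z', b z (t • z') = (starRingEnd ℂ) t * b z z')
    (hb : ∀ z z', ‖b z z'‖ ≤ c * (‖z‖ * ‖z'‖)) :
    ∃ T : H →L[ℂ] H, ‖T‖ ≤ c ∧ ∀ z z', ⟪z', T z⟫_ℂ = b z z' := by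
  have hv : ∀ z, ∃ v : H, ∀ z', ⟪z', v⟫_ℂ = b z z' := fun z => by
    let φ : H →ₗ[ℂ] ℂ :=
      { toFun := fun z' => (starRingEnd ℂ) (b z z')
        map_add' := fun a a' => by rw [h3, map_add]
        map_smul' := fun t a => by simp [h4] }
    refine ⟨(InnerProductSpace.toDual ℂ H).symm (φ.mkContinuous (c * ‖z‖) fun z' => ?_),
      fun z' => ?_⟩
    · simpa [φ, mul_assoc] using hb z z'
    · rw [← inner_conj_symm, InnerProductSpace.toDual_symm_apply]
      simp [φ]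
  choose v hv using hv
  have hn : ∀ z, ‖v z‖ ≤ c * ‖z‖ := fun z => by
    have h5 := hb z (v z)
    rw [← hv, inner_self_eq_norm_sq_to_K] at h5
    simp only [Complex.coe_algebraMap, norm_pow, Complex.norm_real, norm_norm] at h5
    rcases eq_or_lt_of_le (norm_nonneg (v z)) with h0 | h0
    · rw [← h0]; positivity
    · nlinarith
  let T : H →ₗ[ℂ] H :=
    { toFun := v
      map_add' := fun a a' => ext_inner_left ℂ fun z' => by rw [inner_add_right, hv, hv, hv, h1]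
      map_smul' := fun t a => ext_inner_left ℂ fun z' => by
        simp only [RingHom.id_apply, inner_smul_right, hv, h2] }
  exact ⟨T.mkContinuous c hn, T.mkContinuous_norm_le hc hn, fun z z' => hv z z'⟩

lemma ghb_rescale {F : Type*} (𝓛 : Set (F → (H →L[ℂ] H))) (w : F → (H →L[ℂ] H)) (c : ℝ)
    (hc : 0 ≤ c)
    (h : ∀ (n : ℕ) (u : Fin n → F) (z z' : Fin n → H), ∑ j, ‖z j‖ ^ 2 ≤ 1 → ∑ j, ‖z' j‖ ^ 2 ≤ 1 →
      (∀ l ∈ 𝓛, ∑ j, ⟪z' j, l (u j) (z j)⟫_ℂ = 0) → ‖∑ j, ⟪z' j, w (u j) (z j)⟫_ℂ‖ ≤ c)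
    {J : Type*} [Fintype J] (u : J → F) (z z' : J → H)
    (hl : ∀ l ∈ 𝓛, ∑ j, ⟪z' j, l (u j) (z j)⟫_ℂ = 0) :
    ‖∑ j, ⟪z' j, w (u j) (z j)⟫_ℂ‖ ≤ c * ∑ j, ‖z j‖ * ‖z' j‖ := by
  set S : ℝ := ∑ j, ‖z j‖ * ‖z' j‖ with hS
  have hS0 : 0 ≤ S := Finset.sum_nonneg fun j _ => by positivity
  have hz : ∀ j, ‖z j‖ * ‖z' j‖ = 0 → ∀ T : H →L[ℂ] H, ⟪z' j, T (z j)⟫_ℂ = 0 := fun j hj T => by
    rcases mul_eq_zero.1 hj with h0 | h0 <;> simp [norm_eq_zero.1 h0]
  rcases eq_or_lt_of_le hS0 with h0 | h0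
  · have : ∀ j, ‖z j‖ * ‖z' j‖ = 0 := fun j =>
      (Finset.sum_eq_zero_iff_of_nonneg fun j _ => by positivity).1 h0.symm j (Finset.mem_univ j)
    rw [Finset.sum_eq_zero fun j _ => hz j (this j) _, norm_zero]
    positivity
  set e := (Fintype.equivFin J).symm
  let r : H → H → ℝ := fun a b => √(‖a‖ * ‖b‖ / S) / ‖a‖
  have hr : ∀ a b : H, ‖((r a b : ℝ) : ℂ) • a‖ ^ 2 = ‖a‖ * ‖b‖ / S := fun a b => by
    rcases eq_or_ne a 0 with rfl | ha
    · simp
    · have : ‖a‖ ≠ 0 := norm_ne_zero_iff.2 ha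
      rw [norm_smul, Complex.norm_real, Real.norm_of_nonneg (by positivity), div_mul_cancel₀ _ this,
        Real.sq_sqrt (by positivity)]
  have hi : ∀ (j : J) (T : H →L[ℂ] H), ⟪((r (z' j) (z j) : ℝ) : ℂ) • z' j,
      T (((r (z j) (z' j) : ℝ) : ℂ) • z j)⟫_ℂ = ((S⁻¹ : ℝ) : ℂ) * ⟪z' j, T (z j)⟫_ℂ := fun j T => by
    rw [map_smul, inner_smul_left, inner_smul_right, Complex.conj_ofReal, ← mul_assoc,
      ← Complex.ofReal_mul]
    rcases eq_or_ne (‖z j‖ * ‖z' j‖) 0 with h1 | h1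
    · rw [hz j h1, mul_zero, mul_zero]
    · congr 2
      have h2 := left_ne_zero_of_mul h1
      have h3 := right_ne_zero_of_mul h1
      simp only [r]
      rw [mul_comm ‖z' j‖, div_mul_div_comm, Real.mul_self_sqrt (by positivity)]
      field_simp
  have hsum : ∀ T : F → (H →L[ℂ] H), ∑ j, ⟪((r (z' (e j)) (z (e j)) : ℝ) : ℂ) • z' (e j),
      T (u (e j)) (((r (z (e j)) (z' (e j)) : ℝ) : ℂ) • z (e j))⟫_ℂ =
      ((S⁻¹ : ℝ) : ℂ) * ∑ j, ⟪z' j, T (u j) (z j)⟫_ℂ := fun T => by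
    simp only [hi]
    rw [← Finset.mul_sum, Equiv.sum_comp e (fun j => ⟪z' j, T (u j) (z j)⟫_ℂ)]
  have key := h _ (fun j => u (e j)) (fun j => ((r (z (e j)) (z' (e j)) : ℝ) : ℂ) • z (e j))
    (fun j => ((r (z' (e j)) (z (e j)) : ℝ) : ℂ) • z' (e j))
    (by
      simp only [hr]
      rw [Equiv.sum_comp e (fun j => ‖z j‖ * ‖z' j‖ / S), ← Finset.sum_div, div_self h0.ne'])
    (by
      simp only [hr]
      rw [Equiv.sum_comp e (fun j => ‖z' j‖ * ‖z j‖ / S), ← Finset.sum_div]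
      simp only [mul_comm ‖z' _‖]
      rw [div_self h0.ne'])
    (fun l hl' => by rw [hsum, hl l hl', mul_zero])
  rw [hsum, norm_mul, Complex.norm_real, Real.norm_of_nonneg (by positivity),
    inv_mul_le_iff₀ h0] at key
  linarith

/-- General Hahn–Banach lemma: if `w` is bounded by `c` on the tests annihilating `𝓛`, then
`w` is within `c` of the weak closure of the span of `𝓛`. -/
theorem ghb {F : Type*} (𝓛 : Set (F → (H →L[ℂ] H))) (w : F → (H →L[ℂ] H)) (c : ℝ)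
    (hc : 0 ≤ c)
    (h : ∀ (n : ℕ) (u : Fin n → F) (z z' : Fin n → H), ∑ j, ‖z j‖ ^ 2 ≤ 1 → ∑ j, ‖z' j‖ ^ 2 ≤ 1 →
      (∀ l ∈ 𝓛, ∑ j, ⟪z' j, l (u j) (z j)⟫_ℂ = 0) → ‖∑ j, ⟪z' j, w (u j) (z j)⟫_ℂ‖ ≤ c) :
    ∃ v : F → (H →L[ℂ] H), (∀ u, ‖w u - v u‖ ≤ c) ∧
      ∀ (J : Type) [Fintype J] (u : J → F) (z z' : J → H),
        (∀ l ∈ 𝓛, ∑ j, ⟪z' j, l (u j) (z j)⟫_ℂ = 0) → ∑ j, ⟪z' j, v (u j) (z j)⟫_ℂ = 0 := by
  classical
  let ev : (F → (H →L[ℂ] H)) → ((F × H × H) →₀ ℂ) →ₗ[ℂ] ℂ := fun T =>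
    Finsupp.linearCombination ℂ fun p => ⟪p.2.2, T p.1 p.2.1⟫_ℂ
  have ev1 : ∀ T u z z', ev T (Finsupp.single (u, z, z') 1) = ⟪z', T u z⟫_ℂ := fun T u z z' => by
    simp [ev]
  let q₀ : ((F × H × H) →₀ ℂ) → ℝ := fun μ =>
    ∑ p ∈ μ.support, ‖μ p‖ * (‖p.2.1‖ * ‖p.2.2‖)
  have hq : ∀ (μ : (F × H × H) →₀ ℂ) (s : Finset (F × H × H)), μ.support ⊆ s →
      q₀ μ = ∑ p ∈ s, ‖μ p‖ * (‖p.2.1‖ * ‖p.2.2‖) := fun μ s hs =>
    Finset.sum_subset hs fun p _ hp => by simp [Finsupp.notMem_support_iff.1 hp]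
  let q : Seminorm ℂ ((F × H × H) →₀ ℂ) := Seminorm.of (fun μ => c * q₀ μ)
    (fun μ ν => by
      rw [← mul_add, hq (μ + ν) _ Finsupp.support_add, hq μ _ Finset.subset_union_left,
        hq ν _ Finset.subset_union_right, ← Finset.sum_add_distrib]
      gcongr with p hp
      rw [← add_mul]
      gcongr
      exact norm_add_le _ _)
    (fun a μ => by
      rw [hq (a • μ) _ Finsupp.support_smul, mul_left_comm]
      simp only [q₀, Finset.mul_sum, Finsupp.smul_apply, norm_smul, mul_assoc])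
  let S : Submodule ℂ ((F × H × H) →₀ ℂ) := ⨅ l ∈ 𝓛, LinearMap.ker (ev l)
  have hS : ∀ μ, μ ∈ S ↔ ∀ l ∈ 𝓛, ev l μ = 0 := fun μ => by simp [S, Submodule.mem_iInf]
  have evs : ∀ T (μ : (F × H × H) →₀ ℂ),
      ev T μ = ∑ p : μ.support, ⟪p.1.2.2, T p.1.1 (μ p.1 • p.1.2.1)⟫_ℂ := fun T μ => by
    rw [Finset.sum_coe_sort μ.support (fun p => ⟪p.2.2, T p.1 (μ p • p.2.1)⟫_ℂ)]
    simp [ev, Finsupp.linearCombination_apply, Finsupp.sum]
  obtain ⟨Λ, hΛ, hΛq⟩ := Module.Dual.exists_extension_of_le_seminorm S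
    ((ev w).comp S.subtype) (p := q) (fun μ => by
      have := ghb_rescale 𝓛 w c hc h (fun p : μ.1.support => p.1.1)
        (fun p => μ.1 p.1 • p.1.2.1) (fun p => p.1.2.2) fun l hl => by
          rw [← evs]; exact (hS _).1 μ.2 l hl
      rw [← evs] at this
      refine this.trans (le_of_eq ?_)
      change _ = c * q₀ μ.1
      rw [Finset.sum_coe_sort μ.1.support (fun p => ‖μ.1 p • p.2.1‖ * ‖p.2.2‖)]
      simp only [q₀, norm_smul, mul_assoc])
  have hΛ' : ∀ μ, (∀ l ∈ 𝓛, ev l μ = 0) → Λ μ = ev w μ := fun μ hμ => hΛ ⟨μ, (hS μ).2 hμ⟩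
  have hΛ0 : ∀ μ, (∀ T, ev T μ = 0) → Λ μ = 0 := fun μ hμ => by
    rw [hΛ' μ fun l _ => hμ l, hμ]
  have hd : ∀ u, ∃ T : H →L[ℂ] H, ‖T‖ ≤ c ∧
      ∀ z z', ⟪z', T z⟫_ℂ = Λ (Finsupp.single (u, z, z') 1) := fun u => by
    refine exists_op_of_sesq (fun z z' => Λ (Finsupp.single (u, z, z') 1)) c hc
      (fun z₁ z₂ z' => ?_) (fun t z z' => ?_) (fun z z₁ z₂ => ?_) (fun t z z' => ?_)
      (fun z z' => ?_)
    · rw [← map_add, ← sub_eq_zero, ← map_sub]
      exact hΛ0 _ fun T => by simp [ev1]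
    · rw [← smul_eq_mul, ← map_smul, ← sub_eq_zero, ← map_sub]
      exact hΛ0 _ fun T => by
        rw [map_sub, map_smul, ev1, ev1, map_smul, inner_smul_right, smul_eq_mul, sub_self]
    · rw [← map_add, ← sub_eq_zero, ← map_sub]
      exact hΛ0 _ fun T => by simp [ev1]
    · rw [← smul_eq_mul, ← map_smul, ← sub_eq_zero, ← map_sub]
      exact hΛ0 _ fun T => by
        rw [map_sub, map_smul, ev1, ev1, inner_smul_left, smul_eq_mul, sub_self]
    · refine (hΛq _).trans (le_of_eq ?_)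
      change c * q₀ _ = _
      rw [hq _ _ Finsupp.support_single_subset]
      simp
  choose d hd hd' using hd
  refine ⟨fun u => w u - d u, fun u => by simpa using hd u, fun J _ u z z' hl => ?_⟩
  have := hΛ' (∑ j, Finsupp.single (u j, z j, z' j) 1) fun l hl' => by
    rw [map_sum]; simpa only [ev1] using hl l hl'
  rw [map_sum, map_sum] at this
  simp only [ev1, ← hd'] at this
  simp only [sub_apply, inner_sub_right, Finset.sum_sub_distrib, this,
    sub_self]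

lemma inner_star_left (a : H →L[ℂ] H) (ζ ξ : H) : ⟪(star a) ζ, ξ⟫_ℂ = ⟪ζ, a ξ⟫_ℂ := by
  rw [ContinuousLinearMap.star_eq_adjoint, ContinuousLinearMap.adjoint_inner_left]

lemma inner_star_right (a : H →L[ℂ] H) (ζ ξ : H) : ⟪ζ, (star a) ξ⟫_ℂ = ⟪a ζ, ξ⟫_ℂ := by
  rw [ContinuousLinearMap.star_eq_adjoint, ContinuousLinearMap.adjoint_inner_right]

/-- The cyclic projection `[Q ξ]`. -/
lemma exists_cyc_proj (Q : VonNeumannAlgebra H) (ξ : H) :
    ∃ e ∈ Q.commutant, IsStarProjection e ∧ (∀ y ∈ Q, e (y ξ) = y ξ) ∧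
      (∀ η, (∀ y ∈ Q, ⟪η, y ξ⟫_ℂ = 0) → e η = 0) ∧
      ∀ η, e η ∈ closure {v | ∃ y ∈ Q, v = y ξ} := by
  let L₀ : Submodule ℂ H :=
    { carrier := {v | ∃ y ∈ Q, v = y ξ}
      add_mem' := by
        rintro _ _ ⟨y, hy, rfl⟩ ⟨y', hy', rfl⟩
        exact ⟨y + y', add_mem hy hy', rfl⟩
      zero_mem' := ⟨0, zero_mem _, rfl⟩
      smul_mem' := by
        rintro c _ ⟨y, hy, rfl⟩
        exact ⟨c • y, vn_smul_mem Q c hy, rfl⟩ }
  set L : Submodule ℂ H := L₀.topologicalClosure with hL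
  have hLc : (L : Set H) = closure {v | ∃ y ∈ Q, v = y ξ} := L₀.topologicalClosure_coe
  have hinv : ∀ b ∈ Q, ∀ w ∈ L, b w ∈ L := by
    intro b hb w hw
    have h1 : Set.MapsTo b {v | ∃ y ∈ Q, v = y ξ} {v | ∃ y ∈ Q, v = y ξ} := by
      rintro _ ⟨a, ha, rfl⟩
      exact ⟨b * a, mul_mem hb ha, rfl⟩
    have h2 := h1.closure b.continuous
    rw [← hLc] at h2
    exact h2 hw
  have hinv' : ∀ b ∈ Q, ∀ w ∈ Lᗮ, b w ∈ Lᗮ := by
    intro b hb w hw
    rw [Submodule.mem_orthogonal] at hw ⊢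
    intro m hm
    rw [← inner_star_left]
    exact hw _ (hinv _ (star_mem hb) m hm)
  have : CompleteSpace L := (Submodule.isClosed_topologicalClosure _).completeSpace_coe
  refine ⟨L.starProjection, VonNeumannAlgebra.mem_commutant_iff.2 fun b hb => ?_,
    isStarProjection_starProjection, fun y hy => ?_, fun η hη => ?_, fun η => ?_⟩
  · ext w
    refine (Submodule.eq_starProjection_of_mem_orthogonal
      (hinv b hb _ (Submodule.starProjection_apply_mem L w)) ?_).symm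
    change b w - b (L.starProjection w) ∈ Lᗮ
    rw [← map_sub]
    exact hinv' b hb _ (Submodule.sub_starProjection_mem_orthogonal w)
  · exact Submodule.starProjection_eq_self_iff.2 (L₀.le_topologicalClosure ⟨y, hy, rfl⟩)
  · rw [Submodule.starProjection_apply_eq_zero_iff, hL, Submodule.orthogonal_closure,
      Submodule.mem_orthogonal']
    rintro _ ⟨y, hy, rfl⟩
    exact hη y hy
  · rw [← hLc]
    exact Submodule.starProjection_apply_mem L η

/-- Arveson's distance formula. -/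
theorem arveson (P : VonNeumannAlgebra H) (Y : H →L[ℂ] H) (g : ℝ) (hg : 0 ≤ g)
    (h : ∀ (n : ℕ) (X : Amp (Fin n) H →L[ℂ] Amp (Fin n) H), X ∈ ampVN (Fin n) P →
      ‖diagOp (Fin n) Y * X - X * diagOp (Fin n) Y‖ ≤ g * ‖X‖) :
    ∃ T ∈ P.commutant, ‖Y - T‖ ≤ g := by
  obtain ⟨v, hv, hv'⟩ := ghb {l : Unit → (H →L[ℂ] H) | l () ∈ P.commutant} (fun _ => Y) g hg
    (fun n u z z' hz hz' hl => by
      set ξ : Amp (Fin n) H := WithLp.toLp 2 z
      set η : Amp (Fin n) H := WithLp.toLp 2 z'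
      have hin : ∀ T : H →L[ℂ] H, ⟪η, diagOp (Fin n) T ξ⟫_ℂ = ∑ j, ⟪z' j, T (z j)⟫_ℂ := fun T => by
        simp [PiLp.inner_apply, ξ, η]
      obtain ⟨e, he, hp, h1, h2, -⟩ := exists_cyc_proj (diagVN (Fin n) P.commutant) ξ
      rw [commutant_diagVN, VonNeumannAlgebra.commutant_commutant] at he
      have heξ : e ξ = ξ := by simpa using h1 1 (one_mem _)
      have heη : e η = 0 := h2 η fun y hy => by
        obtain ⟨y', hy', rfl⟩ := mem_diagVN.1 hy
        rw [hin]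
        exact hl (fun _ => y') hy'
      have hξ : ‖ξ‖ ≤ 1 := by
        rw [← sq_le_one_iff₀ (norm_nonneg _), amp_norm_sq]; exact hz
      have hη : ‖η‖ ≤ 1 := by
        rw [← sq_le_one_iff₀ (norm_nonneg _), amp_norm_sq]; exact hz'
      have e1 : ⟪η, diagOp (Fin n) Y ξ⟫_ℂ =
          ⟪η, (diagOp (Fin n) Y * e - e * diagOp (Fin n) Y) ξ⟫_ℂ := by
        rw [sub_apply, inner_sub_right, mul_apply_eq_comp, mul_apply_eq_comp, heξ,
          ← inner_star_left e, hp.isSelfAdjoint.star_eq, heη, inner_zero_left, sub_zero]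
      rw [← hin, e1]
      have h3 := (h n e he).trans (mul_le_of_le_one_right hg (hp.norm_le _))
      refine (norm_inner_le_norm _ _).trans ?_
      have h4 := (diagOp (Fin n) Y * e - e * diagOp (Fin n) Y).le_opNorm ξ
      calc _ ≤ 1 * (g * 1) := by
            gcongr
            exact h4.trans (by gcongr)
        _ = g := by ring)
  refine ⟨v (), VonNeumannAlgebra.mem_commutant_iff.2 fun a ha => ?_, hv ()⟩
  ext z
  refine ext_inner_left ℂ fun z' => ?_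
  have := hv' (Fin 2) (fun _ => ()) ![z, a z] ![star a z', -z'] fun l hl => by
    simp only [Fin.sum_univ_two, Matrix.cons_val_zero, Matrix.cons_val_one, inner_star_left,
      inner_neg_left]
    rw [← mul_apply_eq_comp, vn_comm ha hl, mul_apply_eq_comp, add_neg_cancel]
  simp only [Fin.sum_univ_two, Matrix.cons_val_zero, Matrix.cons_val_one, inner_star_left,
    inner_neg_left] at this
  exact add_neg_eq_zero.1 this

/-- S0165 for arbitrary finite index types. -/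
theorem exists_mat : ∃ C : ℝ, 1 ≤ C ∧
    ∀ (K : Type u) [NormedAddCommGroup K] [InnerProductSpace ℂ K] [CompleteSpace K]
      (P : VonNeumannAlgebra K) (Y : K →L[ℂ] K) (g : ℝ), 0 ≤ g →
      (∀ a ∈ P, ‖Y * a - a * Y‖ ≤ g * ‖a‖) →
      ∀ (ι : Type) [Fintype ι] [DecidableEq ι] (X : Amp ι K →L[ℂ] Amp ι K), X ∈ ampVN ι P →
        ‖diagOp ι Y * X - X * diagOp ι Y‖ ≤ C * g * ‖X‖ := by
  obtain ⟨C, hC⟩ := s0165.{u}
  refine ⟨max 1 C, le_max_left _ _, fun K _ _ _ P Y g hg hY ι _ _ X hX => ?_⟩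
  rcases isEmpty_or_nonempty ι with hι | hι
  · have : diagOp ι Y * X - X * diagOp ι Y = 0 := by ext w i; exact hι.elim i
    rw [this, norm_zero]
    positivity
  set e := Fintype.equivFin ι
  let U : Amp ι K ≃ₗᵢ[ℂ] Amp (Fin (Fintype.card ι)) K :=
    LinearIsometryEquiv.piLpCongrLeft 2 ℂ K e
  have hU : ∀ w i, U w i = w (e.symm i) := fun w i => rfl
  have hU' : ∀ w i, U.symm w i = w (e i) := fun w i => by
    conv_rhs => rw [← U.apply_symm_apply w, hU, e.symm_apply_apply]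
  let cj : (Amp ι K →L[ℂ] Amp ι K) → (Amp (Fin (Fintype.card ι)) K →L[ℂ]
      Amp (Fin (Fintype.card ι)) K) := fun Z =>
    (U : Amp ι K →L[ℂ] _) ∘L Z ∘L (U.symm : _ →L[ℂ] Amp ι K)
  have hcj : ∀ Z, ‖cj Z‖ = ‖Z‖ := fun Z => by
    simp only [cj]
    exact (ContinuousLinearMap.opNorm_linearIsometryEquiv_comp U _).trans
      (ContinuousLinearMap.opNorm_comp_linearIsometryEquiv Z U.symm)
  have := hC K P Y g hY (Fintype.card ι) Fintype.card_pos (cj (diagOp ι Y)) (cj X)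
    (fun i j => ent X (e.symm i) (e.symm j)) (fun v i => by simp [cj, hU, hU'])
    (fun i j => mem_ampVN.1 hX _ _) (fun v i => by
      conv_lhs => rw [← matOp_ent X]
      simp only [cj, ContinuousLinearMap.comp_apply, ContinuousLinearEquiv.coe_coe,
        LinearIsometryEquiv.coe_toContinuousLinearEquiv, hU, matOp_apply, hU']
      rw [← Equiv.sum_comp e.symm]
      simp)
  have e1 : cj (diagOp ι Y) * cj X - cj X * cj (diagOp ι Y) =
      cj (diagOp ι Y * X - X * diagOp ι Y) := by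
    ext v : 1
    simp [cj]
  rw [e1, hcj, hcj] at this
  exact this.trans (by gcongr; exact le_max_right _ _)

lemma Close.comm_le {M N : VonNeumannAlgebra H} {d : ℝ} (h : Close M N d) {x y : H →L[ℂ] H}
    (hx : x ∈ M) (hy : y ∈ N.commutant) : ‖y * x - x * y‖ ≤ 2 * d * ‖y‖ * ‖x‖ := by
  obtain ⟨x', hx', h1⟩ := h x hx
  have e : y * x - x * y = y * (x - x') - (x - x') * y := by
    rw [mul_sub, sub_mul, vn_comm hx' hy]; abel
  rw [e]
  refine (norm_sub_le _ _).trans ?_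
  have h2 := (norm_mul_le y (x - x')).trans (mul_le_mul_of_nonneg_left h1 (norm_nonneg y))
  have h3 := (norm_mul_le (x - x') y).trans (mul_le_mul_of_nonneg_right h1 (norm_nonneg y))
  linarith

/-- Distance to the commutant (S0165 and Arveson's formula). -/
theorem exists_dist : ∃ C : ℝ, 1 ≤ C ∧
    ∀ (K : Type u) [NormedAddCommGroup K] [InnerProductSpace ℂ K] [CompleteSpace K]
      (P : VonNeumannAlgebra K) (Y : K →L[ℂ] K) (g : ℝ), 0 ≤ g →
      (∀ a ∈ P, ‖Y * a - a * Y‖ ≤ g * ‖a‖) → ∃ T ∈ P.commutant, ‖Y - T‖ ≤ C * g := by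
  obtain ⟨C, hC1, hC⟩ := exists_mat.{u}
  exact ⟨C, hC1, fun K _ _ _ P Y g hg hY =>
    arveson P Y (C * g) (by positivity) fun n X hX => hC K P Y g hg hY _ X hX⟩

/-- Commutants and matrix amplifications of close algebras are close. -/
theorem exists_close : ∃ C : ℝ, 1 ≤ C ∧
    ∀ (K : Type u) [NormedAddCommGroup K] [InnerProductSpace ℂ K] [CompleteSpace K]
      (M N : VonNeumannAlgebra K) (d : ℝ), 0 ≤ d → Close M N d →
      Close N.commutant M.commutant (C * d) ∧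
      ∀ (ι : Type) [Fintype ι] [DecidableEq ι], Close (ampVN ι M) (ampVN ι N) (C * d) := by
  obtain ⟨C, hC1, hC⟩ := exists_mat.{u}
  obtain ⟨D, hD1, hD⟩ := exists_dist.{u}
  refine ⟨2 * C * D, by nlinarith, fun K _ _ _ M N d hd h => ⟨fun y hy => ?_,
    fun ι _ _ X hX => ?_⟩⟩
  · obtain ⟨T, hT, h1⟩ := hD K M y (2 * d * ‖y‖) (by positivity) fun a ha => h.comm_le ha hy
    refine ⟨T, hT, h1.trans ?_⟩
    have : 0 ≤ D * d * ‖y‖ := by positivity
    nlinarith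
  · obtain ⟨T, hT, h1⟩ := hD _ (diagVN ι N.commutant) X (C * (2 * d) * ‖X‖) (by positivity)
      fun a ha => by
        obtain ⟨y, hy, rfl⟩ := mem_diagVN.1 ha
        rcases isEmpty_or_nonempty ι with hι | hι
        · have : X * diagOp ι y - diagOp ι y * X = 0 := by ext w i; exact hι.elim i
          rw [this, norm_zero]
          positivity
        rw [norm_sub_rev]
        refine (hC K M y (2 * d * ‖y‖) (by positivity) (fun a ha => h.comm_le ha hy) ι X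
          hX).trans ?_
        have := norm_le_norm_diagOp (ι := ι) y
        calc C * (2 * d * ‖y‖) * ‖X‖ = C * (2 * d) * ‖X‖ * ‖y‖ := by ring
          _ ≤ _ := by gcongr
    rw [commutant_diagVN, VonNeumannAlgebra.commutant_commutant] at hT
    exact ⟨T, hT, h1.trans (le_of_eq (by ring))⟩

end Crest.Agent.R78.Fin
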