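import Crest.Agent.R78.FinHB

/-!
# Row 78: the test inequality gives a linear lifting.
-/

set_option autoImplicit false
set_option linter.unusedSectionVars false

open scoped InnerProductSpace ComplexStarModule

noncomputable section

namespace Crest.Agent.R78.Fin

open Crest.Agent.R124

universe u

variable {H : Type u} [NormedAddCommGroup H] [InnerProductSpace ℂ H] [CompleteSpace H]

lemma vn_re_mem {M : VonNeumannAlgebra H} {x : H →L[ℂ] H} (hx : x ∈ M) :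
    (ℜ x : H →L[ℂ] H) ∈ M := by
  rw [realPart_apply_coe, ← Complex.coe_smul]
  exact vn_smul_mem M _ (add_mem hx (star_mem hx))

lemma vn_im_mem {M : VonNeumannAlgebra H} {x : H →L[ℂ] H} (hx : x ∈ M) :
    (ℑ x : H →L[ℂ] H) ∈ M := by
  rw [imaginaryPart_apply_coe, ← Complex.coe_smul]
  exact vn_smul_mem M _ (vn_smul_mem M _ (sub_mem hx (star_mem hx)))

theorem exists_lift {C : ℝ} (hC : 0 ≤ C) (h : TestIneq.{u} C) (M N : VonNeumannAlgebra H) (d : ℝ)
    (hd0 : 0 ≤ d) (hd1 : d ≤ 1) (hMN : Close M N d) (hNM : Close N M d) :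
    ∃ L : (H →L[ℂ] H) →ₗ[ℂ] (H →L[ℂ] H), (∀ x ∈ M, L x ∈ N) ∧
      ∀ x ∈ M, ‖L x - x‖ ≤ 2 * C * d * ‖x‖ := by
  classical
  let F := {x : H →L[ℂ] H // x ∈ M ∧ IsSelfAdjoint x ∧ ‖x‖ ≤ 1}
  let 𝓛 : Set (F → (H →L[ℂ] H)) :=
    {l | ∃ (φ : (H →L[ℂ] H) →ₗ[ℂ] ℂ) (y : H →L[ℂ] H), y ∈ N ∧ l = fun u => φ u.1 • y}
  obtain ⟨v, hv, hv'⟩ := ghb 𝓛 (fun u => u.1) (C * d) (by positivity)
    (fun n u z z' hz hz' hl => h H M N d hd0 hd1 hMN hNM (Fin n) (fun j => (u j).1) z z'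
      (fun j => (u j).2) hz hz' fun y hy => by
        refine (Module.forall_dual_apply_eq_zero_iff ℂ _).1 fun φ => ?_
        have := hl (fun u => φ u.1 • y) ⟨φ, y, hy, rfl⟩
        simp only [smul_apply, inner_smul_right] at this
        simpa [mul_comm] using this)
  have hN : ∀ u, v u ∈ N := fun u => vn_mem_of_comm fun a ha => by
    ext z
    refine ext_inner_left ℂ fun z' => ?_
    have := hv' (Fin 2) (fun _ => u) ![z, a z] ![star a z', -z'] (by
      rintro _ ⟨φ, y, hy, rfl⟩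
      simp only [Fin.sum_univ_two, Matrix.cons_val_zero, Matrix.cons_val_one, inner_star_left,
        inner_neg_left]
      rw [← mul_apply_eq_comp, ← vn_comm (vn_smul_mem N _ hy) ha, mul_apply_eq_comp,
        add_neg_cancel])
    simp only [Fin.sum_univ_two, Matrix.cons_val_zero, Matrix.cons_val_one, inner_star_left,
      inner_neg_left] at this
    exact add_neg_eq_zero.1 this
  let A : (F →₀ ℂ) →ₗ[ℂ] (H →L[ℂ] H) := Finsupp.linearCombination ℂ fun u => u.1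
  let B : (F →₀ ℂ) →ₗ[ℂ] (H →L[ℂ] H) := Finsupp.linearCombination ℂ v
  have hAB : ∀ μ, A μ = 0 → B μ = 0 := fun μ hμ => by
    ext z
    refine ext_inner_left ℂ fun z' => ?_
    set e := μ.support.equivFin.symm
    have hsum : ∀ T : F → (H →L[ℂ] H), ∑ j, ⟪z', T (e j).1 (μ (e j).1 • z)⟫_ℂ =
        ⟪z', (Finsupp.linearCombination ℂ T μ) z⟫_ℂ := fun T => by
      rw [Equiv.sum_comp e (fun p => ⟪z', T p.1 (μ p.1 • z)⟫_ℂ),
        Finset.sum_coe_sort μ.support (fun p => ⟪z', T p (μ p • z)⟫_ℂ)]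
      simp [Finsupp.linearCombination_apply, Finsupp.sum]
    have := hv' _ (fun j => (e j).1) (fun j => μ (e j).1 • z) (fun _ => z') (by
      rintro _ ⟨φ, y, hy, rfl⟩
      rw [hsum fun u => φ u.1 • y]
      have h1 : Finsupp.linearCombination ℂ (fun u : F => φ u.1 • y) μ = φ (A μ) • y := by
        simp [A, Finsupp.linearCombination_apply, Finsupp.sum, Finset.sum_smul, smul_smul]
      rw [h1, hμ]
      simp)
    rw [hsum] at this
    simpa using this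
  obtain ⟨g, hg⟩ := A.rangeRestrict.exists_rightInverse_of_surjective A.range_rangeRestrict
  obtain ⟨L, hL⟩ := LinearMap.exists_extend (B ∘ₗ g)
  have hLA : ∀ μ, L (A μ) = B μ := fun μ => by
    have h1 := LinearMap.congr_fun hL ⟨A μ, μ, rfl⟩
    have h2 := congrArg Subtype.val (LinearMap.congr_fun hg ⟨A μ, μ, rfl⟩)
    have h3 := hAB (g ⟨A μ, μ, rfl⟩ - μ) (by rw [map_sub, sub_eq_zero]; exact h2)
    rw [map_sub, sub_eq_zero] at h3
    exact h1.trans h3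
  have hLu : ∀ u : F, L u.1 = v u := fun u => by
    simpa [A, B] using hLA (Finsupp.single u 1)
  have hsa : ∀ x ∈ M, IsSelfAdjoint x → L x ∈ N ∧ ‖L x - x‖ ≤ C * d * ‖x‖ := fun x hx hs => by
    rcases eq_or_ne x 0 with rfl | h0
    · simp [zero_mem]
    have hn : 0 < ‖x‖ := norm_pos_iff.2 h0
    let u : F := ⟨((‖x‖⁻¹ : ℝ) : ℂ) • x, vn_smul_mem M _ hx,
      (show IsSelfAdjoint ((‖x‖⁻¹ : ℝ) : ℂ) by rw [IsSelfAdjoint]; simp).smul hs, by
        rw [norm_smul]; simp [inv_mul_cancel₀ hn.ne']⟩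
    have hx' : x = ((‖x‖ : ℝ) : ℂ) • u.1 := by
      simp only [u, smul_smul]
      rw [← Complex.ofReal_mul, mul_inv_cancel₀ hn.ne']
      simp
    have hLx : L x = ((‖x‖ : ℝ) : ℂ) • v u := by
      conv_lhs => rw [hx', map_smul, hLu]
    refine ⟨hLx ▸ vn_smul_mem N _ (hN u), ?_⟩
    have e : L x - x = ((‖x‖ : ℝ) : ℂ) • (v u - u.1) := by rw [smul_sub, ← hLx, ← hx']
    rw [e, norm_smul, Complex.norm_real, norm_norm, norm_sub_rev, mul_comm]
    gcongr
    exact hv u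
  have hdec : ∀ x : H →L[ℂ] H, x = (ℜ x : H →L[ℂ] H) + Complex.I • (ℑ x : H →L[ℂ] H) :=
    fun x => (realPart_add_I_smul_imaginaryPart x).symm
  refine ⟨L, fun x hx => ?_, fun x hx => ?_⟩
  · rw [hdec x, map_add, map_smul]
    exact add_mem (hsa _ (vn_re_mem hx) (ℜ x).2).1
      (vn_smul_mem N _ (hsa _ (vn_im_mem hx) (ℑ x).2).1)
  · have h1 := (hsa _ (vn_re_mem hx) (ℜ x).2).2
    have h2 := (hsa _ (vn_im_mem hx) (ℑ x).2).2
    have h3 : ‖(ℜ x : H →L[ℂ] H)‖ ≤ ‖x‖ := realPart.norm_le x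
    have h4 : ‖(ℑ x : H →L[ℂ] H)‖ ≤ ‖x‖ := imaginaryPart.norm_le x
    have e : L x - x = (L (ℜ x : H →L[ℂ] H) - (ℜ x : H →L[ℂ] H)) +
        Complex.I • (L (ℑ x : H →L[ℂ] H) - (ℑ x : H →L[ℂ] H)) := by
      conv_lhs => rw [hdec x, map_add, map_smul]
      rw [smul_sub]; abel
    rw [e]
    refine (norm_add_le _ _).trans ?_
    rw [norm_smul, Complex.norm_I, one_mul]
    have h5 : C * d * ‖(ℜ x : H →L[ℂ] H)‖ ≤ C * d * ‖x‖ := by gcongr
    have h6 : C * d * ‖(ℑ x : H →L[ℂ] H)‖ ≤ C * d * ‖x‖ := by gcongr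
    linarith

end Crest.Agent.R78.Fin
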