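import Crest.Agent.R78.FinBasic
import Crest.Agent.R121.HomAlg

/-!
# Row 78: Johnson's iteration (approximately multiplicative maps are close to homomorphisms).
-/

set_option autoImplicit false
set_option linter.unusedSectionVars false

open scoped InnerProductSpace Topology
open Filter

noncomputable section

namespace Crest.Agent.R78.Fin

open Crest.OpAlg

universe u

/-- Approximate 2-cocycles are approximate coboundaries. -/
def Coh (A : Type u) [CStarAlgebra A] (K : ℝ) : Prop :=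
  ∀ (f : A →ₗ[ℂ] A →ₗ[ℂ] A) (s t : ℝ), 0 ≤ s → 0 ≤ t → (∀ x y, ‖f x y‖ ≤ s * (‖x‖ * ‖y‖)) →
    (∀ x y z, ‖x * f y z - f (x * y) z + f x (y * z) - f x y * z‖ ≤ t * (‖x‖ * ‖y‖ * ‖z‖)) →
    ∃ g : A →ₗ[ℂ] A, (∀ x, ‖g x‖ ≤ K * (s + t) * ‖x‖) ∧
      ∀ x y, ‖x * g y - g (x * y) + g x * y - f x y‖ ≤ K * t * (‖x‖ * ‖y‖)

section Coh
variable {A : Type u} [CStarAlgebra A]

/-- A bilinear map as a multilinear map. -/
def ml2 (f : A →ₗ[ℂ] A →ₗ[ℂ] A) : MultilinearMap ℂ (fun _ : Fin 2 => A) A :=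
  MultilinearMap.mk' (fun a => f (a 0) (a 1))
    (fun m i x y => by fin_cases i <;> simp)
    (fun m i c x => by fin_cases i <;> simp)

/-- The differential of a bilinear map as a multilinear map. -/
def ml3 (f : A →ₗ[ℂ] A →ₗ[ℂ] A) : MultilinearMap ℂ (fun _ : Fin 3 => A) A :=
  MultilinearMap.mk' (fun a => a 0 * f (a 1) (a 2) - f (a 0 * a 1) (a 2) + f (a 0) (a 1 * a 2) -
      f (a 0) (a 1) * a 2)
    (fun m i x y => by fin_cases i <;> simp [mul_add, add_mul] <;> abel)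
    (fun m i c x => by fin_cases i <;> simp [smul_add, smul_sub])

lemma diff_two (F : (Fin 2 → A) → A) (a : Fin 3 → A) :
    hochschildDiff F a = a 0 * F ![a 1, a 2] - F ![a 0 * a 1, a 2] + F ![a 0, a 1 * a 2] -
      F ![a 0, a 1] * a 2 := by
  have e1 : (fun i : Fin 2 => a i.succ) = ![a 1, a 2] := by ext i; fin_cases i <;> rfl
  have e2 : (fun i : Fin 2 => a i.castSucc) = ![a 0, a 1] := by ext i; fin_cases i <;> rfl
  have e3 : mergeArgs 0 a = ![a 0 * a 1, a 2] := by ext i; fin_cases i <;> rfl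
  have e4 : mergeArgs 1 a = ![a 0, a 1 * a 2] := by ext i; fin_cases i <;> rfl
  rw [hochschildDiff, Fin.sum_univ_two, e1, e2, e3, e4]
  norm_num
  abel

lemma diff_one (F : (Fin 1 → A) → A) (x y : A) :
    hochschildDiff F ![x, y] = x * F ![y] - F ![x * y] + F ![x] * y := by
  have e1 : (fun i : Fin 1 => ![x, y] i.succ) = ![y] := by ext i; fin_cases i; rfl
  have e2 : (fun i : Fin 1 => ![x, y] i.castSucc) = ![x] := by ext i; fin_cases i; rfl
  have e3 : mergeArgs 0 ![x, y] = ![x * y] := by ext i; fin_cases i; rfl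
  rw [hochschildDiff, Fin.sum_univ_one, e1, e2, e3]
  norm_num
  abel

lemma coh_of {K₁ K₂ : ℝ} (hK₁ : 0 ≤ K₁) (hK₂ : 0 ≤ K₂)
    (h1 : ∀ f : ContinuousMultilinearMap ℂ (fun _ : Fin 2 => A) A,
      (∀ a, hochschildDiff f a = 0) → ∃ g : ContinuousMultilinearMap ℂ (fun _ : Fin 1 => A) A,
        (∀ a, hochschildDiff g a = f a) ∧ ‖g‖ ≤ K₁ * ‖f‖)
    (h2 : ∀ f : ContinuousMultilinearMap ℂ (fun _ : Fin 3 => A) A,
      (∀ a, hochschildDiff f a = 0) → ∃ g : ContinuousMultilinearMap ℂ (fun _ : Fin 2 => A) A,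
        (∀ a, hochschildDiff g a = f a) ∧ ‖g‖ ≤ K₂ * ‖f‖) :
    Coh A ((K₁ + 1) * (K₂ + 1)) := by
  intro f s t hs ht hf hdf
  let F : ContinuousMultilinearMap ℂ (fun _ : Fin 2 => A) A :=
    (ml2 f).mkContinuous s fun m => by simpa [ml2] using hf (m 0) (m 1)
  have hF : ‖F‖ ≤ s := MultilinearMap.mkContinuous_norm_le _ hs _
  have hFa : ∀ x y, F ![x, y] = f x y := fun x y => rfl
  let G : ContinuousMultilinearMap ℂ (fun _ : Fin 3 => A) A :=
    (ml3 f).mkContinuous t fun m => by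
      simpa [ml3, Fin.prod_univ_three] using hdf (m 0) (m 1) (m 2)
  have hG : ‖G‖ ≤ t := MultilinearMap.mkContinuous_norm_le _ ht _
  have hGF : (G : (Fin 3 → A) → A) = hochschildDiff F := by
    ext a
    rw [diff_two]
    rfl
  obtain ⟨h, hh, hhn⟩ := h2 G fun a => by
    rw [hGF, Crest.Agent.R121.HomAlg.diff_diff]; rfl
  obtain ⟨g, hg, hgn⟩ := h1 (F - h) fun a => by
    have : ((F - h : ContinuousMultilinearMap ℂ (fun _ : Fin 2 => A) A) : (Fin 2 → A) → A) =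
      (F : (Fin 2 → A) → A) - h := rfl
    rw [this, Crest.Agent.R121.HomAlg.diff_sub, Pi.sub_apply, hh, hGF, sub_self]
  have hh' : ‖h‖ ≤ K₂ * t := hhn.trans (by gcongr)
  have hg' : ‖g‖ ≤ K₁ * (s + K₂ * t) :=
    hgn.trans (by gcongr; exact (norm_sub_le _ _).trans (add_le_add hF hh'))
  have hga : ∀ x, continuousMultilinearCurryFin1 ℂ A A g x = g ![x] := fun x => by
    rw [continuousMultilinearCurryFin1_apply]
    congr 1
    ext i; fin_cases i; rfl
  refine ⟨(continuousMultilinearCurryFin1 ℂ A A g).toLinearMap, fun x => ?_, fun x y => ?_⟩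
  · refine ((continuousMultilinearCurryFin1 ℂ A A g).le_opNorm x).trans ?_
    rw [LinearIsometryEquiv.norm_map]
    gcongr
    refine hg'.trans ?_
    have := mul_nonneg hK₂ ht
    have := mul_nonneg hK₁ ht
    have := mul_nonneg hK₂ hs
    have := mul_nonneg hK₁ (mul_nonneg hK₂ hs)
    nlinarith
  · simp only [ContinuousLinearMap.coe_coe, hga]
    rw [← diff_one, hg, sub_apply, hFa, sub_sub_cancel_left, norm_neg]
    refine (h.le_opNorm _).trans ?_
    rw [Fin.prod_univ_two, Matrix.cons_val_zero, Matrix.cons_val_one, Matrix.cons_val_zero]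
    gcongr
    refine hh'.trans ?_
    have := mul_nonneg hK₂ ht
    have := mul_nonneg hK₁ ht
    have := mul_nonneg hK₁ (mul_nonneg hK₂ ht)
    nlinarith

end Coh

section Iter
variable {A B' B : Type u} [CStarAlgebra A] [CStarAlgebra B'] [CStarAlgebra B]

lemma norm_mul_sub_le (a b a' b' : B) : ‖a * b - a' * b'‖ ≤ ‖a - a'‖ * ‖b‖ + ‖a'‖ * ‖b - b'‖ := by
  have : a * b - a' * b' = (a - a') * b + a' * (b - b') := by noncomm_ring
  rw [this]
  exact (norm_add_le _ _).trans (add_le_add (norm_mul_le _ _) (norm_mul_le _ _))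

/-- Symmetrisation of a linear map. -/
def sym (h : A →ₗ[ℂ] B') : A →ₗ[ℂ] B' where
  toFun x := (2⁻¹ : ℂ) • (h x + star (h (star x)))
  map_add' x y := by simp only [star_add, map_add, smul_add]; abel
  map_smul' c x := by
    simp only [star_smul, map_smul, star_star, RingHom.id_apply, ← smul_add]
    rw [smul_comm]

lemma sym_apply (h : A →ₗ[ℂ] B') (x : A) : sym h x = (2⁻¹ : ℂ) • (h x + star (h (star x))) := rfl

lemma sym_star (h : A →ₗ[ℂ] B') (x : A) : sym h (star x) = star (sym h x) := by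
  simp [sym_apply, add_comm]

lemma norm_half_le {a b : B} {c : ℝ} (ha : ‖a‖ ≤ c) (hb : ‖b‖ ≤ c) :
    ‖(2⁻¹ : ℂ) • (a + b)‖ ≤ c := by
  rw [norm_smul]
  have := norm_add_le a b
  simp only [norm_inv, Complex.norm_ofNat]
  linarith

/-- The state of the iteration. -/
structure St (α : A →⋆ₐ[ℂ] B) (β : B' →⋆ₐ[ℂ] B) (θ : A →L[ℂ] B') (ρ t : ℝ) : Prop where
  st : ∀ x, θ (star x) = star (θ x)
  near : ∀ x, ‖β (θ x) - α x‖ ≤ ρ * ‖x‖
  mul : ∀ x y, ‖θ x * θ y - θ (x * y)‖ ≤ t * (‖x‖ * ‖y‖)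

variable {α : A →⋆ₐ[ℂ] B} {β : B' →⋆ₐ[ℂ] B} (hα : ∀ x, ‖α x‖ = ‖x‖) (hβ : ∀ y, ‖β y‖ = ‖y‖)
  {φ : A →ₗ[ℂ] B'} {ψ : B' →ₗ[ℂ] A} {r K : ℝ} (hφ : ∀ x, ‖β (φ x) - α x‖ ≤ r * ‖x‖)
  (hψ : ∀ y, ‖α (ψ y) - β y‖ ≤ r * ‖y‖) (hK : 1 ≤ K) (hC : Coh A K)

include hα hβ hφ hψ hK hC in
lemma newton_aux (hr0 : 0 ≤ r) (hr1 : r ≤ 1) {θ : A →L[ℂ] B'} {t : ℝ} (ht : 0 ≤ t)
    (hθ : St α β θ r t) :
    ∃ h : A →ₗ[ℂ] B', (∀ x, ‖h x‖ ≤ 16 * K * t * ‖x‖) ∧
      ∀ x y, ‖θ x * θ y - θ (x * y) - (θ x * h y - h (x * y) + h x * θ y)‖ ≤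
        63 * K * r * t * (‖x‖ * ‖y‖) := by
  let Δ : A →ₗ[ℂ] A →ₗ[ℂ] B' := LinearMap.mk₂ ℂ (fun x y => θ x * θ y - θ (x * y))
    (fun x x' y => by simp only [map_add, add_mul]; abel)
    (fun c x y => by simp only [map_smul, smul_mul_assoc, smul_sub])
    (fun x y y' => by simp only [map_add, mul_add]; abel)
    (fun c x y => by simp only [map_smul, mul_smul_comm, smul_sub])
  have hΔ : ∀ x y, Δ x y = θ x * θ y - θ (x * y) := fun x y => rfl
  have hΔn : ∀ x y, ‖β (Δ x y)‖ ≤ t * (‖x‖ * ‖y‖) := fun x y => by rw [hβ]; exact hθ.mul x y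
  let f : A →ₗ[ℂ] A →ₗ[ℂ] A := Δ.compr₂ ψ
  have hf : ∀ x y, ‖α (f x y) - β (Δ x y)‖ ≤ r * t * (‖x‖ * ‖y‖) := fun x y =>
    (hψ _).trans (by rw [mul_assoc, ← hβ]; gcongr; exact hΔn x y)
  have hfn : ∀ x y, ‖f x y‖ ≤ 2 * t * (‖x‖ * ‖y‖) := fun x y => by
    rw [← hα]
    have h1 := norm_le_norm_add_norm_sub' (α (f x y)) (β (Δ x y))
    have h2 : r * t * (‖x‖ * ‖y‖) ≤ 1 * t * (‖x‖ * ‖y‖) := by gcongr
    linarith [hf x y, hΔn x y]
  obtain ⟨g, hg, hdg⟩ := hC f (2 * t) (6 * r * t) (by positivity) (by positivity) hfn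
    fun x y z => by
      have e : α (x * f y z - f (x * y) z + f x (y * z) - f x y * z) =
          (α x * α (f y z) - β (θ x) * β (Δ y z)) - (α (f (x * y) z) - β (Δ (x * y) z)) +
          (α (f x (y * z)) - β (Δ x (y * z))) - (α (f x y) * α z - β (Δ x y) * β (θ z)) := by
        simp only [hΔ, map_sub, map_add, map_mul, mul_assoc]
        noncomm_ring
      rw [← hα, e]
      have P : 0 ≤ ‖x‖ * ‖y‖ * ‖z‖ := by positivity
      have k1 : ‖α x * α (f y z) - β (θ x) * β (Δ y z)‖ ≤ 2 * r * t * (‖x‖ * ‖y‖ * ‖z‖) := by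
        rw [norm_sub_rev]
        refine (norm_mul_sub_le _ _ _ _).trans ?_
        rw [hα, norm_sub_rev (β (Δ y z))]
        calc _ ≤ r * ‖x‖ * (t * (‖y‖ * ‖z‖)) + ‖x‖ * (r * t * (‖y‖ * ‖z‖)) := by
              gcongr
              exacts [hθ.near x, hΔn y z, hf y z]
          _ = _ := by ring
      have k2 : ‖α (f (x * y) z) - β (Δ (x * y) z)‖ ≤ r * t * (‖x‖ * ‖y‖ * ‖z‖) :=
        (hf _ _).trans (by gcongr; exact norm_mul_le _ _)
      have k3 : ‖α (f x (y * z)) - β (Δ x (y * z))‖ ≤ r * t * (‖x‖ * ‖y‖ * ‖z‖) :=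
        (hf _ _).trans (by rw [mul_assoc ‖x‖]; gcongr; exact norm_mul_le _ _)
      have k4 : ‖α (f x y) * α z - β (Δ x y) * β (θ z)‖ ≤ 2 * r * t * (‖x‖ * ‖y‖ * ‖z‖) := by
        refine (norm_mul_sub_le _ _ _ _).trans ?_
        rw [hα, norm_sub_rev (α z)]
        calc _ ≤ r * t * (‖x‖ * ‖y‖) * ‖z‖ + t * (‖x‖ * ‖y‖) * (r * ‖z‖) := by
              gcongr
              exacts [hf x y, hΔn x y, hθ.near z]
          _ = _ := by ring
      refine (norm_sub_le _ _).trans ?_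
      refine (add_le_add_left (norm_add_le _ _) _).trans ?_
      refine (add_le_add_left (add_le_add_left (norm_sub_le _ _) _) _).trans ?_
      linarith
  have hg' : ∀ x, ‖g x‖ ≤ 8 * K * t * ‖x‖ := fun x => (hg x).trans (by
    have : r * t ≤ t := by nlinarith
    have : K * (2 * t + 6 * r * t) ≤ 8 * K * t := by nlinarith
    gcongr)
  have hh : ∀ x, ‖β (φ (g x)) - α (g x)‖ ≤ 8 * K * r * t * ‖x‖ := fun x =>
    (hφ _).trans ((mul_le_mul_of_nonneg_left (hg' x) hr0).trans (le_of_eq (by ring)))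
  have hhn : ∀ x, ‖β (φ (g x))‖ ≤ 16 * K * t * ‖x‖ := fun x => by
    have h1 := norm_le_norm_add_norm_sub' (β (φ (g x))) (α (g x))
    have h2 : 8 * K * r * t * ‖x‖ ≤ 8 * K * 1 * t * ‖x‖ := by gcongr
    rw [hα] at h1
    linarith [hh x, hg' x]
  refine ⟨φ ∘ₗ g, fun x => by rw [← hβ]; exact hhn x, fun x y => ?_⟩
  have e : β (θ x * θ y - θ (x * y) - (θ x * φ (g y) - φ (g (x * y)) + φ (g x) * θ y)) =
      -(α (f x y) - β (Δ x y)) - α (x * g y - g (x * y) + g x * y - f x y) -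
        (β (θ x) * β (φ (g y)) - α x * α (g y)) + (β (φ (g (x * y))) - α (g (x * y))) -
        (β (φ (g x)) * β (θ y) - α (g x) * α y) := by
    simp only [hΔ, map_sub, map_add, map_mul]
    abel
  simp only [LinearMap.comp_apply]
  rw [← hβ, e]
  have P : 0 ≤ K * r * t * (‖x‖ * ‖y‖) := by positivity
  have k1 : ‖-(α (f x y) - β (Δ x y))‖ ≤ K * r * t * (‖x‖ * ‖y‖) := by
    rw [norm_neg]
    refine (hf x y).trans ?_
    have : 0 ≤ r * t * (‖x‖ * ‖y‖) := by positivity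
    nlinarith
  have k2 : ‖α (x * g y - g (x * y) + g x * y - f x y)‖ ≤ 6 * (K * r * t * (‖x‖ * ‖y‖)) := by
    rw [hα]; exact (hdg x y).trans (le_of_eq (by ring))
  have k3 : ‖β (θ x) * β (φ (g y)) - α x * α (g y)‖ ≤ 24 * (K * r * t * (‖x‖ * ‖y‖)) := by
    refine (norm_mul_sub_le _ _ _ _).trans ?_
    rw [hα]
    calc _ ≤ r * ‖x‖ * (16 * K * t * ‖y‖) + ‖x‖ * (8 * K * r * t * ‖y‖) := by
          gcongr
          exacts [hθ.near x, hhn y, hh y]
      _ = _ := by ring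
  have k4 : ‖β (φ (g (x * y))) - α (g (x * y))‖ ≤ 8 * (K * r * t * (‖x‖ * ‖y‖)) :=
    (hh _).trans ((mul_le_mul_of_nonneg_left (norm_mul_le x y) (by positivity)).trans
      (le_of_eq (by ring)))
  have k5 : ‖β (φ (g x)) * β (θ y) - α (g x) * α y‖ ≤ 24 * (K * r * t * (‖x‖ * ‖y‖)) := by
    rw [norm_sub_rev]
    refine (norm_mul_sub_le _ _ _ _).trans ?_
    rw [hα, norm_sub_rev (α (g x)), norm_sub_rev (α y)]
    calc _ ≤ 8 * K * r * t * ‖x‖ * ‖y‖ + 16 * K * t * ‖x‖ * (r * ‖y‖) := by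
          gcongr
          exacts [hh x, hhn x, hθ.near y]
      _ = _ := by ring
  refine (norm_sub_le _ _).trans ?_
  refine (add_le_add_left (norm_add_le _ _) _).trans ?_
  refine (add_le_add_left (add_le_add_left (norm_sub_le _ _) _) _).trans ?_
  refine (add_le_add_left (add_le_add_left (add_le_add_left (norm_sub_le _ _) _) _) _).trans ?_
  linarith

include hα hβ hφ hψ hK hC in
lemma newton_step (hr0 : 0 ≤ r) (hr : 252 * K * r ≤ 1) {θ : A →L[ℂ] B'} {ρ t : ℝ} (ht : 0 ≤ t)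
    (ht1 : 1024 * K ^ 2 * t ≤ 1) (hρ : ρ ≤ r) (hθ : St α β θ ρ t) :
    ∃ θ' : A →L[ℂ] B', St α β θ' (ρ + 16 * K * t) (t / 2) ∧ ‖θ - θ'‖ ≤ 16 * K * t := by
  obtain ⟨h, hh, hD⟩ := newton_aux hα hβ hφ hψ hK hC hr0 (by nlinarith) ht
    ⟨hθ.st, fun x => (hθ.near x).trans (by gcongr), hθ.mul⟩
  have hs : ∀ x, ‖sym h x‖ ≤ 16 * K * t * ‖x‖ := fun x =>
    norm_half_le (hh x) (by rw [norm_star]; simpa using hh (star x))
  let k : A →L[ℂ] B' := (sym h).mkContinuous _ hs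
  have hk : ∀ x, k x = sym h x := fun x => rfl
  refine ⟨θ - k, ⟨fun x => ?_, fun x => ?_, fun x y => ?_⟩, ?_⟩
  · simp only [sub_apply, hk, sym_star, hθ.st, star_sub]
  · rw [sub_apply, map_sub, sub_right_comm, add_mul]
    exact (norm_sub_le _ _).trans (add_le_add (hθ.near x) (by rw [hβ]; exact hs x))
  · have e : (θ - k) x * (θ - k) y - (θ - k) (x * y) =
        (2⁻¹ : ℂ) • ((θ x * θ y - θ (x * y) - (θ x * h y - h (x * y) + h x * θ y)) +
          star (θ (star y) * θ (star x) - θ (star y * star x) - (θ (star y) * h (star x) -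
            h (star y * star x) + h (star y) * θ (star x)))) + k x * k y := by
      have e1 : (θ - k) x * (θ - k) y - (θ - k) (x * y) =
          θ x * θ y - θ (x * y) - (θ x * k y - k (x * y) + k x * θ y) + k x * k y := by
        simp only [sub_apply]; noncomm_ring
      rw [e1, ← star_mul, hθ.st, hθ.st, hθ.st]
      congr 1
      simp only [hk, sym_apply, star_sub, star_add, star_mul, star_star, mul_smul_comm,
        smul_mul_assoc, mul_add, add_mul]
      module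
    rw [e]
    have k1 := norm_half_le (hD x y) (b := star (θ (star y) * θ (star x) - θ (star y * star x) -
      (θ (star y) * h (star x) - h (star y * star x) + h (star y) * θ (star x)))) (by
        rw [norm_star]
        simpa only [norm_star, mul_comm ‖y‖] using hD (star y) (star x))
    have k2 : ‖k x * k y‖ ≤ 16 * K * t * ‖x‖ * (16 * K * t * ‖y‖) :=
      (norm_mul_le _ _).trans (by gcongr; exacts [hs x, hs y])
    refine (norm_add_le _ _).trans ?_
    have P : 0 ≤ t * (‖x‖ * ‖y‖) := by positivity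
    have k3 := mul_le_mul_of_nonneg_right hr P
    have k4 := mul_le_mul_of_nonneg_right ht1 P
    nlinarith
  · rw [sub_sub_cancel]
    exact LinearMap.mkContinuous_norm_le _ (by positivity) _

include hα hβ hK hC in
/-- Johnson's iteration. -/
theorem newton {κ : ℝ} (hκ0 : 0 ≤ κ) (hκ : 40000 * K ^ 2 * κ ≤ 1)
    (hφ : ∀ x, ‖β (φ x) - α x‖ ≤ κ * ‖x‖) (hψ : ∀ y, ‖α (ψ y) - β y‖ ≤ κ * ‖y‖) :
    ∃ θ : A →L[ℂ] B', St α β θ (129 * K * κ) 0 := by
  have hK2 : 1 ≤ K ^ 2 := one_le_pow₀ hK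
  have hκ1 : κ ≤ 1 := by nlinarith
  have hκr : κ ≤ 129 * K * κ := by nlinarith
  have hφ' : ∀ x, ‖β (φ x) - α x‖ ≤ 129 * K * κ * ‖x‖ := fun x => (hφ x).trans (by gcongr)
  have hψ' : ∀ y, ‖α (ψ y) - β y‖ ≤ 129 * K * κ * ‖y‖ := fun y => (hψ y).trans (by gcongr)
  have hs0 : ∀ x, ‖β (sym φ x) - α x‖ ≤ κ * ‖x‖ := fun x => by
    have e : β (sym φ x) - α x =
        (2⁻¹ : ℂ) • ((β (φ x) - α x) + star (β (φ (star x)) - α (star x))) := by
      simp only [sym_apply, map_smul, map_add, map_star, star_sub, star_star]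
      module
    rw [e]
    exact norm_half_le (hφ x) (by rw [norm_star]; simpa only [norm_star] using hφ (star x))
  have hs1 : ∀ x, ‖sym φ x‖ ≤ 2 * ‖x‖ := fun x => by
    rw [← hβ]
    have h1 := norm_le_norm_add_norm_sub' (β (sym φ x)) (α x)
    have h2 : κ * ‖x‖ ≤ 1 * ‖x‖ := by gcongr
    rw [hα] at h1
    linarith [hs0 x]
  let θ₀ : A →L[ℂ] B' := (sym φ).mkContinuous 2 hs1
  have h0 : St α β θ₀ κ (4 * κ) := ⟨sym_star φ, hs0, fun x y => by
    change ‖sym φ x * sym φ y - sym φ (x * y)‖ ≤ _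
    have e : β (sym φ x * sym φ y - sym φ (x * y)) =
        (β (sym φ x) * β (sym φ y) - α x * α y) - (β (sym φ (x * y)) - α (x * y)) := by
      simp only [map_sub, map_mul]; abel
    rw [← hβ, e]
    have k1 : ‖β (sym φ x) * β (sym φ y) - α x * α y‖ ≤
        κ * ‖x‖ * (2 * ‖y‖) + ‖x‖ * (κ * ‖y‖) := by
      refine (norm_mul_sub_le _ _ _ _).trans ?_
      rw [hα, hβ]
      gcongr
      exacts [hs0 x, hs1 y, hs0 y]
    have k2 : ‖β (sym φ (x * y)) - α (x * y)‖ ≤ κ * (‖x‖ * ‖y‖) :=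
      (hs0 _).trans (by gcongr; exact norm_mul_le _ _)
    refine (norm_sub_le _ _).trans ?_
    nlinarith⟩
  have step : ∀ (n : ℕ) (θ : A →L[ℂ] B'),
      St α β θ (κ + 128 * K * κ * (1 - (1 / 2) ^ n)) (4 * κ * (1 / 2) ^ n) →
      ∃ θ' : A →L[ℂ] B',
        St α β θ' (κ + 128 * K * κ * (1 - (1 / 2) ^ (n + 1))) (4 * κ * (1 / 2) ^ (n + 1)) ∧
        ‖θ - θ'‖ ≤ 64 * K * κ * (1 / 2) ^ n := fun n θ hθ => by
    have hp0 : (0 : ℝ) ≤ (1 / 2) ^ n := by positivity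
    have hp1 : (1 / 2 : ℝ) ^ n ≤ 1 := pow_le_one₀ (by norm_num) (by norm_num)
    have hKκ : 0 ≤ K * κ := by positivity
    obtain ⟨θ', h1, h2⟩ := newton_step hα hβ hφ' hψ' hK hC (by positivity) (by nlinarith)
      (by positivity) (by
        have : K ^ 2 * κ * (1 / 2) ^ n ≤ K ^ 2 * κ * 1 := by gcongr
        nlinarith) (by nlinarith [mul_nonneg hKκ hp0]) hθ
    refine ⟨θ', ?_, h2.trans (le_of_eq (by ring))⟩
    convert h1 using 1 <;> ring
  choose! nx hnx using step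
  let θ : ℕ → (A →L[ℂ] B') := fun n => Nat.rec θ₀ (fun n θ => nx n θ) n
  have hθ : ∀ n, St α β (θ n) (κ + 128 * K * κ * (1 - (1 / 2) ^ n)) (4 * κ * (1 / 2) ^ n) := by
    intro n
    induction n with
    | zero =>
      simp only [pow_zero, sub_self, mul_zero, add_zero, mul_one]
      exact h0
    | succ n ih => exact (hnx n _ ih).1
  have hc : CauchySeq θ := cauchySeq_of_le_geometric (1 / 2) (64 * K * κ) (by norm_num) fun n => by
    rw [dist_eq_norm]; exact (hnx n _ (hθ n)).2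
  obtain ⟨T, hT⟩ := cauchySeq_tendsto_of_complete hc
  have hTx : ∀ x, Tendsto (fun n => θ n x) atTop (𝓝 (T x)) := fun x =>
    ((ContinuousLinearMap.apply ℂ B' x).continuous.tendsto T).comp hT
  have hβc : Continuous β := (AddMonoidHomClass.isometry_of_norm β hβ).continuous
  refine ⟨T, fun x => ?_, fun x => ?_, fun x y => ?_⟩
  · exact tendsto_nhds_unique (hTx (star x)) (by simpa only [(hθ _).st] using (hTx x).star)
  · refine le_of_tendsto' (((hβc.tendsto _).comp (hTx x)).sub_const (α x)).norm fun n => ?_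
    refine ((hθ n).near x).trans ?_
    have hp0 : (0 : ℝ) ≤ (1 / 2) ^ n := by positivity
    have hKκ : 0 ≤ K * κ := by positivity
    gcongr
    nlinarith [mul_nonneg hKκ hp0]
  · have h1 : Tendsto (fun n : ℕ => 4 * κ * (1 / 2 : ℝ) ^ n * (‖x‖ * ‖y‖)) atTop
        (𝓝 (4 * κ * 0 * (‖x‖ * ‖y‖))) :=
      ((tendsto_pow_atTop_nhds_zero_of_lt_one (by norm_num) (by norm_num)).const_mul _).mul_const _
    have := le_of_tendsto_of_tendsto' (((hTx x).mul (hTx y)).sub (hTx (x * y))).norm h1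
      fun n => (hθ n).mul x y
    simpa using this

end Iter

end Crest.Agent.R78.Fin
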