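import Crest.Agent.R78.FinLift
import Crest.Agent.R78.FinNewton
import Crest.Agent.R121.Unif

/-!
# Row 78: spatial implementation and the assembly of S0103 from the test inequality.
-/

set_option autoImplicit false
set_option linter.unusedSectionVars false

open scoped InnerProductSpace

noncomputable section

namespace Crest.Agent.R78.Fin

open Crest.Agent.R124

universe u

variable {H : Type u} [NormedAddCommGroup H] [InnerProductSpace ℂ H] [CompleteSpace H]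

/-- The unitary part of an operator close to `1`. -/
lemma polar_near (T : H →L[ℂ] H) {κ : ℝ} (hκ : κ ≤ 1 / 4) (hT : ‖T - 1‖ ≤ κ) :
    ∃ w ∈ unitary (H →L[ℂ] H), ‖w - 1‖ ≤ 4 * κ ∧
      ∀ a b : H →L[ℂ] H, T * a = b * T → T * star a = star b * T → w * a = b * w := by
  have hκ0 : 0 ≤ κ := (norm_nonneg _).trans hT
  have h1 : ‖(1 : H →L[ℂ] H)‖ ≤ 1 := ContinuousLinearMap.norm_id_le
  have hTn : ‖T‖ ≤ 5 / 4 := by
    have := norm_le_norm_add_norm_sub' T 1
    linarith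
  set h := star T * T with hh
  have hsa : IsSelfAdjoint h := IsSelfAdjoint.star_mul_self T
  have hh1 : ‖h - 1‖ ≤ 9 / 4 * κ := by
    have e : h - 1 = star (T - 1) * T + (T - 1) := by
      rw [hh, star_sub, star_one]; noncomm_ring
    rw [e]
    have := (norm_mul_le (star (T - 1)) T).trans
      (mul_le_mul (by rwa [norm_star]) hTn (norm_nonneg _) hκ0)
    linarith [norm_add_le (star (T - 1) * T) (T - 1)]
  have hsp : ∀ t ∈ spectrum ℝ h, |t - 1| ≤ 9 / 4 * κ := fun t ht => by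
    rcases subsingleton_or_nontrivial (H →L[ℂ] H) with hB | hB
    · simp [spectrum.of_subsingleton] at ht
    · have : t - 1 ∈ spectrum ℝ (h - 1) := by
        have := spectrum.sub_singleton_eq h (1 : ℝ)
        rw [map_one] at this
        rw [← this]
        exact Set.sub_mem_sub ht rfl
      exact (spectrum.norm_le_norm_of_mem this).trans hh1
  have hpos : ∀ t ∈ spectrum ℝ h, 7 / 16 ≤ t := fun t ht => by
    have := (abs_le.1 (hsp t ht)).1
    linarith
  have hc : ContinuousOn (fun t : ℝ => (√t)⁻¹) (spectrum ℝ h) :=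
    Real.continuous_sqrt.continuousOn.inv₀ fun t ht =>
      (Real.sqrt_pos.2 (by linarith [hpos t ht])).ne'
  set s := cfc (fun t : ℝ => (√t)⁻¹) h with hs
  have hss : IsSelfAdjoint s := cfc_predicate _ _
  have hshs : s * h * s = 1 := by
    conv_lhs => rw [hs]; enter [1, 2]; rw [← cfc_id' ℝ h]
    rw [← cfc_mul _ _ h hc, ← cfc_mul (fun x : ℝ => (√x)⁻¹ * x) _ h (hc.mul continuousOn_id) hc,
      ← cfc_const_one ℝ h]
    refine cfc_congr fun t ht => ?_
    have h0 : 0 < t := by linarith [hpos t ht]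
    have := Real.mul_self_sqrt h0.le
    have h2 := (Real.sqrt_pos.2 h0).ne'
    field_simp
    linarith
  have hs1 : ‖s - 1‖ ≤ 9 / 4 * κ := by
    rw [hs, ← cfc_const_one ℝ h, ← cfc_sub _ _ h hc]
    refine norm_cfc_le (by positivity) fun t ht => ?_
    refine le_trans ?_ (hsp t ht)
    have h0 : 0 < t := by linarith [hpos t ht]
    have h2 := Real.mul_self_sqrt h0.le
    have h3 : 5 / 8 ≤ √t := Real.le_sqrt_of_sq_le (by linarith [hpos t ht])
    have e : t - 1 = -((√t)⁻¹ - 1) * (√t * (1 + √t)) := by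
      field_simp
      nlinarith
    rw [Real.norm_eq_abs, e, abs_mul, abs_neg, abs_of_pos (a := √t * (1 + √t)) (by positivity)]
    exact le_mul_of_one_le_right (abs_nonneg _) (by nlinarith)
  have hTu : IsUnit T := by
    have := (Units.oneSub (1 - T) (by rw [norm_sub_rev]; linarith)).isUnit
    simpa using this
  have hl : star (T * s) * (T * s) = 1 := by
    rw [star_mul, hss.star_eq, ← hshs, hh]; noncomm_ring
  have hsu : IsUnit s := by
    have := (Units.oneSub (1 - s) (by rw [norm_sub_rev]; linarith)).isUnit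
    simpa using this
  refine ⟨T * s, Unitary.mem_iff.2 ⟨hl, ?_⟩, ?_, fun a b h1 h2 => ?_⟩
  · obtain ⟨v, hv⟩ := hTu.mul hsu
    rw [← hv] at hl ⊢
    rw [Units.eq_inv_of_mul_eq_one_right hl, Units.mul_inv]
  · have e : T * s - 1 = T * (s - 1) + (T - 1) := by noncomm_ring
    rw [e]
    have := (norm_mul_le T (s - 1)).trans (mul_le_mul hTn hs1 (norm_nonneg _) (by norm_num))
    linarith [norm_add_le (T * (s - 1)) (T - 1)]
  · have h3 : a * star T = star T * b := by simpa using congrArg star h2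
    have h4 : Commute h a := by
      rw [Commute, SemiconjBy, hh, mul_assoc, h1, ← mul_assoc, ← h3, mul_assoc]
    rw [mul_assoc, (h4.cfc_real _).eq, ← mul_assoc, h1, mul_assoc]

/-- A `⋆`-homomorphism close to another one is unitarily equivalent to it. -/
theorem exists_impl : ∃ C : ℝ, 1 ≤ C ∧
    ∀ (H : Type u) [NormedAddCommGroup H] [InnerProductSpace ℂ H] [CompleteSpace H]
      (A : Type u) [CStarAlgebra A] (α θ : A →⋆ₐ[ℂ] (H →L[ℂ] H)) (γ : ℝ), 0 ≤ γ → C * γ ≤ 1 →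
      (∀ x, ‖θ x - α x‖ ≤ γ * ‖x‖) →
      ∃ w ∈ unitary (H →L[ℂ] H), ‖w - 1‖ ≤ C * γ ∧ ∀ x, w * α x = θ x * w := by
  obtain ⟨D, hD1, hD⟩ := exists_dist.{u}
  refine ⟨8 * D, by linarith, fun H _ _ _ A _ α θ γ hγ hγ1 hθ => ?_⟩
  let δ : A →⋆ₐ[ℂ] Matrix (Fin 2) (Fin 2) (H →L[ℂ] H) :=
    { toFun := fun x => Matrix.diagonal ![α x, θ x]
      map_one' := by ext i j : 2; fin_cases i <;> fin_cases j <;> simp
      map_mul' := fun x y => by
        rw [Matrix.diagonal_mul_diagonal]; congr 1; ext i : 1; fin_cases i <;> simp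
      map_zero' := by ext i j : 2; fin_cases i <;> fin_cases j <;> simp
      map_add' := fun x y => by
        rw [Matrix.diagonal_add]; congr 1; ext i : 1; fin_cases i <;> simp
      commutes' := fun c => by
        refine Matrix.ext fun i j => ?_
        fin_cases i <;> fin_cases j <;> simp [Algebra.algebraMap_eq_smul_one]
      map_star' := fun x => by
        refine Matrix.ext fun i j => ?_
        fin_cases i <;> fin_cases j <;> simp [map_star] }
  let ρ := (matHom H (Fin 2)).comp δ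
  have hρ : ∀ x, ρ x = matOp (Matrix.diagonal ![α x, θ x]) := fun x => rfl
  obtain ⟨P, hP, hP'⟩ := kap A _ ρ (matOp (Matrix.single 1 0 1)) γ hγ fun a => by
    have e : matOp (Matrix.single (1 : Fin 2) (0 : Fin 2) (1 : H →L[ℂ] H)) * ρ a -
        ρ a * matOp (Matrix.single 1 0 1) = matOp (Matrix.single 1 0 (α a - θ a)) := by
      rw [hρ, ← matOp_mul, ← matOp_mul, ← matOp_sub]
      congr 1
      refine Matrix.ext fun i j => ?_
      fin_cases i <;> fin_cases j <;> simp [Matrix.mul_diagonal]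
    rw [e]
    exact (norm_matOp_single_le _ _ _).trans (by rw [norm_sub_rev]; exact hθ a)
  obtain ⟨T, hT, hT1⟩ := hD _ P _ (2 * γ) (by positivity) hP'
  have h1 : ‖ent T 1 0 - 1‖ ≤ D * (2 * γ) := by
    have := (norm_ent_le (matOp (Matrix.single 1 0 1) - T) 1 0).trans hT1
    rw [ent_sub, ent_matOp] at this
    rw [norm_sub_rev]
    simpa using this
  have h2 : ∀ x, ent T 1 0 * α x = θ x * ent T 1 0 := fun x => by
    have := congrArg ent (vn_comm (hP x) hT)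
    rw [ent_mul, ent_mul, hρ, ent_matOp] at this
    simpa [Matrix.mul_diagonal, Matrix.diagonal_mul] using (congrFun (congrFun this 1) 0).symm
  obtain ⟨w, hw, hw1, hw2⟩ := polar_near (ent T 1 0) (by linarith) h1
  exact ⟨w, hw, hw1.trans (le_of_eq (by ring)), fun x => hw2 _ _ (h2 x)
    (by rw [← map_star, ← map_star]; exact h2 _)⟩

lemma close_of_ball {M N : VonNeumannAlgebra H} {δ : ℝ}
    (h : ∀ x ∈ M, ‖x‖ ≤ 1 → ∃ y ∈ N, ‖y‖ ≤ 1 ∧ ‖x - y‖ < δ) : Close M N δ := by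
  intro x hx
  rcases eq_or_ne x 0 with rfl | h0
  · exact ⟨0, zero_mem _, by simp⟩
  have hn : 0 < ‖x‖ := norm_pos_iff.2 h0
  obtain ⟨y, hy, -, h1⟩ := h (((‖x‖⁻¹ : ℝ) : ℂ) • x) (vn_smul_mem M _ hx) (by
    rw [norm_smul]; simp [inv_mul_cancel₀ hn.ne'])
  refine ⟨((‖x‖ : ℝ) : ℂ) • y, vn_smul_mem N _ hy, ?_⟩
  have e : x - ((‖x‖ : ℝ) : ℂ) • y = ((‖x‖ : ℝ) : ℂ) • (((‖x‖⁻¹ : ℝ) : ℂ) • x - y) := by
    rw [smul_sub, smul_smul, ← Complex.ofReal_mul, mul_inv_cancel₀ hn.ne']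
    simp
  rw [e, norm_smul, Complex.norm_real, norm_norm, mul_comm]
  gcongr

lemma TestIneq.mono {C C' : ℝ} (h : TestIneq.{u} C) (hC : C ≤ C') : TestIneq.{u} C' :=
  fun H _ _ _ M N d h0 h1 h2 h3 J _ x z z' h4 h5 h6 h7 =>
    (h H M N d h0 h1 h2 h3 J x z z' h4 h5 h6 h7).trans (by gcongr)

open Crest.Agent.R121 (Alg) in
/-- S0103 from the test inequality. -/
theorem s0103_of {C₀ : ℝ} (h₀ : TestIneq.{u} C₀) (ε : ℝ) (hε : 0 < ε) :
    ∃ δ : ℝ, 0 < δ ∧
      ∀ (H : Type u) [NormedAddCommGroup H] [InnerProductSpace ℂ H] [CompleteSpace H]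
        (M N : VonNeumannAlgebra H),
        (∀ x ∈ M, ‖x‖ ≤ 1 → ∃ y ∈ N, ‖y‖ ≤ 1 ∧ ‖x - y‖ < δ) →
        (∀ y ∈ N, ‖y‖ ≤ 1 → ∃ x ∈ M, ‖x‖ ≤ 1 ∧ ‖y - x‖ < δ) →
        ∃ u : H →L[ℂ] H, u ∈ unitary (H →L[ℂ] H) ∧ ‖u - 1‖ < ε ∧
          ∀ y : H →L[ℂ] H, y ∈ N ↔ ∃ x ∈ M, y = u * x * star u := by
  set C := max 1 C₀ with hC
  have hC1 : 1 ≤ C := le_max_left _ _
  have h : TestIneq.{u} C := h₀.mono (le_max_right _ _)
  obtain ⟨K₁, hK₁, h1⟩ := Crest.Agent.R121.unif_coh.{u} 1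
  obtain ⟨K₂, hK₂, h2⟩ := Crest.Agent.R121.unif_coh.{u} 2
  obtain ⟨D, hD1, hD⟩ := exists_impl.{u}
  set K := (K₁ + 1) * (K₂ + 1) with hK
  have hK1 : 1 ≤ K := by nlinarith
  set E := 80000 * K ^ 2 * C * D with hE
  have hK2 : K ≤ K ^ 2 := by nlinarith
  have hKC : 1 ≤ K * C := by nlinarith
  have hE1 : 80000 * K ^ 2 * C ≤ E := le_mul_of_one_le_right (by positivity) hD1
  have hE2 : 258 * K * C * D ≤ E / 8 := by
    have : K * (C * D) ≤ K ^ 2 * (C * D) := by gcongr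
    have : 0 ≤ K ^ 2 * (C * D) := by positivity
    nlinarith
  have hE3 : 258 * K * C ≤ 258 * K * C * D := le_mul_of_one_le_right (by positivity) hD1
  have hE0 : 0 < E := by positivity
  set δ := min 1 ε / E with hδ
  have hm0 : 0 < min 1 ε := lt_min one_pos hε
  have hδ0 : 0 < δ := by positivity
  have hδE : E * δ = min 1 ε := by rw [hδ]; field_simp
  have hm1 := min_le_left 1 ε
  have hm2 := min_le_right 1 ε
  have hγ : D * (129 * K * (2 * C * δ)) ≤ min 1 ε / 8 := by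
    rw [← hδE]; nlinarith
  have hγ' : 129 * K * (2 * C * δ) ≤ 1 / 8 := by nlinarith
  have hδ1 : δ ≤ 1 / 8 := by nlinarith
  refine ⟨δ, hδ0, fun H _ _ _ M N hMN hNM => ?_⟩
  have cMN := close_of_ball hMN
  have cNM := close_of_ball hNM
  obtain ⟨L, hL, hL'⟩ := exists_lift (by linarith) h M N δ hδ0.le (by linarith) cMN cNM
  obtain ⟨L', hK', hK''⟩ := exists_lift (by linarith) h N M δ hδ0.le (by linarith) cNM cMN
  let φ : Alg M →ₗ[ℂ] Alg N := LinearMap.codRestrict N.toStarSubalgebra.toSubalgebra.toSubmodule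
    (L ∘ₗ M.toStarSubalgebra.toSubalgebra.toSubmodule.subtype) fun x => hL _ x.2
  let ψ : Alg N →ₗ[ℂ] Alg M := LinearMap.codRestrict M.toStarSubalgebra.toSubalgebra.toSubmodule
    (L' ∘ₗ N.toStarSubalgebra.toSubalgebra.toSubmodule.subtype) fun x => hK' _ x.2
  obtain ⟨θ, hθ⟩ := newton (α := M.toStarSubalgebra.subtype) (β := N.toStarSubalgebra.subtype)
    (φ := φ) (ψ := ψ) (fun _ => rfl) (fun _ => rfl) hK1
    (coh_of hK₁.le hK₂.le (h1 H M) (h2 H M)) (κ := 2 * C * δ) (by positivity) (by nlinarith)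
    (fun x => hL' _ x.2) (fun y => hK'' _ y.2)
  have hmul : ∀ x y, θ (x * y) = θ x * θ y := fun x y => by
    have := hθ.mul x y
    rw [zero_mul, norm_le_zero_iff, sub_eq_zero] at this
    exact this.symm
  have hnear : ∀ x : Alg M, ‖(θ x : H →L[ℂ] H) - x‖ ≤ 129 * K * (2 * C * δ) * ‖x‖ := hθ.near
  have hone : (θ 1 : H →L[ℂ] H) = 1 := by
    have h3 : ‖(1 : Alg M)‖ ≤ 1 := ContinuousLinearMap.norm_id_le
    have h4 : ‖1 - (θ 1 : H →L[ℂ] H)‖ < 1 := by
      rw [norm_sub_rev]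
      refine (hnear 1).trans_lt ?_
      have : 129 * K * (2 * C * δ) * ‖(1 : Alg M)‖ ≤ 1 / 8 * 1 := by gcongr
      linarith
    have h5 : IsUnit (θ 1 : H →L[ℂ] H) := by simpa using (Units.oneSub _ h4).isUnit
    have h6 : (θ 1 : H →L[ℂ] H) * θ 1 = θ 1 * 1 := by
      rw [mul_one, ← MulMemClass.coe_mul, ← hmul, mul_one]
    exact h5.mul_left_cancel h6
  let θ' : Alg M →⋆ₐ[ℂ] (H →L[ℂ] H) :=
    { toFun := fun x => θ x
      map_one' := hone
      map_mul' := fun x y => by rw [hmul]; rfl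
      map_zero' := by simp
      map_add' := fun x y => by simp
      commutes' := fun c => by
        rw [Algebra.algebraMap_eq_smul_one, Algebra.algebraMap_eq_smul_one, map_smul, ← hone]; rfl
      map_star' := fun x => by rw [hθ.st]; rfl }
  obtain ⟨w, hw, hw1, hw2⟩ := hD H (Alg M) M.toStarSubalgebra.subtype θ' _ (by positivity)
    (by linarith) hnear
  have hw3 : ∀ x : Alg M, (θ x : H →L[ℂ] H) = w * x * star w := fun x => by
    have := hw2 x
    change w * x = θ x * w at this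
    rw [this, mul_assoc, (Unitary.mem_iff.1 hw).2, mul_one]
  have hiso : Isometry θ := AddMonoidHomClass.isometry_of_norm θ fun x => by
    change ‖(θ x : H →L[ℂ] H)‖ = ‖(x : H →L[ℂ] H)‖
    rw [hw3, CStarRing.norm_mul_mem_unitary _ (Unitary.star_mem hw),
      CStarRing.norm_mem_unitary_mul _ hw]
  have hsurj : ∀ y : Alg N, y ∈ LinearMap.range θ.toLinearMap := by
    by_contra hn
    push Not at hn
    obtain ⟨y, hy, hy'⟩ := riesz_lemma (𝕜 := ℂ) (F := LinearMap.range θ.toLinearMap)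
      hiso.isClosedEmbedding.isClosed_range hn (r := 1 / 2) (by norm_num)
    have hy0 : 0 < ‖y‖ := norm_pos_iff.2 (by rintro rfl; exact hy (zero_mem _))
    obtain ⟨x, hx, h3⟩ := cNM y y.2
    have h4 := hy' (θ ⟨x, hx⟩) ⟨_, rfl⟩
    have h5 := hnear ⟨x, hx⟩
    change ‖(θ ⟨x, hx⟩ : H →L[ℂ] H) - x‖ ≤ _ * ‖x‖ at h5
    change 1 / 2 * ‖(y : H →L[ℂ] H)‖ ≤ ‖(y : H →L[ℂ] H) - θ ⟨x, hx⟩‖ at h4
    change 0 < ‖(y : H →L[ℂ] H)‖ at hy0
    have h6 : δ * ‖(y : H →L[ℂ] H)‖ ≤ 1 / 8 * ‖(y : H →L[ℂ] H)‖ := by gcongr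
    have h7 : 129 * K * (2 * C * δ) * ‖x‖ ≤ 1 / 8 * ‖x‖ := by gcongr
    have h8 := norm_sub_le_norm_sub_add_norm_sub (y : H →L[ℂ] H) x (θ ⟨x, hx⟩)
    have h9 := norm_le_norm_add_norm_sub (y : H →L[ℂ] H) x
    rw [norm_sub_rev x] at h8
    linarith
  refine ⟨w, hw, hw1.trans_lt (by linarith), fun y => ⟨fun hy => ?_, ?_⟩⟩
  · obtain ⟨x, hx⟩ := hsurj ⟨y, hy⟩
    exact ⟨x, x.2, by rw [← hw3]; exact (congrArg Subtype.val hx).symm⟩
  · rintro ⟨x, hx, rfl⟩
    rw [← hw3 ⟨x, hx⟩]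
    exact (θ ⟨x, hx⟩).2

end Crest.Agent.R78.Fin
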