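import Crest.Agent.R78.RvD

/-!
# Row 78: the test inequality from the test inequality for dominated tests
-/

set_option autoImplicit false

open scoped InnerProductSpace Matrix

noncomputable section

namespace Crest.Agent.R78

open Crest.Agent.R124

universe u

section
variable {H : Type u} [NormedAddCommGroup H] [InnerProductSpace ℂ H] [CompleteSpace H]

lemma test_near2_commutant {C : ℝ} (hN : NearStmt.{u} C) {M N : VonNeumannAlgebra H} {δ : ℝ}
    (hδ : 0 ≤ δ) (h : Near2 M N δ) : Near2 M.commutant N.commutant (C * δ) :=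
  ⟨hN H N M δ hδ h.2, hN H M N δ hδ h.1⟩

lemma test_near_big {C : ℝ} (hC : 1 ≤ C) (hN : NearStmt.{u} C) {M N : VonNeumannAlgebra H} {δ : ℝ}
    (hδ : 0 ≤ δ) (h : Near2 M N δ) (ι : Type) [Fintype ι] [DecidableEq ι] :
    Near (bigVN ι M) (bigVN ι N) (C ^ 3 * δ) ∧
      Near (bigVN ι M).commutant (bigVN ι N).commutant (C ^ 3 * δ) := by
  have hC0 : 0 ≤ C := zero_le_one.trans hC
  have h1 := test_near2_commutant hN hδ h
  have hδ1 : 0 ≤ C * δ := mul_nonneg hC0 hδ
  have h2 := test_near2_commutant hN hδ1 (h1.diagVN (ι := ι) hδ1)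
  rw [commutant_diagVN, commutant_diagVN, VonNeumannAlgebra.commutant_commutant,
    VonNeumannAlgebra.commutant_commutant] at h2
  have hδ2 : 0 ≤ C * (C * δ) := mul_nonneg hC0 hδ1
  have h3 : Near2 (bigVN ι M) (bigVN ι N) (C * (C * δ)) := h2.diagVN (ι := ι) hδ2
  have h4 := test_near2_commutant hN hδ2 h3
  refine ⟨h3.1.mono ?_, h4.1.mono (le_of_eq (by ring))⟩
  have : C ^ 3 * δ = C * (C * (C * δ)) := by ring
  rw [this]
  exact le_mul_of_one_le_left hδ2 hC

variable {ι : Type} [Fintype ι] [DecidableEq ι]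

/-- A scaled matrix unit. -/
def testUnit (H : Type u) [NormedAddCommGroup H] [InnerProductSpace ℂ H] (r : ℝ) (i j : ι) :
    Amp ι H →L[ℂ] Amp ι H :=
  ((√r : ℝ) : ℂ) • matOp (Matrix.single i j (1 : H →L[ℂ] H))

omit [CompleteSpace H] in
lemma testUnit_apply (r : ℝ) (i j : ι) (w : Amp ι H) :
    testUnit H r i j w = inj i (((√r : ℝ) : ℂ) • w j) := by
  rw [testUnit, smul_apply, matOp_single_apply, map_smul]; rfl

omit [CompleteSpace H] in
lemma testUnit_norm_sq {r : ℝ} (hr : 0 ≤ r) (i j : ι) (w : Amp ι H) :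
    ‖testUnit H r i j w‖ ^ 2 = r * ‖w j‖ ^ 2 := by
  rw [testUnit_apply, norm_inj_apply, norm_smul, mul_pow, Complex.norm_real, Real.norm_eq_abs,
    sq_abs, Real.sq_sqrt hr]

lemma testUnit_mem (M : VonNeumannAlgebra H) (r : ℝ) (i j : ι) :
    testUnit H r i j ∈ (diagVN ι M).commutant := by
  rw [commutant_diagVN, testUnit]
  refine SMulMemClass.smul_mem (s := (matVN ι M.commutant).toStarSubalgebra) _ ?_
  change _ ∈ matVN ι M.commutant
  rw [matOp_mem_matVN]
  intro k l
  rw [Matrix.single_apply]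
  split_ifs
  · exact one_mem _
  · exact zero_mem _

omit [CompleteSpace H] in
lemma testUnit_inner {r : ℝ} (hr : 0 ≤ r) (i j j' : ι) (w : Amp ι H) (y : H →L[ℂ] H) :
    ⟪testUnit H r i j' w, diagOp ι y (testUnit H r i j w)⟫_ℂ = (r : ℂ) * ⟪w j', y (w j)⟫_ℂ := by
  rw [testUnit_apply, inner_inj_left, diagOp_apply, testUnit_apply, inj_apply, if_pos rfl,
    map_smul, inner_smul_left, inner_smul_right, Complex.conj_ofReal, ← mul_assoc,
    ← Complex.ofReal_mul, Real.mul_self_sqrt hr]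

omit [CompleteSpace H] [DecidableEq ι] in
lemma test_sum_le {J : Type} [Fintype J] (e : J → ι) (he : Function.Injective e) (w : Amp ι H) :
    ∑ j, ‖w (e j)‖ ^ 2 ≤ ‖w‖ ^ 2 := by
  classical
  rw [amp_norm_sq, ← Finset.sum_image (s := Finset.univ) (g := e) (f := fun i => ‖w i‖ ^ 2)
    fun a _ b _ h => he h]
  exact Finset.sum_le_sum_of_subset_of_nonneg (Finset.subset_univ _) fun _ _ _ => by positivity

end

theorem test {C : ℝ} (hN : NearStmt.{u} C) (h0 : Test0Stmt.{u}) :
    ∃ C' δ₀ : ℝ, 0 < δ₀ ∧ TestStmt.{u} C' δ₀ := by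
  classical
  set K : ℝ := max C 1 with hK
  have hK1 : 1 ≤ K := le_max_right _ _
  have hK0 : 0 < K := zero_lt_one.trans_le hK1
  have hNK : NearStmt.{u} K := fun H _ _ _ M N δ hδ h =>
    (hN H M N δ hδ h).mono (by gcongr; exact le_max_left _ _)
  refine ⟨400 * K ^ 3, 1 / K ^ 3, by positivity, ?_⟩
  intro H _ _ _ M N δ hδ hδ0 hMN J _ x ζ η hx hζ hη hy
  rcases isEmpty_or_nonempty J with hJ | hJ
  · simp only [Finset.univ_eq_empty, Finset.sum_empty, norm_zero]
    positivity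
  have hδ1 : K ^ 3 * δ ≤ 1 := by
    rw [le_div_iff₀ (by positivity)] at hδ0
    linarith
  set n : ℝ := (Fintype.card J : ℝ) with hn
  have hn1 : 1 ≤ n := by
    rw [hn]; exact_mod_cast Fintype.card_pos
  have hn0 : 0 ≤ n := zero_le_one.trans hn1
  let ξ : Amp (J × Bool) H := WithLp.toLp 2 fun p => if p.2 then η p.1 else ζ p.1
  have hξt : ∀ j, ξ (j, true) = η j := fun j => rfl
  have hξf : ∀ j, ξ (j, false) = ζ j := fun j => rfl
  have hξ : ‖ξ‖ ^ 2 ≤ 2 := by
    rw [amp_norm_sq, Fintype.sum_prod_type]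
    simp only [Fintype.sum_bool, hξt, hξf, Finset.sum_add_distrib]
    linarith
  have hsum : ∀ (b : Bool) (w : Amp (J × Bool) H),
      ∑ j, ‖testUnit H n (j, false) (j, b) w‖ ^ 2 ≤ n * ‖w‖ ^ 2 := by
    intro b w
    simp only [testUnit_norm_sq hn0, ← Finset.mul_sum]
    exact mul_le_mul_of_nonneg_left
      (test_sum_le (fun j => (j, b)) (fun a a' h => (Prod.mk.inj h).1) w) hn0
  have hone : ∀ (b : Bool) (j : J) (w : Amp (J × Bool) H),
      ‖testUnit H n (j, false) (j, b) w‖ ^ 2 ≤ n * ‖w‖ ^ 2 := by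
    intro b j w
    rw [testUnit_norm_sq hn0]
    gcongr
    exact PiLp.norm_apply_le _ _
  have key := h0 (Amp (J × Bool) H) (diagVN (J × Bool) M) (diagVN (J × Bool) N) (K ^ 3 * δ) n ξ J
    (fun j => diagOp (J × Bool) (x j)) (fun j => testUnit H n (j, false) (j, false))
    (fun j => testUnit H n (j, false) (j, true)) (by positivity) hδ1 hn1 hξ
    (fun ι _ _ => test_near_big hK1 hNK hδ (hMN.diagVN hδ) ι)
    (fun j => ⟨diagOp_mem_diagVN (hx j).1, by
      rw [IsSelfAdjoint, ← diagOp_star, (hx j).2.1.star_eq], (norm_diagOp_le _).trans (hx j).2.2⟩)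
    (fun j => ⟨testUnit_mem _ _ _ _, testUnit_mem _ _ _ _, testUnit_mem _ _ _ _,
      testUnit_mem _ _ _ _⟩)
    (hsum false) (hsum true) (hone false) (hone true) (by
      intro Y hY
      obtain ⟨y, hyN, rfl⟩ := mem_diagVN.1 hY
      simp only [testUnit_inner hn0, hξt, hξf, mul_smul, ← Finset.smul_sum]
      have h1 := congrArg (diagHom H (J × Bool)) (hy y hyN)
      simp only [map_sum, map_smul, map_zero, diagHom_apply] at h1
      rw [h1, smul_zero])
  simp only [testUnit_inner hn0, hξt, hξf, ← Finset.mul_sum] at key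
  rw [norm_mul, Complex.norm_real, Real.norm_of_nonneg hn0, ← hn] at key
  have := le_of_mul_le_mul_left key (zero_lt_one.trans_le hn1)
  linarith

end Crest.Agent.R78
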