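import Crest.Agent.R78.FinSpatial
import Crest.Agent.R78.Test

/-!
# Row 78: the test inequality in the form used by the finishing part
-/

set_option autoImplicit false

open scoped InnerProductSpace

noncomputable section

namespace Crest.Agent.R78

universe u

theorem near : ∃ C : ℝ, NearStmt.{u} C := by
  obtain ⟨C, -, hC⟩ := Fin.exists_close.{u}
  exact ⟨C, fun H _ _ _ M N δ hδ h => (hC H M N δ hδ h).1⟩

theorem testIneq_of (h0 : Test0Stmt.{u}) : ∃ C : ℝ, Fin.TestIneq.{u} C := by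
  obtain ⟨C, hN⟩ := near.{u}
  obtain ⟨C', δ₀, hδ₀, hT⟩ := test hN h0
  refine ⟨max C' δ₀⁻¹, fun H _ _ _ M N d hd _ h1 h2 J _ x z z' hx hz hz' hr => ?_⟩
  rcases le_total d δ₀ with h | h
  · exact (hT H M N d hd h ⟨h1, h2⟩ J x z z' hx hz hz' hr).trans
      (mul_le_mul_of_nonneg_right (le_max_left _ _) hd)
  · have h3 : ∀ j, ‖⟪z' j, x j (z j)⟫_ℂ‖ ≤ (‖z j‖ ^ 2 + ‖z' j‖ ^ 2) / 2 := fun j => by
      have h4 : ‖x j (z j)‖ ≤ ‖z j‖ :=
        ((x j).le_opNorm _).trans (mul_le_of_le_one_left (norm_nonneg _) (hx j).2.2)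
      have h5 := (norm_inner_le_norm (𝕜 := ℂ) (z' j) (x j (z j))).trans
        (mul_le_mul_of_nonneg_left h4 (norm_nonneg _))
      nlinarith [sq_nonneg (‖z j‖ - ‖z' j‖)]
    have h6 : ‖∑ j, ⟪z' j, x j (z j)⟫_ℂ‖ ≤ 1 := by
      refine (norm_sum_le _ _).trans ((Finset.sum_le_sum fun j _ => h3 j).trans ?_)
      rw [← Finset.sum_div, Finset.sum_add_distrib]
      linarith
    refine h6.trans (le_trans ?_ (mul_le_mul_of_nonneg_right (le_max_right _ _) hd))
    rw [inv_mul_eq_div, le_div_iff₀ hδ₀]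
    linarith

end Crest.Agent.R78
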