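import Crest.Agent.R78.FR

/-! The unitary gadget `W(a)` built from two commuting Fock systems. -/

set_option autoImplicit false

noncomputable section

namespace Crest.Agent.R78

open Finset

/-- two commuting Fock systems -/
structure GB (I : Type) [Fintype I] [DecidableEq I] (A : Type*) [CStarAlgebra A] where
  U : FR I A
  V : FR I A
  cl : ∀ i, U.Com (V.l i)
  cr : ∀ i, U.Com (V.r i)

variable {I : Type} [Fintype I] [DecidableEq I] {A : Type*} [CStarAlgebra A]

namespace GB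
variable (G : GB I A)

lemma cP : G.U.Com G.V.P := by
  have : G.V.P = 1 - ∑ i, G.V.l i * star (G.V.l i) := by rw [G.V.sl]; abel
  have hs : ∀ x : A, (∀ i, Commute x (G.V.l i)) → (∀ i, Commute x (star (G.V.l i))) →
      Commute x G.V.P := fun x h h' => by
    rw [this]
    exact (Commute.one_right x).sub_right
      (Commute.sum_right _ _ _ fun i _ => (h i).mul_right (h' i))
  exact ⟨fun j => hs _ (fun i => (G.cl i).l j) fun i => (G.cl i).star.l j,
    fun j => hs _ (fun i => (G.cl i).sl j) fun i => (G.cl i).star.sl j,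
    fun j => hs _ (fun i => (G.cl i).r j) fun i => (G.cl i).star.r j,
    fun j => hs _ (fun i => (G.cl i).sr j) fun i => (G.cl i).star.sr j⟩

/-- moves the first letter of the second word to the end of the first -/
def S : A := ∑ k, G.U.r k * star (G.V.l k)

lemma star_S : star G.S = ∑ k, G.V.l k * star (G.U.r k) := by
  simp [S, star_sum]

lemma S_com {x : A} (h : G.U.Com x) (h' : G.V.Com x) : Commute G.S x :=
  Commute.sum_left _ _ _ fun k _ => (h.r k).mul_left (h'.sl k)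

lemma St_com {x : A} (h : G.U.Com x) (h' : G.V.Com x) : Commute (star G.S) x := by
  simpa using (G.S_com h.star h'.star).star_star

lemma S_Pv : G.S * G.V.P = 0 := by
  simp [S, sum_mul, mul_assoc, G.V.sl_P]

lemma Pu_S : G.U.P * G.S = 0 := by
  simp [S, mul_sum, ← mul_assoc, G.U.P_r]

lemma Pv_St : G.V.P * star G.S = 0 := by
  simpa [G.V.sP] using congrArg star G.S_Pv

lemma St_Pu : star G.S * G.U.P = 0 := by
  simpa [G.U.sP] using congrArg star G.Pu_S

lemma St_S : star G.S * G.S = 1 - G.V.P := by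
  rw [star_S, S, sum_mul_sum, ← G.V.sl]
  refine sum_congr rfl fun i _ => ?_
  have : ∀ j, G.V.l i * star (G.U.r i) * (G.U.r j * star (G.V.l j)) =
      if i = j then G.V.l i * star (G.V.l j) else 0 := by
    intro j
    rw [mul_assoc, ← mul_assoc (star (G.U.r i)), G.U.rr]
    split_ifs <;> simp
  simp only [this, sum_ite_eq, mem_univ, if_true]

lemma S_St : G.S * star G.S = 1 - G.U.P := by
  rw [star_S, S, sum_mul_sum, ← G.U.sr]
  refine sum_congr rfl fun i _ => ?_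
  have : ∀ j, G.U.r i * star (G.V.l i) * (G.V.l j * star (G.U.r j)) =
      if i = j then G.U.r i * star (G.U.r j) else 0 := by
    intro j
    rw [mul_assoc, ← mul_assoc (star (G.V.l i)), G.V.ll]
    split_ifs <;> simp
  simp only [this, sum_ite_eq, mem_univ, if_true]

lemma norm_S : ‖G.S‖ ≤ 1 :=
  norm_le_one_of (by rw [St_S]; exact norm_one_sub_proj_le G.V.sP G.V.P_P)

lemma S_r (j : I) : G.S * G.V.r j = G.V.r j * G.S + G.U.r j * G.V.P := by
  have : ∀ k, G.U.r k * star (G.V.l k) * G.V.r j = G.V.r j * (G.U.r k * star (G.V.l k)) +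
      if k = j then G.U.r k * G.V.P else 0 := by
    intro k
    rw [mul_assoc, G.V.slr, mul_add, ← mul_assoc, ((G.cr j).r k).eq, mul_assoc]
    split_ifs <;> simp
  simp only [S, sum_mul, mul_sum, this, sum_add_distrib, sum_ite_eq', mem_univ, if_true]

lemma S_sr (j : I) : G.S * star (G.V.r j) = star (G.V.r j) * G.S := by
  simp only [S, sum_mul, mul_sum]
  refine sum_congr rfl fun k _ => ?_
  have h : star (G.V.l k) * star (G.V.r j) = star (G.V.r j) * star (G.V.l k) := by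
    simpa using (congrArg star (G.V.lr k j)).symm
  rw [mul_assoc, h, ← mul_assoc, ((G.cr j).star.r k).eq, mul_assoc]

lemma sr_Pv_S (j : I) : star (G.U.r j) * G.V.P * G.S = G.V.P * star (G.V.r j) := by
  have : ∀ k, star (G.U.r j) * G.V.P * (G.U.r k * star (G.V.l k)) =
      if j = k then G.V.P * star (G.V.l k) else 0 := by
    intro k
    rw [(G.cP.sr j).eq, mul_assoc, ← mul_assoc (star (G.U.r j)), G.U.rr]
    split_ifs <;> simp
  simp only [S, mul_sum, this, sum_ite_eq, mem_univ, if_true, G.V.P_sl]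

/-- coefficient data -/
structure Co where
  a : A
  δ : A
  Ua : G.U.Com a
  Va : G.V.Com a
  Uδ : G.U.Com δ
  Vδ : G.V.Com δ
  aδ : Commute a δ
  sa : star a = a
  sδ : star δ = δ
  eq : δ + δ - δ * δ = a * a
  na : ‖a‖ ≤ 1 / 4
  nδ : ‖δ‖ ≤ 1 / 16

variable {G}

namespace Co
variable (c : G.Co)

lemma comm_δ (b : A) : ‖c.δ * b - b * c.δ‖ ≤ ‖c.a * b - b * c.a‖ := by
  have h : (c.δ * b - b * c.δ) + (c.δ * b - b * c.δ) =
      c.a * (c.a * b - b * c.a) + (c.a * b - b * c.a) * c.a +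
        (c.δ * (c.δ * b - b * c.δ) + (c.δ * b - b * c.δ) * c.δ) := by
    linear_combination (norm := noncomm_ring) c.eq * b - b * c.eq
  set x := c.δ * b - b * c.δ
  set y := c.a * b - b * c.a
  have h1 : ‖x + x‖ = 2 * ‖x‖ := by
    rw [← two_smul ℝ x, norm_smul]; simp
  have h2 : ‖c.a * y + y * c.a + (c.δ * x + x * c.δ)‖ ≤
      ‖c.a‖ * ‖y‖ + ‖y‖ * ‖c.a‖ + (‖c.δ‖ * ‖x‖ + ‖x‖ * ‖c.δ‖) :=
    norm_add_le_of_le (norm_add_le_of_le (norm_mul_le _ _) (norm_mul_le _ _))
      (norm_add_le_of_le (norm_mul_le _ _) (norm_mul_le _ _))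
  rw [← h, h1] at h2
  nlinarith [c.na, c.nδ, norm_nonneg x, norm_nonneg y]

/-- `a S` -/
def α : A := c.a * G.S
/-- `a S⋆` -/
def β : A := c.a * star G.S
def du : A := c.δ * G.U.P
def dv : A := c.δ * G.V.P
def Xs : A := (1 - c.β) * (1 - c.du)
def Ys : A := (1 - c.α) * (1 - c.dv)

lemma aS : Commute G.S c.a := G.S_com c.Ua c.Va
lemma aSt : Commute (star G.S) c.a := G.St_com c.Ua c.Va
lemma star_α : star c.α = c.β := by rw [α, β, star_mul, c.sa, c.aSt.eq]
lemma star_β : star c.β = c.α := by rw [← star_α, star_star]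
lemma star_du : star c.du = c.du := by rw [du, star_mul, c.sδ, G.U.sP, c.Uδ.P.eq]
lemma star_dv : star c.dv = c.dv := by rw [dv, star_mul, c.sδ, G.V.sP, c.Vδ.P.eq]

lemma norm_α : ‖c.α‖ ≤ 1 / 4 :=
  (norm_mul_le _ _).trans (by nlinarith [c.na, G.norm_S, norm_nonneg c.a, norm_nonneg G.S])
lemma norm_β : ‖c.β‖ ≤ 1 / 4 := by rw [← star_α, norm_star]; exact c.norm_α
lemma norm_du : ‖c.du‖ ≤ 1 / 16 :=
  (norm_mul_le _ _).trans (by nlinarith [c.nδ, G.U.norm_P, norm_nonneg c.δ, norm_nonneg G.U.P])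
lemma norm_dv : ‖c.dv‖ ≤ 1 / 16 :=
  (norm_mul_le _ _).trans (by nlinarith [c.nδ, G.V.norm_P, norm_nonneg c.δ, norm_nonneg G.V.P])
lemma norm_1α : ‖1 - c.α‖ ≤ 2 := (norm_sub_le _ _).trans (by linarith [nm1 (A := A), c.norm_α])
lemma norm_1β : ‖1 - c.β‖ ≤ 2 := (norm_sub_le _ _).trans (by linarith [nm1 (A := A), c.norm_β])
lemma norm_1du : ‖1 - c.du‖ ≤ 2 := (norm_sub_le _ _).trans (by linarith [nm1 (A := A), c.norm_du])
lemma norm_1dv : ‖1 - c.dv‖ ≤ 2 := (norm_sub_le _ _).trans (by linarith [nm1 (A := A), c.norm_dv])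

lemma norm_1Xs : ‖1 - c.Xs‖ ≤ 1 / 2 := by
  have : 1 - c.Xs = c.β + c.du - c.β * c.du := by rw [Xs]; noncomm_ring
  rw [this]
  refine (norm_sub_le_of_le (norm_add_le _ _) (norm_mul_le _ _)).trans ?_
  nlinarith [c.norm_β, c.norm_du, norm_nonneg c.β, norm_nonneg c.du]

lemma norm_1Ys : ‖1 - c.Ys‖ ≤ 1 / 2 := by
  have : 1 - c.Ys = c.α + c.dv - c.α * c.dv := by rw [Ys]; noncomm_ring
  rw [this]
  refine (norm_sub_le_of_le (norm_add_le _ _) (norm_mul_le _ _)).trans ?_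
  nlinarith [c.norm_α, c.norm_dv, norm_nonneg c.α, norm_nonneg c.dv]

lemma unit_Xs : IsUnit c.Xs := by
  simpa using isUnit_one_sub_of_norm_lt_one (x := 1 - c.Xs) (by linarith [c.norm_1Xs])

lemma unit_Ys : IsUnit c.Ys := by
  simpa using isUnit_one_sub_of_norm_lt_one (x := 1 - c.Ys) (by linarith [c.norm_1Ys])

lemma le_Xs (z : A) : ‖z‖ ≤ 2 * ‖c.Xs * z‖ := by
  have : z = c.Xs * z + (1 - c.Xs) * z := by noncomm_ring
  have h := norm_add_le_of_le (le_refl ‖c.Xs * z‖) (norm_mul_le (1 - c.Xs) z)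
  rw [← this] at h
  nlinarith [c.norm_1Xs, norm_nonneg z]

lemma Xs_cancel {x y : A} (h : c.Xs * x = c.Xs * y) : x = y := c.unit_Xs.mul_left_cancel h

lemma du_sq : c.du + c.du - c.du * c.du = c.a * c.a * G.U.P := by
  have h1 := c.Uδ.P.eq
  have h2 := G.U.P_P
  rw [du]
  linear_combination (norm := noncomm_ring) c.eq * G.U.P - c.δ * h1 * G.U.P - c.δ * c.δ * h2

lemma dv_sq : c.dv + c.dv - c.dv * c.dv = c.a * c.a * G.V.P := by
  have h1 := c.Vδ.P.eq
  have h2 := G.V.P_P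
  rw [dv]
  linear_combination (norm := noncomm_ring) c.eq * G.V.P - c.δ * h1 * G.V.P - c.δ * c.δ * h2

lemma α_Pv : c.α * G.V.P = 0 := by rw [α, mul_assoc, G.S_Pv, mul_zero]
lemma Pv_β : G.V.P * c.β = 0 := by rw [β, ← mul_assoc, c.Va.P.eq, mul_assoc, G.Pv_St, mul_zero]
lemma Pu_α : G.U.P * c.α = 0 := by rw [α, ← mul_assoc, c.Ua.P.eq, mul_assoc, G.Pu_S, mul_zero]
lemma β_Pu : c.β * G.U.P = 0 := by rw [β, mul_assoc, G.St_Pu, mul_zero]

lemma Xs_star : c.Xs * star c.Xs = c.Ys * star c.Ys := by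
  have h1 : c.β * c.α = c.a * c.a - c.a * c.a * G.V.P := by
    rw [α, β, mul_assoc, ← mul_assoc (star G.S), c.aSt.eq, mul_assoc, G.St_S]; noncomm_ring
  have h2 : c.α * c.β = c.a * c.a - c.a * c.a * G.U.P := by
    rw [α, β, mul_assoc, ← mul_assoc G.S, c.aS.eq, mul_assoc, G.S_St]; noncomm_ring
  have h3 : c.a * c.a * G.U.P * c.α = 0 := by rw [mul_assoc, c.Pu_α, mul_zero]
  have h4 : c.β * (c.a * c.a * G.U.P) = 0 := by
    rw [← (c.Ua.mul c.Ua).P.eq, ← mul_assoc, c.β_Pu, zero_mul]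
  have h5 : c.a * c.a * G.V.P * c.β = 0 := by rw [mul_assoc, c.Pv_β, mul_zero]
  have h6 : c.α * (c.a * c.a * G.V.P) = 0 := by
    rw [← (c.Va.mul c.Va).P.eq, ← mul_assoc, c.α_Pv, zero_mul]
  have h7 := c.du_sq
  have h8 := c.dv_sq
  simp only [Xs, Ys, star_mul, star_sub, star_one, star_α, star_β, star_du, star_dv]
  generalize c.a * c.a * G.U.P = cu at *
  generalize c.a * c.a * G.V.P = cv at *
  linear_combination (norm := noncomm_ring) (1 - c.α) * h8 * (1 - c.β) -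
    (1 - c.β) * h7 * (1 - c.α) + h1 - h2 + h3 + h4 * (1 - c.α) - h5 - h6 * (1 - c.β)

/-- the unitary -/
def W : A := Ring.inverse c.Xs * c.Ys

lemma Xs_W : c.Xs * c.W = c.Ys := by
  rw [W, ← mul_assoc, Ring.mul_inverse_cancel _ c.unit_Xs, one_mul]

lemma W_star : c.W * star c.W = 1 := by
  have h : c.Xs * (c.W * star c.W) * star c.Xs = c.Xs * 1 * star c.Xs := by
    rw [← mul_assoc, mul_assoc (c.Xs * c.W), ← star_mul, Xs_W, mul_one, Xs_star]
  exact c.Xs_cancel (c.unit_Xs.star.mul_right_cancel h)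

lemma star_W : star c.W * c.W = 1 := by
  have hu : IsUnit c.W := c.unit_Xs.ringInverse.mul c.unit_Ys
  refine hu.mul_left_cancel ?_
  rw [← mul_assoc, W_star, one_mul, mul_one]

lemma norm_W : ‖c.W‖ ≤ 1 := norm_le_one_of (by rw [star_W]; exact nm1)

end Co

end GB

end Crest.Agent.R78
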