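import Crest.Agent.R78.Gad

/-! Intertwining relation and estimates for the gadget. -/

set_option autoImplicit false

noncomputable section

namespace Crest.Agent.R78

open Finset

variable {I : Type} [Fintype I] [DecidableEq I] {A : Type*} [CStarAlgebra A]

namespace GB
variable {G : GB I A}

namespace Co
variable (c : G.Co)

def g (j : I) : A := c.a * G.U.r j * G.V.P
def gs (j : I) : A := c.a * star (G.U.r j) * G.V.P
def h (j : I) : A := c.a * c.a * G.V.P * star (G.V.r j)
def t₁ (j : I) : A := G.V.σ j + c.gs j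
def t (j : I) : A := G.V.σ j + c.g j + c.gs j - c.h j
def b (j : I) : A := G.V.σ j - G.V.r j * c.dv - c.dv * star (G.V.r j)
def y (j : I) : A := c.b j + c.a * G.U.σ j * G.V.P

lemma g_add_gs (j : I) : c.g j + c.gs j = c.a * G.U.σ j * G.V.P := by
  simp only [g, gs, FR.σ, mul_add, add_mul]

lemma star_g (j : I) : star (c.g j) = c.gs j := by
  rw [g, gs, star_mul, star_mul, c.sa, G.V.sP, (c.Ua.sr j).eq, ← mul_assoc, c.Va.P.eq, mul_assoc,
    ← (G.cP.sr j).eq, mul_assoc]

lemma α_r (j : I) : c.α * G.V.r j = G.V.r j * c.α + c.g j := by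
  rw [α, g, mul_assoc, G.S_r, ← mul_assoc (G.V.r j), (c.Va.r j).eq]; noncomm_ring

lemma α_sr (j : I) : c.α * star (G.V.r j) = star (G.V.r j) * c.α := by
  rw [α, mul_assoc, G.S_sr, ← mul_assoc, ← mul_assoc, (c.Va.sr j).eq]

lemma sr_β (j : I) : star (G.V.r j) * c.β = c.β * star (G.V.r j) + c.gs j := by
  simpa only [star_mul, star_add, star_α, star_g] using congrArg star (c.α_r j)

lemma r_β (j : I) : G.V.r j * c.β = c.β * G.V.r j := by
  simpa only [star_mul, star_star, star_α] using congrArg star (c.α_sr j)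

lemma gs_α (j : I) : c.gs j * c.α = c.h j := by
  have h1 := G.sr_Pv_S j
  have h2 := ((c.Ua.sr j).mul_left c.Va.P).eq
  rw [gs, α, h]
  linear_combination (norm := noncomm_ring) c.a * h2 * G.S + c.a * c.a * h1

lemma α_mul {x : A} (hx : Commute G.V.P x) : c.α * (x * G.V.P) = 0 := by
  rw [← hx.eq, ← mul_assoc, c.α_Pv, zero_mul]

lemma α_g (j : I) : c.α * c.g j = 0 := c.α_mul (c.Va.P.mul_right (G.cP.r j).symm)
lemma α_gs (j : I) : c.α * c.gs j = 0 := c.α_mul (c.Va.P.mul_right (G.cP.sr j).symm)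
lemma α_h (j : I) : c.α * c.h j = 0 := by
  rw [h, ← mul_assoc, c.α_mul (c.Va.mul c.Va).P, zero_mul]
lemma gs_β (j : I) : c.gs j * c.β = 0 := by rw [gs, mul_assoc, c.Pv_β, mul_zero]

lemma β_σ (j : I) : (1 - c.β) * G.V.σ j = c.t₁ j * (1 - c.β) := by
  have h1 := c.sr_β j
  have h2 := c.r_β j
  have h3 := c.gs_β j
  rw [t₁, FR.σ]
  linear_combination (norm := noncomm_ring) h1 + h2 + h3

lemma t₁_α (j : I) : c.t₁ j * (1 - c.α) = (1 - c.α) * c.t j := by
  have h1 := c.α_r j
  have h2 := c.α_sr j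
  have h3 := c.gs_α j
  have h4 := c.α_g j
  have h5 := c.α_gs j
  have h6 := c.α_h j
  rw [t₁, t, FR.σ]
  linear_combination (norm := noncomm_ring) h1 + h2 - h3 + h4 + h5 - h6

lemma t_dv (j : I) : c.t j * (1 - c.dv) = (1 - c.dv) * c.y j := by
  have h1 : star (G.V.r j) * c.dv = 0 := by
    rw [dv, ← mul_assoc, (c.Vδ.sr j).eq, mul_assoc, G.V.sr_P, mul_zero]
  have h2 : c.dv * G.V.r j = 0 := by rw [dv, mul_assoc, G.V.P_r, mul_zero]
  have h3 : c.h j = (c.dv + c.dv - c.dv * c.dv) * star (G.V.r j) := by rw [dv_sq, h]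
  have h4 : Commute (c.a * G.U.σ j * G.V.P) c.dv :=
    ((c.aδ.mul_right c.Va.P.symm).mul_left ((c.Uδ.mul G.cP).σ j)).mul_left
      (c.Vδ.P.mul_right (Commute.refl _))
  have h5 := c.g_add_gs j
  have h6 : c.t j = G.V.σ j + c.a * G.U.σ j * G.V.P - c.h j := by rw [t, add_assoc, h5]
  rw [h6, y, b, h3]
  have h7 := h4.eq
  generalize c.a * G.U.σ j * G.V.P = w at *
  rw [FR.σ]
  linear_combination (norm := noncomm_ring) -h1 - h7 + h2 - h2 * c.dv +
    (c.dv + c.dv - c.dv * c.dv) * h1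

lemma σ_du (j : I) : Commute (G.V.σ j) c.du :=
  (c.Vδ.σ j).mul_right (((G.cr j).add (G.cr j).star).P).symm

lemma Xs_σ (j : I) : c.Xs * G.V.σ j = c.t₁ j * c.Xs := by
  rw [Xs, mul_assoc, ← ((Commute.one_right _).sub_right (c.σ_du j)).eq, ← mul_assoc, β_σ,
    mul_assoc]

lemma W_y (j : I) : c.W * c.y j = G.V.σ j * c.W := by
  refine c.Xs_cancel ?_
  rw [← mul_assoc, Xs_W, ← mul_assoc, Xs_σ, mul_assoc, Xs_W, Ys, ← mul_assoc, t₁_α, mul_assoc,
    mul_assoc, t_dv]

lemma sW_σ (j : I) : star c.W * G.V.σ j = c.y j * star c.W := by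
  have h1 := c.W_y j
  have h2 := c.W_star
  have h3 := c.star_W
  linear_combination (norm := noncomm_ring) -(star c.W * h1 * star c.W) -
    star c.W * G.V.σ j * h2 + h3 * c.y j * star c.W

/-- conjugates of elements commuting with `y j` commute with the right field operators -/
lemma conj_comm {x : A} (j : I) (hx : Commute (c.y j) x) :
    Commute (G.V.σ j) (c.W * x * star c.W) := by
  have h1 := c.W_y j
  have h2 := c.sW_σ j
  have h3 := hx.eq
  rw [commute_iff_eq]
  linear_combination (norm := noncomm_ring) -(h1 * x * star c.W) + c.W * h3 * star c.W -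
    c.W * x * h2

lemma y_comm {x : A} (hV : G.V.Com x) (hσ : ∀ j, Commute (G.U.σ j) x) (ha : Commute c.a x)
    (hδ : Commute c.δ x) (j : I) : Commute (c.y j) x := by
  have h1 : Commute c.dv x := hδ.mul_left hV.P
  exact (((hV.σ j).sub_left ((hV.r j).mul_left h1)).sub_left (h1.mul_left (hV.sr j))).add_left
    ((ha.mul_left (hσ j)).mul_left hV.P)

lemma comm_δ' {x : A} (ha : Commute c.a x) : Commute c.δ x := by
  have := c.comm_δ x
  rw [ha.eq, sub_self, norm_zero] at this
  exact sub_eq_zero.1 (norm_le_zero_iff.1 this)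

lemma V_s (i : I) : G.V.Com (G.U.s i) :=
  ⟨fun k => ((G.cl k).s i).symm, fun k => ((G.cl k).star.s i).symm,
    fun k => ((G.cr k).s i).symm, fun k => ((G.cr k).star.s i).symm⟩

lemma y_s (i j : I) : Commute (c.y j) (G.U.s i) :=
  c.y_comm (V_s i) (fun k => (G.U.s_σ i k).symm) (c.Ua.s i).symm (c.Uδ.s i).symm j

lemma W_fix {p : A} (hS : c.α * p = 0) (hSt : c.β * p = 0) (hu : c.du * p = c.dv * p)
    (hu' : c.β * c.du * p = 0) (hv' : c.α * c.dv * p = 0) : c.W * p = p := by
  refine c.Xs_cancel ?_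
  rw [← mul_assoc, Xs_W, Xs, Ys]
  linear_combination (norm := noncomm_ring) -hS + hSt + hu - hu' + hv'

lemma W_P : c.W * (G.U.P * G.V.P) = G.U.P * G.V.P := by
  have h0 := G.cP.P.eq
  have h1 := c.α_Pv
  have h2 := c.β_Pu
  have h3 := G.U.P_P
  have h4 := G.V.P_P
  have h5 := c.Uδ.P.eq
  have h6 := c.Vδ.P.eq
  refine c.W_fix ?_ ?_ ?_ ?_ ?_
  · rw [h0, ← mul_assoc, h1, zero_mul]
  · rw [← mul_assoc, h2, zero_mul]
  · rw [du, dv]
    linear_combination (norm := noncomm_ring) c.δ * h3 * G.V.P + c.δ * h0 * G.V.P -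
      c.δ * G.U.P * h4
  · rw [du, ← h5, ← mul_assoc c.β, h2]; simp
  · rw [dv, ← h6, ← mul_assoc c.α, h1]; simp

lemma comm_W {x : A} (hU : G.U.Com x) (hV : G.V.Com x) :
    ‖c.W * x - x * c.W‖ ≤ 16 * ‖c.a * x - x * c.a‖ := by
  have key : ∀ T P : A, Commute T x → Commute P x → ‖T‖ ≤ 1 → ‖P‖ ≤ 1 → ‖1 - c.a * T‖ ≤ 2 →
      ‖1 - c.δ * P‖ ≤ 2 → ‖(1 - c.a * T) * (1 - c.δ * P) * x - x * ((1 - c.a * T) * (1 - c.δ * P))‖
        ≤ 4 * ‖c.a * x - x * c.a‖ := by
    intro T P hT hP nT nP n1 n2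
    have e1 := hT.eq
    have e2 := hP.eq
    have : (1 - c.a * T) * (1 - c.δ * P) * x - x * ((1 - c.a * T) * (1 - c.δ * P)) =
        -((1 - c.a * T) * ((c.δ * x - x * c.δ) * P)) -
          (c.a * x - x * c.a) * T * (1 - c.δ * P) := by
      linear_combination (norm := noncomm_ring) -((1 - c.a * T) * c.δ * e2) -
        c.a * e1 * (1 - c.δ * P)
    rw [this]
    have b1 := c.comm_δ x
    set u := c.δ * x - x * c.δ
    set v := c.a * x - x * c.a
    have b2 : ‖(1 - c.a * T) * (u * P)‖ ≤ 2 * (‖v‖ * 1) :=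
      norm_mul_le_of_le n1 (norm_mul_le_of_le b1 nP)
    have b3 : ‖v * T * (1 - c.δ * P)‖ ≤ ‖v‖ * 1 * 2 :=
      norm_mul_le_of_le (norm_mul_le_of_le le_rfl nT) n2
    refine (norm_sub_le _ _).trans ?_
    rw [norm_neg]; linarith
  have k1 : ‖c.Xs * x - x * c.Xs‖ ≤ _ := key _ _ (G.St_com hU hV) hU.P
    (by rw [norm_star]; exact G.norm_S) G.U.norm_P c.norm_1β c.norm_1du
  have k2 : ‖c.Ys * x - x * c.Ys‖ ≤ _ := key _ _ (G.S_com hU hV) hV.P G.norm_S G.V.norm_P
    c.norm_1α c.norm_1dv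
  have e := c.Xs_W
  have : c.Xs * (c.W * x - x * c.W) = (c.Ys * x - x * c.Ys) - (c.Xs * x - x * c.Xs) * c.W := by
    linear_combination (norm := noncomm_ring) e * x - x * e
  have h := c.le_Xs (c.W * x - x * c.W)
  rw [this] at h
  have h2 := norm_sub_le_of_le k2 (norm_mul_le_of_le k1 c.norm_W)
  linarith

lemma W_comm {x : A} (hU : G.U.Com x) (hV : G.V.Com x) (ha : Commute c.a x) : Commute c.W x := by
  have := c.comm_W hU hV
  rw [ha.eq, sub_self, norm_zero, mul_zero] at this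
  exact sub_eq_zero.1 (norm_le_zero_iff.1 this)

lemma sW_comm {x : A} (hU : G.U.Com x) (hV : G.V.Com x) (ha : Commute c.a x) :
    Commute (star c.W) x := by
  have : Commute c.a (star x) := by simpa [c.sa] using ha.star_star
  simpa using (c.W_comm hU.star hV.star this).star_star

lemma norm_W_sub (c' : G.Co) : ‖c.W - c'.W‖ ≤ 8 * (‖c.a - c'.a‖ + ‖c.δ - c'.δ‖) := by
  have key : ∀ T P : A, ‖T‖ ≤ 1 → ‖P‖ ≤ 1 → ‖1 - c.a * T‖ ≤ 2 → ‖1 - c'.δ * P‖ ≤ 2 →
      ‖(1 - c.a * T) * (1 - c.δ * P) - (1 - c'.a * T) * (1 - c'.δ * P)‖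
        ≤ 2 * (‖c.a - c'.a‖ + ‖c.δ - c'.δ‖) := by
    intro T P nT nP n1 n2
    have : (1 - c.a * T) * (1 - c.δ * P) - (1 - c'.a * T) * (1 - c'.δ * P) =
        -((1 - c.a * T) * ((c.δ - c'.δ) * P)) - (c.a - c'.a) * T * (1 - c'.δ * P) := by
      noncomm_ring
    rw [this]
    have b2 : ‖(1 - c.a * T) * ((c.δ - c'.δ) * P)‖ ≤ 2 * (‖c.δ - c'.δ‖ * 1) :=
      norm_mul_le_of_le n1 (norm_mul_le_of_le le_rfl nP)
    have b3 : ‖(c.a - c'.a) * T * (1 - c'.δ * P)‖ ≤ ‖c.a - c'.a‖ * 1 * 2 :=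
      norm_mul_le_of_le (norm_mul_le_of_le le_rfl nT) n2
    refine (norm_sub_le _ _).trans ?_
    rw [norm_neg]; linarith
  have k1 : ‖c.Xs - c'.Xs‖ ≤ _ := key _ _ (by rw [norm_star]; exact G.norm_S) G.U.norm_P
    c.norm_1β c'.norm_1du
  have k2 : ‖c.Ys - c'.Ys‖ ≤ _ := key _ _ G.norm_S G.V.norm_P c.norm_1α c'.norm_1dv
  have e := c.Xs_W
  have e' := c'.Xs_W
  have : c.Xs * (c.W - c'.W) = (c.Ys - c'.Ys) - (c.Xs - c'.Xs) * c'.W := by
    linear_combination (norm := noncomm_ring) e - e'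
  have h := c.le_Xs (c.W - c'.W)
  rw [this] at h
  have h2 := norm_sub_le_of_le k2 (norm_mul_le_of_le k1 c'.norm_W)
  linarith

/-- the key estimate -/
lemma estimate : ‖∑ k, c.W * G.U.s k * star c.W * G.V.σ k -
    (Fintype.card I : ℂ) • (c.a * (G.U.P * G.V.P))‖ ≤ 7 * √(Fintype.card I) := by
  have hb : ∀ k, ‖c.b k‖ ≤ 3 := fun k => by
    have h1 := G.V.norm_σ k
    have h2 := norm_mul_le_of_le (G.V.norm_r k) c.norm_dv
    have h3 := norm_mul_le_of_le c.norm_dv ((norm_star _).le.trans (G.V.norm_r k))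
    exact (norm_sub_le_of_le (norm_sub_le_of_le h1 h2) h3).trans (by norm_num)
  have hdv : G.U.Com c.dv := c.Uδ.mul G.cP
  have hbc : ∀ k, G.U.Com (c.b k) := fun k =>
    (((G.cr k).add (G.cr k).star).sub ((G.cr k).mul hdv)).sub (hdv.mul (G.cr k).star)
  have h1 := G.U.norm_sum_s c.b (fun k => (hbc k).sl k) zero_le_three hb
  have h2 := G.U.norm_sum_sσ
  have hP : G.U.P * G.V.P * star c.W = G.U.P * G.V.P := by
    have := congrArg star c.W_P
    rwa [star_mul, star_mul, G.U.sP, G.V.sP, ← G.cP.P.eq] at this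
  have haW := (c.W_comm c.Ua c.Va (Commute.refl _)).eq
  have hWP := c.W_P
  have e1 : c.W * (c.a * (G.U.P * G.V.P)) * star c.W = c.a * (G.U.P * G.V.P) := by
    linear_combination (norm := noncomm_ring) haW * (G.U.P * G.V.P) * star c.W +
      c.a * hWP * star c.W + c.a * hP
  have e2 : ∑ k, c.W * G.U.s k * star c.W * G.V.σ k -
      (Fintype.card I : ℂ) • (c.a * (G.U.P * G.V.P)) = c.W * (∑ k, G.U.s k * c.b k +
        c.a * (∑ k, G.U.s k * G.U.σ k - (Fintype.card I : ℂ) • G.U.P) * G.V.P) * star c.W := by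
    have : ∀ k, c.W * G.U.s k * star c.W * G.V.σ k = c.W * (G.U.s k * c.b k) * star c.W +
        c.W * (c.a * (G.U.s k * G.U.σ k) * G.V.P) * star c.W := fun k => by
      have h3 := c.sW_σ k
      have h4 := (c.Ua.s k).eq
      rw [y] at h3
      linear_combination (norm := noncomm_ring) c.W * G.U.s k * h3 +
        c.W * h4 * G.U.σ k * G.V.P * star c.W
    conv_lhs => rw [← e1]
    simp only [this]
    simp only [sum_add_distrib, mul_add, add_mul, mul_sub, sub_mul, mul_sum, sum_mul,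
      mul_smul_comm, smul_mul_assoc, mul_assoc]
    abel
  rw [e2]
  have h5 := norm_mul_le_of_le (norm_mul_le_of_le c.na h2) G.V.norm_P
  have h6 := norm_mul_le_of_le (norm_mul_le_of_le c.norm_W (norm_add_le_of_le h1 h5))
    ((norm_star _).le.trans c.norm_W)
  linarith

lemma eq_zero_of_fix {d : A} (h : d = c.a * d * G.S) : d = 0 := by
  have := norm_mul_le_of_le (norm_mul_le_of_le c.na (le_refl ‖d‖)) G.norm_S
  rw [← h] at this
  exact norm_le_zero_iff.1 (by linarith [norm_nonneg d])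

lemma exists_fix (x : A) : ∃ z : A, z = x + c.a * z * G.S := by
  let T : A →L[ℂ] A := ContinuousLinearMap.mulLeftRight ℂ A c.a G.S
  have hT : ‖T‖ < 1 := by
    refine (ContinuousLinearMap.opNorm_mulLeftRight_apply_apply_le ℂ A c.a G.S).trans_lt ?_
    nlinarith [c.na, G.norm_S, norm_nonneg c.a, norm_nonneg G.S]
  obtain ⟨u, hu⟩ := isUnit_one_sub_of_norm_lt_one hT
  refine ⟨(u⁻¹ : (A →L[ℂ] A)ˣ).1 x, ?_⟩
  have := DFunLike.congr_fun u.mul_inv x
  rw [hu, mul_apply_eq_comp, sub_apply] at this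
  exact sub_eq_iff_eq_add.1 this

/-- ordering trick: an exactly commuting approximant -/
lemma near {x : A} (hV : G.V.Com x) (hσ : ∀ j, Commute (G.U.σ j) x) :
    ∃ w : A, (∀ j, Commute (G.V.σ j) w) ∧
      (∀ g, G.U.Com g → G.V.Com g → Commute c.a g → Commute x g → Commute w g) ∧
      ‖c.W * x * star c.W - w‖ ≤ 36 * ‖c.a * x - x * c.a‖ := by
  obtain ⟨z, hz⟩ := c.exists_fix x
  set Ψ := z - c.a * z * star G.S with hΨ
  have hzP : z * G.V.P = x * G.V.P := by
    have := G.S_Pv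
    linear_combination (norm := noncomm_ring) hz * G.V.P + c.a * z * this
  have hR := Ring.mul_inverse_cancel _ c.unit_Xs
  set R := Ring.inverse c.Xs
  refine ⟨R * (1 - c.α) * Ψ * (1 - c.du), fun j => ?_, fun g gU gV ga gx => ?_, ?_⟩
  · have a1 := G.S_r j
    have a2 := G.S_sr j
    have a3 := G.sr_Pv_S j
    have a4 : star (G.V.r j) * star G.S = star G.S * star (G.V.r j) + G.V.P * star (G.U.r j) := by
      simpa only [star_mul, star_add, G.V.sP] using congrArg star a1
    have a5 : G.V.r j * star G.S = star G.S * G.V.r j := by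
      simpa only [star_mul, star_star] using congrArg star a2
    have a6 := (G.cP.r j).eq
    have a7 := (G.cP.sr j).eq
    have a8 := G.Pv_St
    have hta : Commute (c.t j) c.a :=
      (((c.Va.σ j).add_left (((Commute.refl _).mul_left (c.Ua.r j)).mul_left c.Va.P)).add_left
        (((Commute.refl _).mul_left (c.Ua.sr j)).mul_left c.Va.P)).sub_left
        ((((Commute.refl _).mul_left (Commute.refl _)).mul_left c.Va.P).mul_left (c.Va.sr j))
    have htx : c.t j * x = x * G.V.σ j + c.a * x * G.V.P * G.U.σ j -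
        c.a * c.a * x * G.V.P * star (G.V.r j) := by
      have b1 := (hV.σ j).eq
      have b2 := (hσ j).eq
      have b3 := hV.P.eq
      have b4 := (hV.sr j).eq
      have b5 := (G.cP.σ j).eq
      have b6 := c.g_add_gs j
      rw [t, h]
      linear_combination (norm := noncomm_ring) b1 + b6 * x + c.a * b5 * x +
        c.a * G.V.P * b2 + c.a * b3 * G.U.σ j - c.a * c.a * G.V.P * b4 -
        c.a * c.a * b3 * star (G.V.r j)
    have k1 : z * G.V.σ j + c.a * z * G.V.P * star (G.U.r j) - c.t j * z = 0 := by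
      refine c.eq_zero_of_fix ?_
      have b7 := hta.eq
      simp only [FR.σ] at htx ⊢
      linear_combination (norm := noncomm_ring) hz * (G.V.r j + star (G.V.r j)) -
        c.t j * hz - htx + c.a * z * a1 + c.a * z * a2 + c.a * z * a6 +
        c.a * hzP * G.U.r j + c.a * hzP * star (G.U.r j) - b7 * z * G.S
        + c.a * c.a * z * a7 * G.S - c.a * c.a * z * a3 -
        c.a * c.a * hzP * star (G.V.r j)
    have k2 : Ψ * G.V.σ j = c.t j * Ψ := by
      have b7 := hta.eq
      rw [hΨ]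
      simp only [FR.σ] at k1 ⊢
      linear_combination (norm := noncomm_ring) k1 - c.a * k1 * star G.S + c.a * z * a4 +
        c.a * z * a5 + b7 * z * star G.S - c.a * c.a * z * a7 * star G.S +
        c.a * c.a * z * star (G.U.r j) * a8
    have k3 := c.Xs_σ j
    have k4 := c.t₁_α j
    have k5 := ((Commute.one_right _).sub_right (c.σ_du j)).eq
    refine c.Xs_cancel ?_
    linear_combination (norm := noncomm_ring) k3 * R * (1 - c.α) * Ψ * (1 - c.du) +
      c.t₁ j * hR * (1 - c.α) * Ψ * (1 - c.du) + k4 * Ψ * (1 - c.du) -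
      (1 - c.α) * k2 * (1 - c.du) + (1 - c.α) * Ψ * k5 -
      hR * (1 - c.α) * Ψ * (1 - c.du) * G.V.σ j
  · have gS := G.S_com gU gV
    have gSt := G.St_com gU gV
    have gδ := c.comm_δ' ga
    have gz : Commute z g := by
      refine sub_eq_zero.1 (c.eq_zero_of_fix ?_)
      linear_combination (norm := noncomm_ring) hz * g - g * hz + gx.eq + c.a * z * gS.eq +
        ga.eq * z * G.S
    have g1 : Commute (1 - c.du) g := (Commute.one_left _).sub_left (gδ.mul_left gU.P)
    have g2 : Commute c.Xs g := ((Commute.one_left _).sub_left (ga.mul_left gSt)).mul_left g1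
    have g3 : Commute R g := by
      refine c.Xs_cancel ?_
      linear_combination (norm := noncomm_ring) hR * g - g2.eq * R - g * hR
    exact ((g3.mul_left ((Commute.one_left _).sub_left (ga.mul_left gS))).mul_left
      (gz.sub_left ((ga.mul_left gz).mul_left gSt))).mul_left g1
  · set e := c.a * z - z * c.a with he
    have n1 : ‖e‖ ≤ 2 * ‖c.a * x - x * c.a‖ := by
      have : e = (c.a * x - x * c.a) + c.a * e * G.S := by
        have := c.aS.eq
        rw [he]
        linear_combination (norm := noncomm_ring) c.a * hz - hz * c.a - c.a * z * this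
      have h := norm_add_le_of_le (le_refl ‖c.a * x - x * c.a‖)
        (norm_mul_le_of_le (norm_mul_le_of_le c.na (le_refl ‖e‖)) G.norm_S)
      rw [← this] at h
      linarith [norm_nonneg e]
    have n2 := c.comm_δ x
    have e1 := c.Xs_W
    have e2 := c.W_star
    have e3 := hV.P.eq
    have : c.Xs * (c.W * x * star c.W - R * (1 - c.α) * Ψ * (1 - c.du)) =
        (1 - c.α) * (e * (star G.S * ((1 - c.du) * c.W) - G.S * (1 - c.dv)) -
          (c.δ * x - x * c.δ) * G.V.P) * star c.W := by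
      have e4 := e1
      rw [Xs, Ys, α, β] at e4
      rw [Ys] at e1
      rw [he, hΨ, dv] at *
      linear_combination (norm := noncomm_ring) e1 * x * star c.W -
        hR * (1 - c.α) * (z - c.a * z * star G.S) * (1 - c.du) +
        (1 - c.α) * (z - c.a * z * star G.S) * (1 - c.du) * e2 -
        (1 - c.α) * z * e4 * star c.W - (1 - c.α) * hz * (1 - c.δ * G.V.P) * star c.W -
        (1 - c.α) * c.δ * e3 * star c.W
    have h := c.le_Xs (c.W * x * star c.W - R * (1 - c.α) * Ψ * (1 - c.du))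
    rw [this] at h
    have n3 := norm_sub_le_of_le (norm_mul_le_of_le ((norm_star _).le.trans G.norm_S)
      (norm_mul_le_of_le c.norm_1du c.norm_W)) (norm_mul_le_of_le G.norm_S c.norm_1dv)
    have n4 := norm_mul_le_of_le (norm_mul_le_of_le c.norm_1α (norm_sub_le_of_le
      (norm_mul_le_of_le n1 n3) (norm_mul_le_of_le n2 G.V.norm_P)))
      ((norm_star _).le.trans c.norm_W)
    linarith

end Co

/-- coefficient data from a small self-adjoint element -/
lemma exists_co (G : GB I A) {a : A} (hU : G.U.Com a) (hV : G.V.Com a) (sa : star a = a)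
    (na : ‖a‖ ≤ 1 / 4) : ∃ c : G.Co, c.a = a := by
  have ha : IsSelfAdjoint a := sa
  let f : ℝ → ℝ := fun t => 1 - √(1 - t ^ 2)
  have hf : Continuous f := by fun_prop
  have hsp : ∀ t ∈ spectrum ℝ a, t ^ 2 ≤ 1 / 16 := fun t ht => by
    rcases subsingleton_or_nontrivial A with _ | _
    · simp [spectrum.of_subsingleton] at ht
    have := (spectrum.norm_le_norm_of_mem ht).trans na
    rw [Real.norm_eq_abs] at this
    nlinarith [abs_nonneg t, sq_abs t]
  have hc : ∀ x, Commute x a → Commute (star x) a → Commute x (cfc f a) := fun x h h' =>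
    (h.symm.cfc (by simpa [sa] using h'.symm.star_star) f).symm
  have hcom : ∀ U : FR I A, U.Com a → U.Com (cfc f a) := fun U h =>
    ⟨fun i => hc _ (h.l i) (h.sl i), fun i => hc _ (h.sl i) (by simpa using h.l i),
      fun i => hc _ (h.r i) (h.sr i), fun i => hc _ (h.sr i) (by simpa using h.r i)⟩
  refine ⟨⟨a, cfc f a, hU, hV, hcom _ hU, hcom _ hV, hc _ (Commute.refl _) (by rw [sa]), sa,
    (cfc_predicate f a : IsSelfAdjoint _), ?_, na, ?_⟩, rfl⟩
  · rw [← cfc_mul f f a, ← cfc_add a f f, ← cfc_sub _ _ a]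
    conv_rhs => rw [← cfc_id' ℝ a, ← cfc_mul _ _ a]
    refine cfc_congr fun t ht => ?_
    have := Real.sq_sqrt (show 0 ≤ 1 - t ^ 2 by linarith [hsp t ht])
    simp only [f]
    nlinarith
  · refine norm_cfc_le (by norm_num) fun t ht => ?_
    have h1 := hsp t ht
    have h2 : √(1 - t ^ 2) ≤ 1 := Real.sqrt_le_one.2 (by nlinarith)
    have h3 : 15 / 16 ≤ √(1 - t ^ 2) := Real.le_sqrt_of_sq_le (by nlinarith)
    simp only [f, Real.norm_eq_abs]
    rw [abs_le]; constructor <;> linarith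

end GB

end Crest.Agent.R78
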