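import Crest.Agent.R78.FR
import Crest.Agent.R89.Fock
import Crest.Agent.R73.Shift

/-! Hilbert tensor products with their two legs, and the concrete Fock relations. -/

set_option autoImplicit false

noncomputable section

namespace Crest.Agent.R78

open UniformSpace TopologicalSpace InnerProductSpace
open scoped InnerProductSpace TensorProduct

section TP
variable (E F H : Type) [NormedAddCommGroup E] [InnerProductSpace ℂ E] [CompleteSpace E]
  [NormedAddCommGroup F] [InnerProductSpace ℂ F] [CompleteSpace F]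
  [NormedAddCommGroup H] [InnerProductSpace ℂ H] [CompleteSpace H]

/-- `H` is a Hilbert tensor product of `E` and `F` -/
structure TP where
  tm : E →L[ℂ] F →L[ℂ] H
  L : (E →L[ℂ] E) →⋆ₐ[ℂ] (H →L[ℂ] H)
  R : (F →L[ℂ] F) →⋆ₐ[ℂ] (H →L[ℂ] H)
  L_tm : ∀ x v w, L x (tm v w) = tm (x v) w
  R_tm : ∀ y v w, R y (tm v w) = tm v (y w)
  inner_tm : ∀ v w v' w', ⟪tm v w, tm v' w'⟫_ℂ = ⟪v, v'⟫_ℂ * ⟪w, w'⟫_ℂ
  ind : ∀ p : Submodule ℂ H, IsClosed (p : Set H) → (∀ v w, tm v w ∈ p) → ∀ x, x ∈ p

variable {E F H}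

namespace TP
variable (T : TP E F H)

lemma ext {G : Type} [NormedAddCommGroup G] [NormedSpace ℂ G] {S S' : H →L[ℂ] G}
    (h : ∀ v w, S (T.tm v w) = S' (T.tm v w)) : S = S' := by
  ext x
  have := T.ind (LinearMap.ker (S - S').toLinearMap) (S - S').isClosed_ker
    (fun v w => by simp [h]) x
  simpa [sub_eq_zero] using this

lemma comm (x : E →L[ℂ] E) (y : F →L[ℂ] F) : Commute (T.L x) (T.R y) :=
  T.ext fun v w => by simp only [mul_apply_eq_comp, T.L_tm, T.R_tm]

lemma norm_tm (v : E) (w : F) : ‖T.tm v w‖ = ‖v‖ * ‖w‖ := by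
  have := T.inner_tm v w v w
  simp only [inner_self_eq_norm_sq_to_K] at this
  have h2 : ‖T.tm v w‖ ^ 2 = (‖v‖ * ‖w‖) ^ 2 := by
    rw [mul_pow]; exact_mod_cast this
  exact (pow_left_inj₀ (norm_nonneg _) (by positivity) two_ne_zero).1 h2

lemma rankOne_mul (v v' : E) (w w' : F) :
    T.L (rankOne ℂ v v') * T.R (rankOne ℂ w w') = rankOne ℂ (T.tm v w) (T.tm v' w') :=
  T.ext fun a b => by
    simp only [mul_apply_eq_comp, T.L_tm, T.R_tm, rankOne_apply, T.inner_tm, map_smul,
      smul_apply, smul_smul, mul_comm]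

end TP

end TP

section cpl
variable {V : Type} [NormedAddCommGroup V] [InnerProductSpace ℂ V]

theorem cpl_ext {S T : Completion V →L[ℂ] Completion V} (h : ∀ x : V, S x = T x) : S = T := by
  ext x
  induction x using Completion.induction_on with
  | hp => exact isClosed_eq S.continuous T.continuous
  | ih x => exact h x

/-- Extension of bounded operators to the completion. -/
def cpl : (V →L[ℂ] V) →ₐ[ℂ] (Completion V →L[ℂ] Completion V) where
  toFun T := T.completion
  map_one' := cpl_ext fun x => by simp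
  map_mul' S T := cpl_ext fun x => by simp
  map_zero' := cpl_ext fun x => by simp
  map_add' S T := cpl_ext fun x => by simp [Completion.coe_add]
  commutes' c := cpl_ext fun x => by simp [Algebra.algebraMap_eq_smul_one, Completion.coe_smul]

theorem cpl_coe (T : V →L[ℂ] V) (x : V) : cpl T (x : Completion V) = (T x : V) :=
  T.completion_apply_coe x

theorem cpl_star {S T : V →L[ℂ] V} (h : ∀ x y, ⟪S x, y⟫_ℂ = ⟪x, T y⟫_ℂ) :
    cpl S = star (cpl T) := by
  rw [ContinuousLinearMap.star_eq_adjoint, ContinuousLinearMap.eq_adjoint_iff]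
  intro x y
  induction x, y using Completion.induction_on₂ with
  | hp => apply isClosed_eq <;> fun_prop
  | ih x y => rw [cpl_coe, cpl_coe, Completion.inner_coe, Completion.inner_coe, h]

end cpl

theorem tens_inner_ext {E F : Type} [NormedAddCommGroup E] [InnerProductSpace ℂ E]
    [NormedAddCommGroup F] [InnerProductSpace ℂ F] {S T : E ⊗[ℂ] F →L[ℂ] E ⊗[ℂ] F}
    (h : ∀ a b c d, ⟪S (a ⊗ₜ b), c ⊗ₜ d⟫_ℂ = ⟪a ⊗ₜ b, T (c ⊗ₜ d)⟫_ℂ) (x y : E ⊗[ℂ] F) :
    ⟪S x, y⟫_ℂ = ⟪x, T y⟫_ℂ := by
  induction x using TensorProduct.induction_on with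
  | zero => simp
  | add x x' hx hx' => rw [map_add, inner_add_left, inner_add_left, hx, hx']
  | tmul a b =>
    induction y using TensorProduct.induction_on with
    | zero => simp
    | add y y' hy hy' => rw [map_add, inner_add_right, inner_add_right, hy, hy']
    | tmul c d => exact h a b c d

theorem exists_TP (E F : Type) [NormedAddCommGroup E] [InnerProductSpace ℂ E] [CompleteSpace E]
    [NormedAddCommGroup F] [InnerProductSpace ℂ F] [CompleteSpace F] [SeparableSpace E]
    [SeparableSpace F] : ∃ (H : Type) (_ : NormedAddCommGroup H) (_ : InnerProductSpace ℂ H)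
      (_ : CompleteSpace H) (_ : SeparableSpace H), Nonempty (TP E F H) := by
  have hsep : SeparableSpace (E ⊗[ℂ] F) := by
    rw [← isSeparable_univ_iff, ← Submodule.top_coe (R := ℂ), ← TensorProduct.span_tmul_eq_top]
    refine IsSeparable.span ?_
    have := (isSeparable_range (TensorProduct.continuous_tmul (𝕜 := ℂ) (E := E) (F := F)))
    exact this.mono (by rintro _ ⟨m, n, rfl⟩; exact ⟨(m, n), rfl⟩)
  let l : (E →L[ℂ] E) →ₐ[ℂ] (E ⊗[ℂ] F →L[ℂ] E ⊗[ℂ] F) :=
    { toFun a := a.rTensor F
      map_one' := by simp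
      map_mul' a a' := by simp [ContinuousLinearMap.rTensor_mul]
      map_zero' := by simp
      map_add' a a' := by simp
      commutes' c := by simp [Algebra.algebraMap_eq_smul_one] }
  let r : (F →L[ℂ] F) →ₐ[ℂ] (E ⊗[ℂ] F →L[ℂ] E ⊗[ℂ] F) :=
    { toFun a := a.lTensor E
      map_one' := by simp
      map_mul' a a' := by simp [ContinuousLinearMap.lTensor_mul]
      map_zero' := by simp
      map_add' a a' := by simp
      commutes' c := by simp [Algebra.algebraMap_eq_smul_one] }
  refine ⟨Completion (E ⊗[ℂ] F), inferInstance, inferInstance, inferInstance, inferInstance, ⟨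
    { tm := ((ContinuousLinearMap.compL ℂ F _ _ Completion.toComplL).comp
        (TensorProduct.mkL ℂ E F))
      L := ⟨cpl.comp l, fun a => cpl_star (tens_inner_ext fun x y z w => ?_)⟩
      R := ⟨cpl.comp r, fun a => cpl_star (tens_inner_ext fun x y z w => ?_)⟩
      L_tm := fun x v w => cpl_coe (l x) (v ⊗ₜ w)
      R_tm := fun y v w => cpl_coe (r y) (v ⊗ₜ w)
      inner_tm := fun v w v' w' => ?_
      ind := fun p hp h x => ?_ }⟩⟩
  · show ⟪(star a) x ⊗ₜ[ℂ] y, z ⊗ₜ[ℂ] w⟫_ℂ = ⟪x ⊗ₜ[ℂ] y, a z ⊗ₜ[ℂ] w⟫_ℂ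
    rw [TensorProduct.inner_tmul, TensorProduct.inner_tmul, R89.Fock.inner_star_left]
  · show ⟪x ⊗ₜ[ℂ] (star a) y, z ⊗ₜ[ℂ] w⟫_ℂ = ⟪x ⊗ₜ[ℂ] y, z ⊗ₜ[ℂ] a w⟫_ℂ
    rw [TensorProduct.inner_tmul, TensorProduct.inner_tmul, R89.Fock.inner_star_left]
  · show ⟪((v ⊗ₜ[ℂ] w : E ⊗[ℂ] F) : Completion (E ⊗[ℂ] F)), ((v' ⊗ₜ[ℂ] w' : E ⊗[ℂ] F) :
      Completion (E ⊗[ℂ] F))⟫_ℂ = _
    rw [Completion.inner_coe, TensorProduct.inner_tmul]
  · induction x using Completion.induction_on with
    | hp => exact hp
    | ih x =>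
      induction x using TensorProduct.induction_on with
      | zero => rw [Completion.coe_zero]; exact p.zero_mem
      | add x y hx hy => rw [Completion.coe_add]; exact p.add_mem hx hy
      | tmul v w => exact h v w

section Fock
open R89.Fock Finset
variable {I : Type} [Fintype I] [DecidableEq I] {H : Type} [NormedAddCommGroup H]
  [InnerProductSpace ℂ H] [CompleteSpace H] (e : HilbertBasis (List I) ℂ H)

/-- the Fock relations on the full Fock space -/
def fock : FR I (H →L[ℂ] H) where
  l := L e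
  r i := Rr e [i]
  P := P e
  ll i j := clm_ext e fun w => by by_cases h : i = j <;> simp [R89.Fock.L_apply, star_L_cons, h]
  rr i j := clm_ext e fun w => by by_cases h : i = j <;> simp [Rr_apply, star_Rr_snoc, h]
  sl := clm_ext e fun w => by
    cases w with
    | nil => simp [star_L_nil, P_apply, e.orthonormal.1 []]
    | cons k w =>
      simp [star_L_cons, P_apply, inner_e, apply_ite, R89.Fock.L_apply]
  sr := clm_ext e fun w => by
    rcases List.eq_nil_or_concat w with rfl | ⟨w, k, rfl⟩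
    · simp [star_Rr_nil, P_apply, e.orthonormal.1 []]
    · simp [star_Rr_snoc, P_apply, inner_e, apply_ite, Rr_apply]
  lr i j := L_mul_Rr e i [j]
  slr i j := by
    have h1 := congrArg star (comm_rho e j i)
    have h2 := L_mul_Rr e i [j]
    simp only [star_sub, star_mul, star_star, star_s] at h1
    have h3 : star (if i = j then P e else 0) = if i = j then P e else 0 := by
      split_ifs <;> simp [star_P]
    rw [h3, s] at h1
    linear_combination (norm := noncomm_ring) h1 - h2
  lP i := by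
    ext x
    simp [P_apply, R89.Fock.L_apply, Rr_apply]
  sP := star_P e

lemma fock_s (i : I) : (fock e).s i = s e i := rfl
lemma fock_P : (fock e).P = rankOne ℂ (e []) (e []) := rfl

end Fock

end Crest.Agent.R78
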