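import Crest.Agent.R78.LemAAux

/-!
# Row 78, Lemma A: random words
-/

set_option autoImplicit false
set_option linter.unusedSectionVars false

open scoped InnerProductSpace ComplexConjugate
open Function

noncomputable section

namespace Crest.Agent.R78

universe u

namespace LA

section words
variable {B : Type*} [Monoid B]

/-- the ordered product `g a * ⋯ * g (a + l - 1)` -/
def seg (g : ℕ → B) (a : ℕ) : ℕ → B
  | 0 => 1
  | l + 1 => seg g a l * g (a + l)

lemma seg_add (g : ℕ → B) (a l l' : ℕ) : seg g a (l + l') = seg g a l * seg g (a + l) l' := by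
  induction l' with
  | zero => simp [seg]
  | succ l' ih => rw [← add_assoc, seg, ih, seg, mul_assoc, add_assoc]

lemma seg_congr {g g' : ℕ → B} {a l : ℕ} (h : ∀ i, a ≤ i → i < a + l → g i = g' i) :
    seg g a l = seg g' a l := by
  induction l with
  | zero => rfl
  | succ l ih => rw [seg, seg, ih fun i h1 h2 => h i h1 (by omega), h _ (by omega) (by omega)]

lemma seg_mem {S : Type*} [SetLike S B] [SubmonoidClass S B] {s : S} {g : ℕ → B}
    (h : ∀ i, g i ∈ s) (a l : ℕ) : seg g a l ∈ s := by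
  induction l with
  | zero => exact one_mem s
  | succ l ih => exact mul_mem ih (h _)

lemma seg_commute {x : B} {g : ℕ → B} (h : ∀ i, Commute x (g i)) (a l : ℕ) :
    Commute x (seg g a l) := by
  induction l with
  | zero => exact Commute.one_right x
  | succ l ih => exact ih.mul_right (h _)

lemma seg_mul {g g' : ℕ → B} (h : ∀ i i', Commute (g i) (g' i')) (a l : ℕ) :
    seg g a l * seg g' a l = seg (fun i => g i * g' i) a l := by
  induction l with
  | zero => simp [seg]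
  | succ l ih =>
    rw [seg, seg, seg, ← ih]
    exact (seg_commute (h _) a l).mul_mul_mul_comm _ _

variable {n : ℕ} {J : Type}

/-- the letters of a word, extended by `1` -/
def ext (f : J → B) (w : Fin n → J) (i : ℕ) : B := if h : i < n then f (w ⟨i, h⟩) else 1

lemma ext_coe (f : J → B) (w : Fin n → J) (k : Fin n) : ext f w k = f (w k) := dif_pos k.2

lemma ext_update (f : J → B) (w : Fin n → J) (k : Fin n) (j : J) {i : ℕ} (h : i ≠ k) :
    ext f (update w k j) i = ext f w i := by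
  unfold ext
  split_ifs with hi
  · rw [update_of_ne (fun e => h (congrArg Fin.val e))]
  · rfl

lemma ext_mem {S : Type*} [SetLike S B] [SubmonoidClass S B] {s : S} {f : J → B}
    (h : ∀ j, f j ∈ s) (w : Fin n → J) (i : ℕ) : ext f w i ∈ s := by
  unfold ext
  split_ifs
  · exact h _
  · exact one_mem s

lemma seg_ext_mul {f f' : J → B} (h : ∀ j j', Commute (f j) (f' j')) (w : Fin n → J) (a l : ℕ) :
    seg (ext f w) a l * seg (ext f' w) a l = seg (ext (fun j => f j * f' j) w) a l := by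
  rw [seg_mul]
  · congr 1
    funext i
    unfold ext
    split_ifs <;> simp
  · intro i i'
    unfold ext
    split_ifs
    · exact h _ _
    · exact Commute.one_right _
    · exact Commute.one_left _
    · exact Commute.one_left _

/-- prefix -/
def pre (f : J → B) (w : Fin n → J) (k : Fin n) : B := seg (ext f w) 0 k

/-- suffix -/
def suf (f : J → B) (w : Fin n → J) (k : Fin n) : B := seg (ext f w) (k + 1) (n - (k + 1))

lemma full_eq (f : J → B) (w : Fin n → J) (k : Fin n) :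
    seg (ext f w) 0 n = pre f w k * f (w k) * suf f w k := by
  have : seg (ext f w) 0 n = seg (ext f w) 0 (k + 1 + (n - (k + 1))) := by
    congr 1
    omega
  rw [this, seg_add, seg, zero_add, zero_add, ext_coe]
  rfl

lemma pre_update (f : J → B) (w : Fin n → J) {k l : Fin n} (h : k ≤ l) (j : J) :
    pre f (update w l j) k = pre f w k :=
  seg_congr fun i _ h2 => ext_update f w l j (by omega)

lemma suf_update (f : J → B) (w : Fin n → J) {k l : Fin n} (h : l ≤ k) (j : J) :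
    suf f (update w l j) k = suf f w k :=
  seg_congr fun i h1 _ => ext_update f w l j (by omega)

variable [Fintype J]

lemma sum_update {V : Type*} [AddCommMonoid V] (F : (Fin n → J) → V) (k : Fin n) :
    Fintype.card J • ∑ w, F w = ∑ w, ∑ j, F (update w k j) := by
  have hi : Involutive (fun p : (Fin n → J) × J => (update p.1 k p.2, p.1 k)) := by
    intro p
    simp
  have := Equiv.sum_comp hi.toPerm (fun p => F p.1)
  rw [Fintype.sum_prod_type, Fintype.sum_prod_type] at this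
  simp only [Finset.sum_const, Finset.card_univ] at this
  rw [Finset.smul_sum, ← this]
  rfl

lemma sum_le_of_update [Nonempty J] {F G : (Fin n → J) → ℝ} (k : Fin n)
    (h : ∀ w, ∑ j, F (update w k j) ≤ Fintype.card J * G w) : ∑ w, F w ≤ ∑ w, G w := by
  have hm : (0 : ℝ) < Fintype.card J := by exact_mod_cast Fintype.card_pos
  refine le_of_mul_le_mul_left ?_ hm
  rw [← nsmul_eq_mul, sum_update F k, Finset.mul_sum]
  exact Finset.sum_le_sum fun w _ => h w

end words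

variable {H : Type u} [NormedAddCommGroup H] [InnerProductSpace ℂ H] [CompleteSpace H]
variable {n : ℕ} {J : Type} [Fintype J] [Nonempty J]

lemma sum_seg {f : J → (H →L[ℂ] H)} {T : H →L[ℂ] H} (hT : ∑ j, f j = (Fintype.card J : ℂ) • T)
    (a l : ℕ) (h : a + l ≤ n) :
    ∑ w : Fin n → J, seg (ext f w) a l = (Fintype.card (Fin n → J) : ℂ) • T ^ l := by
  have hm : (Fintype.card J : ℂ) ≠ 0 := by exact_mod_cast Fintype.card_ne_zero
  induction l with
  | zero => simp only [seg, pow_zero, Finset.sum_const, Finset.card_univ, Nat.cast_smul_eq_nsmul]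
  | succ l ih =>
    refine smul_right_injective _ hm ?_
    simp only
    rw [Nat.cast_smul_eq_nsmul, sum_update _ ⟨a + l, by omega⟩]
    have : ∀ w : Fin n → J, ∑ j, seg (ext f (update w ⟨a + l, by omega⟩ j)) a (l + 1) =
        seg (ext f w) a l * ∑ j, f j := by
      intro w
      rw [Finset.mul_sum]
      refine Finset.sum_congr rfl fun j _ => ?_
      rw [seg, seg_congr fun i _ h2 => ext_update f w _ j (by simp only; omega)]
      congr 1
      exact (ext_coe f _ ⟨a + l, by omega⟩).trans (by rw [update_self])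
    simp only [this]
    rw [← Finset.sum_mul, ih (by omega), hT, pow_succ, smul_mul_assoc, mul_smul_comm, smul_comm]

lemma norm_sub_sq_unitary {V : H →L[ℂ] H} (hV : V ∈ unitary (H →L[ℂ] H)) (v : H) :
    ‖V v - v‖ ^ 2 = 2 * (‖v‖ ^ 2 - (⟪v, V v⟫_ℂ).re) := by
  rw [norm_sub_rev, @norm_sub_sq ℂ, norm_unitary_apply hV, RCLike.re_to_complex]
  ring

lemma norm_sub_star {V : H →L[ℂ] H} (hV : V ∈ unitary (H →L[ℂ] H)) (v w : H) :
    ‖v - star V w‖ = ‖V v - w‖ := by
  rw [← norm_unitary_apply hV, map_sub, ← mul_apply_eq_comp V (star V),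
    Unitary.mul_star_self_of_mem hV, one_apply_eq_self]

/-- Markov type two for random words -/
lemma kappa_sum {f : J → (H →L[ℂ] H)} (hf : ∀ j, f j ∈ unitary (H →L[ℂ] H))
    (hs : IsSelfAdjoint (∑ j, f j)) {Ξ : H} {e : ℝ} (he0 : 0 ≤ e) (he : ∀ j, ‖f j Ξ - Ξ‖ ≤ e)
    (a l : ℕ) (h : a + l ≤ n) :
    ∑ w : Fin n → J, ‖seg (ext f w) a l Ξ - Ξ‖ ≤ Fintype.card (Fin n → J) * (√n * e) := by
  have hm : (0 : ℝ) < Fintype.card J := by exact_mod_cast Fintype.card_pos
  have hm' : (Fintype.card J : ℂ) ≠ 0 := by exact_mod_cast Fintype.card_ne_zero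
  set T : H →L[ℂ] H := (Fintype.card J : ℂ)⁻¹ • ∑ j, f j with hTd
  have hT : ∑ j, f j = (Fintype.card J : ℂ) • T := by rw [hTd, smul_inv_smul₀ hm']
  have hTs : IsSelfAdjoint T := IsSelfAdjoint.smul (by simp [IsSelfAdjoint]) hs
  have hTn : ‖T‖ ≤ 1 := by
    rw [hTd, norm_smul, norm_inv, Complex.norm_natCast, inv_mul_le_iff₀ hm, mul_one]
    refine (norm_sum_le _ _).trans ((Finset.sum_le_sum fun j _ => norm_unitary_le (hf j)).trans ?_)
    simp
  have h1 : 2 * (‖Ξ‖ ^ 2 - (⟪Ξ, T Ξ⟫_ℂ).re) ≤ e ^ 2 := by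
    have h2 : ∑ j, ‖f j Ξ - Ξ‖ ^ 2 ≤ ∑ _j : J, e ^ 2 :=
      Finset.sum_le_sum fun j _ => pow_le_pow_left₀ (norm_nonneg _) (he j) 2
    simp only [norm_sub_sq_unitary (hf _)] at h2
    rw [← Finset.mul_sum, Finset.sum_sub_distrib, ← Complex.re_sum, ← inner_sum, ← sum_apply, hT,
      smul_apply, inner_smul_right] at h2
    simp only [Finset.sum_const, Finset.card_univ, nsmul_eq_mul, Complex.mul_re,
      Complex.natCast_re, Complex.natCast_im, zero_mul, sub_zero] at h2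
    refine le_of_mul_le_mul_left ?_ hm
    linarith
  have h3 : ∑ w : Fin n → J, ‖seg (ext f w) a l Ξ - Ξ‖ ^ 2 ≤
      Fintype.card (Fin n → J) * (n * e ^ 2) := by
    simp only [norm_sub_sq_unitary (seg_mem (ext_mem hf _) a l)]
    rw [← Finset.mul_sum, Finset.sum_sub_distrib, ← Complex.re_sum, ← inner_sum, ← sum_apply,
      sum_seg hT a l h, smul_apply, inner_smul_right]
    simp only [Finset.sum_const, Finset.card_univ, nsmul_eq_mul, Complex.mul_re,
      Complex.natCast_re, Complex.natCast_im, zero_mul, sub_zero]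
    have h4 := markov hTs hTn Ξ l
    have h5 : (l : ℝ) ≤ n := by exact_mod_cast (by omega : l ≤ n)
    have h6 := mul_le_mul_of_nonneg_left h1 (Nat.cast_nonneg (α := ℝ) l)
    have h7 := mul_le_mul_of_nonneg_right h5 (sq_nonneg e)
    have h8 : 2 * (‖Ξ‖ ^ 2 - (⟪Ξ, (T ^ l) Ξ⟫_ℂ).re) ≤ n * e ^ 2 := by linarith
    have h9 := mul_le_mul_of_nonneg_left h8 (Nat.cast_nonneg (α := ℝ) (Fintype.card (Fin n → J)))
    linarith
  refine (pow_le_pow_iff_left₀ (by positivity) (by positivity) two_ne_zero).1 ?_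
  refine (sq_sum_le_card_mul_sum_sq).trans ?_
  rw [Finset.card_univ, mul_pow, mul_pow, Real.sq_sqrt (Nat.cast_nonneg _), sq (Fintype.card _ : ℝ),
    mul_assoc]
  exact mul_le_mul_of_nonneg_left h3 (Nat.cast_nonneg _)

variable {N : VonNeumannAlgebra H} {Ξ : H} {A : H →L[ℂ] H} {D : H →ₗ⋆[ℂ] H}

lemma norm_sq_apply_le {Q : H →L[ℂ] H} (hQ : ‖Q‖ ≤ 2) (v : H) : ‖Q v‖ ^ 2 ≤ 4 * ‖v‖ ^ 2 := by
  have := pow_le_pow_left₀ (norm_nonneg _) (Q.le_of_opNorm_le hQ v) 2
  linarith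

/-- step (3): correlations of the positive parts -/
lemma cross_sum (hS : SuppStmt.{u}) (hRN : RNStmt.{u}) (h : IsRvD N Ξ A D) (hΞ : ‖Ξ‖ ≤ 2)
    {c : J → (H →L[ℂ] H)} {Λ : ℝ} (hΛ : 0 ≤ Λ) (hcN : ∀ j, c j ∈ N.commutant)
    (hc : ∀ w, ∑ j, ‖c j w‖ ^ 2 ≤ Fintype.card J * ‖w‖ ^ 2)
    (hcΛ : ∀ j w, ‖c j w‖ ^ 2 ≤ Λ * ‖w‖ ^ 2) {Q : Fin n → (Fin n → J) → (H →L[ℂ] H)}
    (hQ : ∀ k w, Q k w ∈ N.commutant ∧ ‖Q k w‖ ≤ 2) (hQu : ∀ k w j, Q k (update w k j) = Q k w)
    (hQ' : ∀ k l, (∀ w j, Q l (update w k j) = Q l w) ∨ ∀ w j, Q k (update w l j) = Q k w)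
    (k l : Fin n) :
    ∑ w, (⟪A ((star (c (w k) * Q k w) * (c (w k) * Q k w)) Ξ),
      (star (c (w l) * Q l w) * (c (w l) * Q l w)) Ξ⟫_ℂ).re ≤
      Fintype.card (Fin n → J) * (64 + if k = l then 64 * Λ else 0) := by
  have hm : (0 : ℝ) ≤ Fintype.card J := Nat.cast_nonneg _
  have hO : (0 : ℝ) ≤ Fintype.card (Fin n → J) := Nat.cast_nonneg _
  have h16 : ∀ l, ∑ w, ‖(c (w l) * Q l w) Ξ‖ ^ 2 ≤ Fintype.card (Fin n → J) * 16 := by
    intro l
    refine (sum_le_of_update (G := fun _ => 16) l fun w => ?_).trans (by simp)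
    simp only [hQu, update_self, mul_apply_eq_comp]
    refine (hc _).trans (mul_le_mul_of_nonneg_left ?_ hm)
    have h1 := norm_sq_apply_le (hQ l w).2 Ξ
    have h2 := pow_le_pow_left₀ (norm_nonneg _) hΞ 2
    linarith
  have off : ∀ k l, k ≠ l → (∀ w j, Q l (update w k j) = Q l w) →
      ∑ w, (⟪A ((star (c (w k) * Q k w) * (c (w k) * Q k w)) Ξ),
        (star (c (w l) * Q l w) * (c (w l) * Q l w)) Ξ⟫_ℂ).re ≤ Fintype.card (Fin n → J) * 64 := by
    intro k l hkl hu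
    refine (sum_le_of_update (G := fun w => 4 * ‖(c (w l) * Q l w) Ξ‖ ^ 2) k fun w => ?_).trans ?_
    · simp only [hQu, hu, update_self, update_of_ne hkl.symm]
      refine (rn_sum hS hRN h (X := fun j => c j * Q k w) (C := Fintype.card J * 4)
        (fun j => mul_mem (hcN j) (hQ k w).1) (by positivity) (fun v => ?_)
        (mul_mem (hcN (w l)) (hQ l w).1)).trans (le_of_eq (mul_assoc _ _ _))
      simp only [mul_apply_eq_comp]
      rw [mul_assoc]
      exact (hc _).trans (mul_le_mul_of_nonneg_left (norm_sq_apply_le (hQ k w).2 v) hm)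
    · rw [← Finset.mul_sum]
      linarith [h16 l]
  by_cases hkl : k = l
  · subst hkl
    rw [if_pos rfl]
    have h1 : ∀ w : Fin n → J, (⟪A ((star (c (w k) * Q k w) * (c (w k) * Q k w)) Ξ),
        (star (c (w k) * Q k w) * (c (w k) * Q k w)) Ξ⟫_ℂ).re ≤
        Λ * 4 * ‖(c (w k) * Q k w) Ξ‖ ^ 2 := by
      intro w
      have := rn_sum hS hRN h (J := Unit) (X := fun _ => c (w k) * Q k w) (C := Λ * 4)
        (fun _ => mul_mem (hcN _) (hQ k w).1) (by positivity) (fun v => by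
          rw [Fintype.sum_unique, mul_apply_eq_comp, mul_assoc]
          exact (hcΛ _ _).trans (mul_le_mul_of_nonneg_left (norm_sq_apply_le (hQ k w).2 v) hΛ))
        (mul_mem (hcN (w k)) (hQ k w).1)
      rwa [Fintype.sum_unique] at this
    refine (Finset.sum_le_sum fun w _ => h1 w).trans ?_
    rw [← Finset.mul_sum]
    have := mul_le_mul_of_nonneg_left (h16 k) (by positivity : 0 ≤ Λ * 4)
    linarith
  · rw [if_neg hkl, add_zero]
    rcases hQ' k l with hu | hu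
    · exact off k l hkl hu
    · simp only [re_inner_symm h ((star (c (_ : J) * Q k _) * _) Ξ)]
      exact off l k (Ne.symm hkl) hu

lemma energy_sum (hS : SuppStmt.{u}) (hRN : RNStmt.{u}) (hT : TwoPosStmt.{u}) (h : IsRvD N Ξ A D)
    (hΞ : ‖Ξ‖ ≤ 2) {c c' : J → (H →L[ℂ] H)} {Λ : ℝ} (hΛ : 0 ≤ Λ) (hcN : ∀ j, c j ∈ N.commutant)
    (hcN' : ∀ j, c' j ∈ N.commutant) (hc : ∀ w, ∑ j, ‖c j w‖ ^ 2 ≤ Fintype.card J * ‖w‖ ^ 2)
    (hc' : ∀ w, ∑ j, ‖c' j w‖ ^ 2 ≤ Fintype.card J * ‖w‖ ^ 2)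
    (hcΛ : ∀ j w, ‖c j w‖ ^ 2 ≤ Λ * ‖w‖ ^ 2) (hcΛ' : ∀ j w, ‖c' j w‖ ^ 2 ≤ Λ * ‖w‖ ^ 2)
    {Qa Qb : Fin n → (Fin n → J) → (H →L[ℂ] H)}
    (hQa : ∀ k w, Qa k w ∈ N.commutant ∧ ‖Qa k w‖ ≤ 2)
    (hQb : ∀ k w, Qb k w ∈ N.commutant ∧ ‖Qb k w‖ ≤ 2)
    (ha : ∀ k l, k ≤ l → ∀ w j, Qa k (update w l j) = Qa k w)
    (hb : ∀ k l, l ≤ k → ∀ w j, Qb k (update w l j) = Qb k w) :
    ∑ w : Fin n → J, (⟪A (∑ k, (star (c (w k) * Qb k w) * (c' (w k) * Qa k w)) Ξ),
      ∑ k, (star (c (w k) * Qb k w) * (c' (w k) * Qa k w)) Ξ⟫_ℂ).re ≤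
      Fintype.card (Fin n → J) * (64 * n ^ 2 + 64 * Λ * n) := by
  have h1 : ∀ k l : Fin n, ∑ w : Fin n → J,
      (⟪A ((star (c (w k) * Qb k w) * (c' (w k) * Qa k w)) Ξ),
        (star (c (w l) * Qb l w) * (c' (w l) * Qa l w)) Ξ⟫_ℂ).re ≤
      Fintype.card (Fin n → J) * (64 + if k = l then 64 * Λ else 0) := by
    intro k l
    have h2 := cross_sum hS hRN h hΞ hΛ hcN hc hcΛ hQb (fun k => hb k k le_rfl)
      (fun k l => (le_total k l).imp (hb l k) (hb k l)) k l
    have h3 := cross_sum hS hRN h hΞ hΛ hcN' hc' hcΛ' hQa (fun k => ha k k le_rfl)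
      (fun k l => (le_total l k).imp (ha l k) (ha k l)) k l
    have h4 := Finset.sum_le_sum fun (w : Fin n → J) (_ : w ∈ Finset.univ) =>
      hT H N Ξ A D h _ (mul_mem (hcN (w k)) (hQb k w).1) _ (mul_mem (hcN' (w k)) (hQa k w).1)
        _ (mul_mem (hcN (w l)) (hQb l w).1) _ (mul_mem (hcN' (w l)) (hQa l w).1)
    rw [← Finset.mul_sum, Finset.sum_add_distrib] at h4
    linarith
  simp only [map_sum, sum_inner, inner_sum, Complex.re_sum]
  rw [Finset.sum_comm]
  refine (Finset.sum_le_sum fun l _ => (Finset.sum_comm.le.trans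
    (Finset.sum_le_sum fun k _ => h1 k l))).trans (le_of_eq ?_)
  simp only [← Finset.mul_sum, Finset.sum_add_distrib, Finset.sum_ite_eq', Finset.mem_univ, if_true,
    Finset.sum_const, Finset.card_univ, Fintype.card_fin, nsmul_eq_mul]
  ring

end LA

open LA in
theorem lemA (hEx : RvDExStmt.{u}) (hS : SuppStmt.{u}) (hRN : RNStmt.{u}) (hT : TwoPosStmt.{u}) :
    LemAStmt.{u} := by
  intro H _ _ _ M N δ e Λ Ξ J _ _ u u' c c' n hn hδ hδ1 he0 hΛ hΞ hMN hMN' hu hu' hcc hc hc' hcΛ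
    hcΛ' hs he hR
  obtain ⟨A, D, h⟩ := hEx H N Ξ
  obtain ⟨P, hP, hPs, hPn, hPy, hP0⟩ := exists_proj N Ξ
  have hm : (0 : ℝ) < Fintype.card J := by exact_mod_cast Fintype.card_pos
  have hO : (0 : ℝ) < Fintype.card (Fin n → J) := by exact_mod_cast Fintype.card_pos
  have hn0 : (0 : ℝ) < n := by exact_mod_cast hn
  unfold Near at hMN hMN'
  choose! pt hpt using hMN
  choose! pt' hpt' using hMN'
  have hp : ∀ x ∈ M, x ∈ unitary (H →L[ℂ] H) → pt x ∈ N ∧ ‖x - pt x‖ ≤ δ := fun x hx hx' =>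
    ⟨(hpt x hx).1, (hpt x hx).2.trans (mul_le_of_le_one_right hδ (norm_unitary_le hx'))⟩
  have hp' : ∀ x ∈ M.commutant, x ∈ unitary (H →L[ℂ] H) →
      ‖x - pt' x‖ ≤ δ ∧ P * pt' x ∈ N.commutant ∧ ‖P * pt' x‖ ≤ 2 := by
    intro x hx hx'
    have h1 := (hpt' x hx).2.trans (mul_le_of_le_one_right hδ (norm_unitary_le hx'))
    refine ⟨h1, mul_mem hP (hpt' x hx).1, ?_⟩
    have h2 : ‖P * pt' x‖ ≤ ‖pt' x‖ := ContinuousLinearMap.opNorm_le_bound _ (norm_nonneg _)
      fun v => (hPn _).trans ((pt' x).le_opNorm v)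
    have h3 := norm_sub_norm_le (pt' x) x
    rw [norm_sub_rev] at h3
    linarith [norm_unitary_le hx']
  have sM : ∀ (w : Fin n → J) a l, seg (ext u w) a l ∈ M := fun w =>
    seg_mem (ext_mem (fun j => (hu j).1) w)
  have sU : ∀ (w : Fin n → J) a l, seg (ext u w) a l ∈ unitary (H →L[ℂ] H) := fun w =>
    seg_mem (ext_mem (fun j => (hu j).2) w)
  have sM' : ∀ (w : Fin n → J) a l, seg (ext u' w) a l ∈ M.commutant := fun w =>
    seg_mem (ext_mem (fun j => (hu' j).1) w)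
  have sU' : ∀ (w : Fin n → J) a l, seg (ext u' w) a l ∈ unitary (H →L[ℂ] H) := fun w =>
    seg_mem (ext_mem (fun j => (hu' j).2) w)
  have hκ := fun a l => kappa_sum (n := n) (fun j => mul_mem (hu j).2 (hu' j).2) hs he0 he a l
  simp only [← seg_ext_mul fun j j' => comm_of_mem (hu j).1 (hu' j').1] at hκ
  set Qa : Fin n → (Fin n → J) → (H →L[ℂ] H) := fun k w => P * pt' (star (pre u' w k)) with hQa
  set Qb : Fin n → (Fin n → J) → (H →L[ℂ] H) := fun k w => P * pt' (suf u' w k) with hQb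
  have hQa1 : ∀ k w, Qa k w ∈ N.commutant ∧ ‖Qa k w‖ ≤ 2 := fun k w =>
    (hp' _ (star_mem (sM' w _ _)) (Unitary.star_mem (sU' w _ _))).2
  have hQb1 : ∀ k w, Qb k w ∈ N.commutant ∧ ‖Qb k w‖ ≤ 2 := fun k w =>
    (hp' _ (sM' w _ _) (sU' w _ _)).2
  have hQa2 : ∀ k l, k ≤ l → ∀ w j, Qa k (update w l j) = Qa k w := fun k l hkl w j => by
    simp only [hQa, pre_update u' w hkl]
  have hQb2 : ∀ k l, l ≤ k → ∀ w j, Qb k (update w l j) = Qb k w := fun k l hkl w j => by
    simp only [hQb, suf_update u' w hkl]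
  have hQa3 : ∀ k w, ‖Qa k w Ξ - pre u w k Ξ‖ ≤ 6 * δ + ‖(pre u w k * pre u' w k) Ξ - Ξ‖ := by
    intro k w
    refine proj_close hΞ hδ hPn (hPy _ (hp _ (sM w _ _) (sU w _ _)).1) (hp _ (sM w _ _) (sU w _ _)).2
      (hp' _ (star_mem (sM' w _ _)) (Unitary.star_mem (sU' w _ _))).1 (le_of_eq ?_)
    rw [norm_sub_rev, norm_sub_star (sU' w 0 k)]
    exact congrArg (fun v => ‖v - Ξ‖) (comm_apply (sM w 0 k) (sM' w 0 k) Ξ).symm
  have hQb3 : ∀ k w, ‖Qb k w Ξ - star (suf u w k) Ξ‖ ≤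
      6 * δ + ‖(suf u w k * suf u' w k) Ξ - Ξ‖ := by
    intro k w
    have h1 := hp _ (star_mem (sM w (k + 1) (n - (k + 1))))
      (Unitary.star_mem (sU w (k + 1) (n - (k + 1))))
    exact proj_close hΞ hδ hPn (hPy _ h1.1) h1.2 (hp' _ (sM' w _ _) (sU' w _ _)).1
      (norm_sub_star (sU w _ _) _ _).le
  have h4 : ∀ Q : H →L[ℂ] H, ‖Q‖ ≤ 2 → ‖Q Ξ‖ ≤ 4 := fun Q hQ =>
    (Q.le_of_opNorm_le hQ Ξ).trans (by linarith)
  have hE := energy_sum hS hRN hT h hΞ hΛ (fun j => (hcc j).2.1) (fun j => (hcc j).2.2.2) hc hc'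
    hcΛ hcΛ' hQa1 hQb1 hQa2 hQb2
  set η : Fin n → (Fin n → J) → H := fun k w =>
    (star (c (w k) * Qb k w) * (c' (w k) * Qa k w)) Ξ with hη
  set S := ∑ j, ⟪c' j Ξ, u j (c j Ξ)⟫_ℂ with hSd
  have key : ∀ k : Fin n, ‖(Fintype.card J : ℂ) *
      ∑ w, eps A D Ξ (η k w) (pt (seg (ext u w) 0 n) - seg (ext u w) 0 n) -
        (Fintype.card (Fin n → J) : ℂ) * S‖ ≤
      Fintype.card J * (Fintype.card (Fin n → J) * (52 * δ + 6 * (√n * e))) := by
    intro k
    have e1 : (Fintype.card J : ℂ) *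
        ∑ w, eps A D Ξ (η k w) (pt (seg (ext u w) 0 n) - seg (ext u w) 0 n) -
        (Fintype.card (Fin n → J) : ℂ) * S =
        ∑ w : Fin n → J, (∑ j, eps A D Ξ ((star (c j * Qb k w) * (c' j * Qa k w)) Ξ)
          (pt (pre u w k * u j * suf u w k)) - S) := by
      rw [← nsmul_eq_mul, sum_update _ k, Finset.sum_sub_distrib, Finset.sum_const,
        Finset.card_univ, nsmul_eq_mul]
      congr 1
      refine Finset.sum_congr rfl fun w _ => ?_
      simp only [hη, full_eq u _ k, update_self, hQa2 k k le_rfl, hQb2 k k le_rfl,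
        pre_update u w le_rfl, suf_update u w le_rfl, map_sub, Finset.sum_sub_distrib]
      rw [step1 hPs hP0 (fun j => (hcc j).2.1) (fun j => (hcc j).2.2.2) hR, sub_zero]
    rw [e1]
    refine (norm_sum_le _ _).trans ((Finset.sum_le_sum fun w _ => step2 (M := M) h hΞ hδ hm.le
      (fun j => (hu j).2) (sM w _ _) (sU w _ _) (sM w _ _) (sU w _ _) (fun j => (hcc j).1)
      (fun j => (hcc j).2.1) (fun j => (hcc j).2.2.1) (hQb1 k w).1 hc hc'
      (fun j => hp _ (mul_mem (mul_mem (sM w _ _) (hu j).1) (sM w _ _))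
        (mul_mem (mul_mem (sU w _ _) (hu j).2) (sU w _ _)))
      (h4 _ (hQa1 k w).2) (h4 _ (hQb1 k w).2) (hQa3 k w) (hQb3 k w)).trans ?_)
    rw [← Finset.mul_sum]
    refine mul_le_mul_of_nonneg_left ?_ hm.le
    have k1 : ∑ w : Fin n → J, ‖(pre u w k * pre u' w k) Ξ - Ξ‖ ≤ _ := hκ 0 k (by omega)
    have k2 : ∑ w : Fin n → J, ‖(suf u w k * suf u' w k) Ξ - Ξ‖ ≤ _ :=
      hκ (k + 1) (n - (k + 1)) (by omega)
    simp only [Finset.sum_add_distrib, ← Finset.mul_sum, Finset.sum_const, Finset.card_univ,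
      nsmul_eq_mul]
    linarith
  have tot : ‖∑ w : Fin n → J,
      eps A D Ξ (∑ k, η k w) (pt (seg (ext u w) 0 n) - seg (ext u w) 0 n)‖ ≤
      Fintype.card (Fin n → J) * (δ * (16 * n + 8 * Λ)) := by
    have t1 : ∀ w : Fin n → J,
        ‖eps A D Ξ (∑ k, η k w) (pt (seg (ext u w) 0 n) - seg (ext u w) 0 n)‖ ≤
        δ * 2 * ((⟪A (∑ k, η k w), ∑ k, η k w⟫_ℂ).re / (2 * (8 * n)) + 8 * n / 2) := by
      intro w
      refine (norm_eps_le h _ _ (by positivity : (0 : ℝ) < 8 * n)).trans ?_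
      refine mul_le_mul_of_nonneg_right (mul_le_mul ?_ hΞ (norm_nonneg _) hδ) ?_
      · rw [norm_sub_rev]; exact (hp _ (sM w _ _) (sU w _ _)).2
      · have := h.re_inner_nonneg (∑ k, η k w)
        positivity
    refine (norm_sum_le _ _).trans ((Finset.sum_le_sum fun w _ => t1 w).trans ?_)
    rw [← Finset.mul_sum, Finset.sum_add_distrib, ← Finset.sum_div, Finset.sum_const,
      Finset.card_univ, nsmul_eq_mul]
    have t2 : (∑ w : Fin n → J, (⟪A (∑ k, η k w), ∑ k, η k w⟫_ℂ).re) / (2 * (8 * n)) ≤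
        Fintype.card (Fin n → J) * (4 * n + 4 * Λ) := by
      rw [div_le_iff₀ (by positivity)]
      exact hE.trans (le_of_eq (by ring))
    have t3 := mul_le_mul_of_nonneg_left t2 hδ
    linarith
  have e2 : (n : ℂ) * ((Fintype.card (Fin n → J) : ℂ) * S) = (Fintype.card J : ℂ) *
      ∑ w : Fin n → J, eps A D Ξ (∑ k, η k w) (pt (seg (ext u w) 0 n) - seg (ext u w) 0 n) -
      ∑ k : Fin n, ((Fintype.card J : ℂ) *
        ∑ w, eps A D Ξ (η k w) (pt (seg (ext u w) 0 n) - seg (ext u w) 0 n) -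
        (Fintype.card (Fin n → J) : ℂ) * S) := by
    simp only [map_sum, LinearMap.sum_apply]
    rw [Finset.sum_sub_distrib, ← Finset.mul_sum, Finset.sum_comm, Finset.sum_const,
      Finset.card_univ, Fintype.card_fin, nsmul_eq_mul]
    ring
  have fin := congrArg norm e2
  rw [norm_mul, norm_mul, Complex.norm_natCast, Complex.norm_natCast] at fin
  have f1 := (norm_sum_le _ _).trans (Finset.sum_le_sum fun k (_ : k ∈ Finset.univ) => key k)
  rw [Finset.sum_const, Finset.card_univ, Fintype.card_fin, nsmul_eq_mul] at f1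
  have f2 := fin.le.trans ((norm_sub_le _ _).trans (add_le_add_left (le_of_eq (norm_mul _ _)) _))
  rw [Complex.norm_natCast] at f2
  have f3 := mul_le_mul_of_nonneg_left tot hm.le
  refine le_of_mul_le_mul_left ?_ (mul_pos hn0 hO)
  have f4 : n * Fintype.card (Fin n → J) *
      (Fintype.card J * (100 * (δ * (1 + Λ / n) + √n * e))) =
      Fintype.card J * Fintype.card (Fin n → J) * (100 * (δ * n + δ * Λ + n * (√n * e))) := by
    field_simp
  rw [f4]
  have f5 : 0 ≤ (Fintype.card J : ℝ) * Fintype.card (Fin n → J) *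
      (32 * (δ * n) + 92 * (δ * Λ) + 94 * (n * (√n * e))) := by positivity
  linarith

end Crest.Agent.R78
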