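import Crest.Agent.R78.RvD

/-!
# Row 78, Lemma A: operator-theoretic pieces
-/

set_option autoImplicit false
set_option linter.unusedSectionVars false

open scoped InnerProductSpace ComplexConjugate

noncomputable section

namespace Crest.Agent.R78.LA

universe u

variable {H : Type u} [NormedAddCommGroup H] [InnerProductSpace ℂ H] [CompleteSpace H]

lemma inner_star_left (X : H →L[ℂ] H) (v w : H) : ⟪star X v, w⟫_ℂ = ⟪v, X w⟫_ℂ := by
  rw [ContinuousLinearMap.star_eq_adjoint, ContinuousLinearMap.adjoint_inner_left]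

lemma inner_star_right (X : H →L[ℂ] H) (v w : H) : ⟪v, star X w⟫_ℂ = ⟪X v, w⟫_ℂ := by
  rw [ContinuousLinearMap.star_eq_adjoint, ContinuousLinearMap.adjoint_inner_right]

lemma comm_apply {P : VonNeumannAlgebra H} {x y : H →L[ℂ] H} (hx : x ∈ P)
    (hy : y ∈ P.commutant) (v : H) : x (y v) = y (x v) :=
  congrArg (fun T : H →L[ℂ] H => T v) (comm_of_mem hx hy)

/-- the projection onto the closure of `N Ξ` -/
lemma exists_proj (N : VonNeumannAlgebra H) (Ξ : H) :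
    ∃ P ∈ N.commutant, star P = P ∧ (∀ v, ‖P v‖ ≤ ‖v‖) ∧ (∀ y ∈ N, P (y Ξ) = y Ξ) ∧
      ∀ m ∈ N.commutant, (∀ y ∈ N, ⟪m Ξ, y Ξ⟫_ℂ = 0) → P * m * P = 0 := by
  let S : Submodule ℂ H := (Submodule.span ℂ {v : H | ∃ y ∈ N, v = y Ξ}).topologicalClosure
  have hS : ∀ (x : H →L[ℂ] H) (T : Submodule ℂ H), IsClosed (T : Set H) →
      (∀ y ∈ N, x (y Ξ) ∈ T) → ∀ η ∈ S, x η ∈ T := by
    intro x T hT h η hη
    have : S ≤ T.comap x.toLinearMap := by
      refine Submodule.topologicalClosure_minimal _ (Submodule.span_le.2 ?_)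
        (hT.preimage x.continuous)
      rintro _ ⟨y, hy, rfl⟩
      exact h y hy
    exact this hη
  have hmem : ∀ y ∈ N, y Ξ ∈ S := fun y hy =>
    Submodule.le_topologicalClosure _ (Submodule.subset_span ⟨y, hy, rfl⟩)
  have hproj : IsStarProjection S.starProjection := isStarProjection_starProjection
  have hP : S.starProjection ∈ N.commutant := by
    rw [VonNeumannAlgebra.IsStarProjection.mem_iff hproj, VonNeumannAlgebra.commutant_commutant]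
    intro y hy
    rw [Submodule.range_starProjection, Module.End.mem_invtSubmodule]
    intro η hη
    exact hS y S (Submodule.isClosed_topologicalClosure _)
      (fun y' hy' => hmem _ (mul_mem hy hy')) η hη
  refine ⟨S.starProjection, hP, hproj.isSelfAdjoint.star_eq, S.norm_starProjection_apply_le,
    fun y hy => Submodule.starProjection_eq_self_iff.2 (hmem y hy), fun m hm h0 => ?_⟩
  have h1 : S.starProjection (m Ξ) = 0 := by
    rw [Submodule.starProjection_apply_eq_zero_iff, Submodule.mem_orthogonal']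
    intro η hη
    exact Submodule.mem_orthogonal_singleton_iff_inner_right.1
      (hS 1 (ℂ ∙ m Ξ)ᗮ (Submodule.isClosed_orthogonal _)
        (fun y hy => Submodule.mem_orthogonal_singleton_iff_inner_right.2 (h0 y hy)) η hη)
  ext η
  have := hS (S.starProjection * m) ⊥ (by simp) (fun y hy => by
    rw [← comm_apply hy (mul_mem hP hm), mul_apply_eq_comp, h1, map_zero]
    exact Submodule.zero_mem _) _ (S.starProjection_apply_mem η)
  simpa using this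

/-- a tensor which is killed by all slice maps is killed by all sesquilinear forms -/
lemma sum_sesq_eq_zero {V W J : Type*} [AddCommGroup V] [Module ℂ V] [AddCommGroup W] [Module ℂ W]
    [Fintype J] (Φ : W →ₗ⋆[ℂ] V →ₗ[ℂ] ℂ) (η : J → W) (u : J → V)
    (h : ∀ l : V →ₗ[ℂ] ℂ, ∑ j, conj (l (u j)) • η j = 0) : ∑ j, Φ (η j) (u j) = 0 := by
  classical
  let b := Module.Basis.ofVectorSpace ℂ V
  let s := Finset.univ.biUnion fun j => (b.repr (u j)).support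
  have h1 : ∀ j, u j = ∑ i ∈ s, b.coord i (u j) • b i := by
    intro j
    conv_lhs => rw [← b.linearCombination_repr (u j), Finsupp.linearCombination_apply]
    rw [Finsupp.sum_of_support_subset _ (Finset.subset_biUnion_of_mem
      (fun j => (b.repr (u j)).support) (Finset.mem_univ j)) _ (by simp)]
    rfl
  have h2 : ∀ j, Φ (η j) (u j) = ∑ i ∈ s, Φ (conj (b.coord i (u j)) • η j) (b i) := by
    intro j
    conv_lhs => rw [h1 j]
    rw [map_sum]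
    refine Finset.sum_congr rfl fun i _ => ?_
    rw [map_smul, LinearMap.map_smulₛₗ, LinearMap.smul_apply, Complex.conj_conj]
  simp only [h2]
  rw [Finset.sum_comm]
  refine Finset.sum_eq_zero fun i _ => ?_
  rw [← LinearMap.sum_apply, ← map_sum, h, map_zero, LinearMap.zero_apply]

/-- the extension of the functional `y ↦ ⟪η, y Ξ⟫` -/
def eps (A : H →L[ℂ] H) (D : H →ₗ⋆[ℂ] H) (Ξ : H) : H →ₗ⋆[ℂ] (H →L[ℂ] H) →ₗ[ℂ] ℂ :=
  LinearMap.mk₂'ₛₗ (starRingEnd ℂ) (RingHom.id ℂ)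
    (fun η T => (⟪A η, T Ξ⟫_ℂ + ⟪Ξ, T (D η)⟫_ℂ) / 2)
    (fun η η' T => by simp only [map_add, inner_add_left, inner_add_right]; ring)
    (fun c η T => by
      simp only [map_smul, LinearMap.map_smulₛₗ, inner_smul_left, inner_smul_right, smul_eq_mul]
      ring)
    (fun η T T' => by
      simp only [add_apply, inner_add_right]; ring)
    (fun c η T => by
      simp only [smul_apply, inner_smul_right, smul_eq_mul, RingHom.id_apply]
      ring)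

lemma eps_apply (A : H →L[ℂ] H) (D : H →ₗ⋆[ℂ] H) (Ξ η : H) (T : H →L[ℂ] H) :
    eps A D Ξ η T = (⟪A η, T Ξ⟫_ℂ + ⟪Ξ, T (D η)⟫_ℂ) / 2 := rfl

variable {N : VonNeumannAlgebra H} {Ξ : H} {A : H →L[ℂ] H} {D : H →ₗ⋆[ℂ] H}

lemma eps_mem (h : IsRvD N Ξ A D) (η : H) {y : H →L[ℂ] H} (hy : y ∈ N) :
    eps A D Ξ η y = ⟪η, y Ξ⟫_ℂ := by
  have h1 := congrArg conj (h.eqn η y hy)
  simp only [map_add, map_mul, inner_conj_symm, map_ofNat, inner_star_left] at h1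
  rw [eps_apply, h1]
  ring

lemma norm_eps_le (h : IsRvD N Ξ A D) (η : H) (T : H →L[ℂ] H) {s : ℝ} (hs : 0 < s) :
    ‖eps A D Ξ η T‖ ≤ ‖T‖ * ‖Ξ‖ * ((⟪A η, η⟫_ℂ).re / (2 * s) + s / 2) := by
  have h1 : ‖⟪A η, T Ξ⟫_ℂ‖ ≤ ‖A η‖ * (‖T‖ * ‖Ξ‖) :=
    (norm_inner_le_norm _ _).trans (mul_le_mul_of_nonneg_left (T.le_opNorm _) (norm_nonneg _))
  have h2 : ‖⟪Ξ, T (D η)⟫_ℂ‖ ≤ ‖Ξ‖ * (‖T‖ * ‖D η‖) :=
    (norm_inner_le_norm _ _).trans (mul_le_mul_of_nonneg_left (T.le_opNorm _) (norm_nonneg _))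
  have h3 : (‖A η‖ + ‖D η‖) / 2 ≤ (⟪A η, η⟫_ℂ).re / (2 * s) + s / 2 := by
    have h4 := h.norm_sq η
    rw [div_add' _ _ _ (by positivity), le_div_iff₀ (by positivity)]
    nlinarith [sq_nonneg (‖A η‖ - s), sq_nonneg (‖D η‖ - s)]
  rw [eps_apply, norm_div, Complex.norm_ofNat]
  refine le_trans ?_ (mul_le_mul_of_nonneg_left h3 (by positivity))
  have h5 := norm_add_le ⟪A η, T Ξ⟫_ℂ ⟪Ξ, T (D η)⟫_ℂ
  linarith

lemma sum_norm_mul_le {J : Type*} [Fintype J] {c c' : J → (H →L[ℂ] H)} {C : ℝ} (hC : 0 ≤ C)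
    (hc : ∀ w, ∑ j, ‖c j w‖ ^ 2 ≤ C * ‖w‖ ^ 2) (hc' : ∀ w, ∑ j, ‖c' j w‖ ^ 2 ≤ C * ‖w‖ ^ 2)
    (v w : H) : ∑ j, ‖c' j v‖ * ‖c j w‖ ≤ C * (‖v‖ * ‖w‖) := by
  refine (pow_le_pow_iff_left₀ (by positivity) (by positivity) two_ne_zero).1 ?_
  refine (Finset.sum_mul_sq_le_sq_mul_sq _ _ _).trans ?_
  refine (mul_le_mul (hc' v) (hc w) (by positivity) (by positivity)).trans (le_of_eq ?_)
  ring

lemma norm_sum_star_mul_self_le {J : Type*} [Fintype J] {X : J → (H →L[ℂ] H)} {C : ℝ}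
    (hC : 0 ≤ C) (hX : ∀ w, ∑ j, ‖X j w‖ ^ 2 ≤ C * ‖w‖ ^ 2) : ‖∑ j, star (X j) * X j‖ ≤ C := by
  refine ContinuousLinearMap.opNorm_le_bound _ hC fun v => ?_
  set z := (∑ j, star (X j) * X j) v with hz
  have h1 : ‖z‖ ^ 2 ≤ C * (‖z‖ * ‖v‖) := by
    refine le_trans ?_ (sum_norm_mul_le hC hX hX z v)
    rw [← re_inner_self]
    conv_lhs => rw [hz]
    rw [← hz]
    nth_rewrite 2 [hz]
    rw [sum_apply, inner_sum, Complex.re_sum]
    refine Finset.sum_le_sum fun j _ => ?_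
    rw [mul_apply_eq_comp, inner_star_right]
    exact (Complex.re_le_norm _).trans (norm_inner_le_norm _ _)
  rcases (norm_nonneg z).eq_or_lt with h0 | h0
  · rw [← h0]; positivity
  · refine le_of_mul_le_mul_left ?_ h0
    nlinarith

/-- consequence of the linear Radon-Nikodym theorem -/
lemma rn_sum (hS : SuppStmt.{u}) (hRN : RNStmt.{u}) (h : IsRvD N Ξ A D) {J : Type*} [Fintype J]
    {X : J → (H →L[ℂ] H)} (hXm : ∀ j, X j ∈ N.commutant) {C : ℝ} (hC : 0 ≤ C)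
    (hX : ∀ w, ∑ j, ‖X j w‖ ^ 2 ≤ C * ‖w‖ ^ 2) {Y : H →L[ℂ] H} (hY : Y ∈ N.commutant) :
    ∑ j, (⟪A ((star (X j) * X j) Ξ), (star Y * Y) Ξ⟫_ℂ).re ≤ C * ‖Y Ξ‖ ^ 2 := by
  obtain ⟨p, hp⟩ := hS H N Ξ
  obtain ⟨y, hy, -, hn, -, he⟩ := hRN H N Ξ A D h p hp (∑ j, star (X j) * X j)
    (sum_mem fun j _ => mul_mem (star_mem (hXm j)) (hXm j))
    (Finset.sum_nonneg fun j _ => star_mul_self_nonneg _)
  rw [← Complex.re_sum, ← sum_inner, ← map_sum, ← sum_apply, ← he,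
    mul_apply_eq_comp, inner_star_right, ← comm_apply hy hY]
  refine (Complex.re_le_norm _).trans ((norm_inner_le_norm _ _).trans ?_)
  have h1 := y.le_of_opNorm_le (hn.trans (norm_sum_star_mul_self_le hC hX)) (Y Ξ)
  nlinarith [norm_nonneg (Y Ξ)]

lemma re_inner_symm (h : IsRvD N Ξ A D) (α β : H) :
    (⟪A α, β⟫_ℂ).re = (⟪A β, α⟫_ℂ).re := by
  rw [h.inner_symm, ← inner_conj_symm, Complex.conj_re]

/-- step (1): the relation kills the sum over a letter -/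
lemma step1 {J : Type*} [Fintype J] {u c c' : J → (H →L[ℂ] H)} {P : H →L[ℂ] H} (hPs : star P = P)
    (hP : ∀ m ∈ N.commutant, (∀ y ∈ N, ⟪m Ξ, y Ξ⟫_ℂ = 0) → P * m * P = 0)
    (hc : ∀ j, c j ∈ N.commutant) (hc' : ∀ j, c' j ∈ N.commutant)
    (hR : ∀ y ∈ N, ∑ j, ⟪c' j Ξ, y (c j Ξ)⟫_ℂ • u j = 0) (A : H →L[ℂ] H) (D : H →ₗ⋆[ℂ] H)
    (a b wa wb : H →L[ℂ] H) :
    ∑ j, eps A D Ξ ((star (c j * (P * wb)) * (c' j * (P * wa))) Ξ) (a * u j * b) = 0 := by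
  have := sum_sesq_eq_zero ((eps A D Ξ).compl₂ ((LinearMap.mulRight ℂ b).comp (LinearMap.mulLeft ℂ a)))
    (fun j => (star (c j * (P * wb)) * (c' j * (P * wa))) Ξ) u fun l => ?_
  · exact this
  have h1 := hP (∑ j, conj (l (u j)) • (star (c j) * c' j))
    (sum_mem fun j _ => vn_smul_mem _ (mul_mem (star_mem (hc j)) (hc' j))) fun y hy => by
      have h2 := congrArg l (hR y hy)
      rw [map_sum, map_zero] at h2
      rw [sum_apply, sum_inner, ← h2]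
      refine Finset.sum_congr rfl fun j _ => ?_
      rw [smul_apply, inner_smul_left, Complex.conj_conj,
        mul_apply_eq_comp, inner_star_left, ← comm_apply hy (hc j), map_smul,
        smul_eq_mul, mul_comm]
  have h3 : ∑ j, conj (l (u j)) • (star (c j * (P * wb)) * (c' j * (P * wa))) =
      star wb * (P * (∑ j, conj (l (u j)) • (star (c j) * c' j)) * P) * wa := by
    simp only [Finset.mul_sum, Finset.sum_mul, mul_smul_comm, smul_mul_assoc, star_mul, hPs,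
      mul_assoc]
  have h4 := congrArg (fun T : H →L[ℂ] H => T Ξ) h3
  rw [h1, mul_zero, zero_mul] at h4
  simpa only [sum_apply, smul_apply,
    zero_apply] using h4

lemma norm_unitary_apply {a : H →L[ℂ] H} (ha : a ∈ unitary (H →L[ℂ] H)) (v : H) :
    ‖a v‖ = ‖v‖ := by
  refine (pow_left_inj₀ (norm_nonneg _) (norm_nonneg _) two_ne_zero).1 ?_
  rw [← re_inner_self, ← re_inner_self, ← inner_star_right, ← mul_apply_eq_comp,
    Unitary.star_mul_self_of_mem ha, one_apply_eq_self]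

lemma norm_unitary_le {a : H →L[ℂ] H} (ha : a ∈ unitary (H →L[ℂ] H)) : ‖a‖ ≤ 1 :=
  ContinuousLinearMap.opNorm_le_bound _ zero_le_one fun v => by
    rw [norm_unitary_apply ha, one_mul]

/-- the projected partner vector is close to the original one -/
lemma proj_close {P x x' y w : H →L[ℂ] H} {δ κ : ℝ} (hΞ : ‖Ξ‖ ≤ 2) (hδ : 0 ≤ δ)
    (hPn : ∀ v, ‖P v‖ ≤ ‖v‖) (hPy : P (y Ξ) = y Ξ) (hy : ‖x - y‖ ≤ δ) (hw : ‖x' - w‖ ≤ δ)
    (hκ : ‖x' Ξ - x Ξ‖ ≤ κ) : ‖(P * w) Ξ - x Ξ‖ ≤ 6 * δ + κ := by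
  have h1 : ‖x Ξ - y Ξ‖ ≤ 2 * δ := by
    have := (x - y).le_of_opNorm_le hy Ξ
    rw [sub_apply] at this
    nlinarith
  have h2 : ‖x' Ξ - w Ξ‖ ≤ 2 * δ := by
    have := (x' - w).le_of_opNorm_le hw Ξ
    rw [sub_apply] at this
    nlinarith
  have h3 : (P * w) Ξ - x Ξ = P ((x Ξ - y Ξ) + (x' Ξ - x Ξ) - (x' Ξ - w Ξ)) - (x Ξ - y Ξ) := by
    simp only [map_sub, map_add, hPy, mul_apply_eq_comp]
    abel
  rw [h3]
  refine (norm_sub_le _ _).trans ?_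
  have h4 := hPn ((x Ξ - y Ξ) + (x' Ξ - x Ξ) - (x' Ξ - w Ξ))
  have h5 := norm_sub_le ((x Ξ - y Ξ) + (x' Ξ - x Ξ)) (x' Ξ - w Ξ)
  have h6 := norm_add_le (x Ξ - y Ξ) (x' Ξ - x Ξ)
  linarith

/-- step (2): the value on the partner of the word -/
lemma step2 {M : VonNeumannAlgebra H} (h : IsRvD N Ξ A D) {J : Type*} [Fintype J]
    {u c c' Wt : J → (H →L[ℂ] H)} {a b Qa Qb : H →L[ℂ] H} {δ κ κ' C : ℝ} (hΞ : ‖Ξ‖ ≤ 2)
    (hδ : 0 ≤ δ) (hC : 0 ≤ C) (hu : ∀ j, u j ∈ unitary (H →L[ℂ] H)) (ha : a ∈ M)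
    (ha' : a ∈ unitary (H →L[ℂ] H)) (hb : b ∈ M) (hb' : b ∈ unitary (H →L[ℂ] H))
    (hcM : ∀ j, c j ∈ M.commutant) (hcN : ∀ j, c j ∈ N.commutant)
    (hc'M : ∀ j, c' j ∈ M.commutant) (hQb : Qb ∈ N.commutant)
    (hc : ∀ w, ∑ j, ‖c j w‖ ^ 2 ≤ C * ‖w‖ ^ 2) (hc' : ∀ w, ∑ j, ‖c' j w‖ ^ 2 ≤ C * ‖w‖ ^ 2)
    (hW : ∀ j, Wt j ∈ N ∧ ‖a * u j * b - Wt j‖ ≤ δ) (h4a : ‖Qa Ξ‖ ≤ 4) (h4b : ‖Qb Ξ‖ ≤ 4)
    (hκ : ‖Qa Ξ - a Ξ‖ ≤ κ) (hκ' : ‖Qb Ξ - star b Ξ‖ ≤ κ') :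
    ‖∑ j, eps A D Ξ ((star (c j * Qb) * (c' j * Qa)) Ξ) (Wt j) - ∑ j, ⟪c' j Ξ, u j (c j Ξ)⟫_ℂ‖ ≤
      C * (16 * δ + 4 * κ + 2 * κ') := by
  have key : ∀ j, ‖eps A D Ξ ((star (c j * Qb) * (c' j * Qa)) Ξ) (Wt j) - ⟪c' j Ξ, u j (c j Ξ)⟫_ℂ‖ ≤
      δ * (‖c' j (Qa Ξ)‖ * ‖c j (Qb Ξ)‖) + ‖c' j (Qa Ξ - a Ξ)‖ * ‖c j (Qb Ξ)‖ +
        ‖c' j (a Ξ)‖ * ‖c j (Qb Ξ - star b Ξ)‖ := by
    intro j
    have hWu : a * u j * b ∈ unitary (H →L[ℂ] H) := mul_mem (mul_mem ha' (hu j)) hb'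
    have e1 : eps A D Ξ ((star (c j * Qb) * (c' j * Qa)) Ξ) (Wt j) =
        ⟪c' j (Qa Ξ), Wt j (c j (Qb Ξ))⟫_ℂ := by
      rw [eps_mem h _ (hW j).1, mul_apply_eq_comp, inner_star_left,
        ← comm_apply (hW j).1 (mul_mem (hcN j) hQb)]
      rfl
    have e2 : ⟪c' j Ξ, u j (c j Ξ)⟫_ℂ = ⟪c' j (a Ξ), (a * u j * b) (c j (star b Ξ))⟫_ℂ := by
      have e : star a * (a * u j * b) * star b = u j := by
        rw [← mul_assoc, ← mul_assoc, Unitary.star_mul_self_of_mem ha', one_mul, mul_assoc,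
          Unitary.mul_star_self_of_mem hb', mul_one]
      rw [← comm_apply ha (hc'M j), ← comm_apply (star_mem hb) (hcM j), ← inner_star_right a]
      conv_lhs => rw [← e]
      rfl
    have e3 : ⟪c' j (Qa Ξ), Wt j (c j (Qb Ξ))⟫_ℂ -
        ⟪c' j (a Ξ), (a * u j * b) (c j (star b Ξ))⟫_ℂ =
        -⟪c' j (Qa Ξ), (a * u j * b - Wt j) (c j (Qb Ξ))⟫_ℂ +
          ⟪c' j (Qa Ξ - a Ξ), (a * u j * b) (c j (Qb Ξ))⟫_ℂ +
          ⟪c' j (a Ξ), (a * u j * b) (c j (Qb Ξ - star b Ξ))⟫_ℂ := by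
      simp only [map_sub, inner_sub_left, inner_sub_right, sub_apply]
      ring
    rw [e1, e2, e3]
    refine (norm_add₃_le).trans (add_le_add (add_le_add ?_ ?_) ?_)
    · rw [norm_neg]
      refine (norm_inner_le_norm _ _).trans ?_
      have := mul_le_mul_of_nonneg_left
        ((a * u j * b - Wt j).le_of_opNorm_le (hW j).2 (c j (Qb Ξ))) (norm_nonneg (c' j (Qa Ξ)))
      linarith
    · refine (norm_inner_le_norm _ _).trans ?_
      rw [norm_unitary_apply hWu]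
    · refine (norm_inner_le_norm _ _).trans ?_
      rw [norm_unitary_apply hWu]
  rw [← Finset.sum_sub_distrib]
  refine (norm_sum_le _ _).trans ((Finset.sum_le_sum fun j _ => key j).trans ?_)
  rw [Finset.sum_add_distrib, Finset.sum_add_distrib, ← Finset.mul_sum]
  have h1 := sum_norm_mul_le hC hc hc' (Qa Ξ) (Qb Ξ)
  have h2 := sum_norm_mul_le hC hc hc' (Qa Ξ - a Ξ) (Qb Ξ)
  have h3 := sum_norm_mul_le hC hc hc' (a Ξ) (Qb Ξ - star b Ξ)
  rw [norm_unitary_apply ha'] at h3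
  have h1' : ‖Qa Ξ‖ * ‖Qb Ξ‖ ≤ 4 * 4 := mul_le_mul h4a h4b (norm_nonneg _) (by norm_num)
  have h2' : ‖Qa Ξ - a Ξ‖ * ‖Qb Ξ‖ ≤ κ * 4 :=
    mul_le_mul hκ h4b (norm_nonneg _) ((norm_nonneg _).trans hκ)
  have h3' : ‖Ξ‖ * ‖Qb Ξ - star b Ξ‖ ≤ 2 * κ' := mul_le_mul hΞ hκ' (norm_nonneg _) (by norm_num)
  have h5 := mul_le_mul_of_nonneg_left (h1.trans (mul_le_mul_of_nonneg_left h1' hC)) hδ
  have h6 := mul_le_mul_of_nonneg_left h2' hC
  have h7 := mul_le_mul_of_nonneg_left h3' hC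
  linarith

/-- Markov type two for a selfadjoint contraction -/
lemma markov {T : H →L[ℂ] H} (hT : IsSelfAdjoint T) (hn : ‖T‖ ≤ 1) (v : H) (l : ℕ) :
    ‖v‖ ^ 2 - (⟪v, (T ^ l) v⟫_ℂ).re ≤ l * (‖v‖ ^ 2 - (⟪v, T v⟫_ℂ).re) := by
  have pos : ∀ S : H →L[ℂ] H, IsSelfAdjoint S → ‖S‖ ≤ 1 → 0 ≤ 1 - S := by
    intro S hS hS1
    rw [ContinuousLinearMap.nonneg_iff_isPositive, ContinuousLinearMap.isPositive_def']
    refine ⟨(IsSelfAdjoint.one _).sub hS, fun x => ?_⟩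
    rw [ContinuousLinearMap.reApplyInnerSelf_apply, sub_apply, inner_sub_left,
      one_apply_eq_self, RCLike.re_to_complex, Complex.sub_re, re_inner_self]
    have h1 := (Complex.re_le_norm _).trans (norm_inner_le_norm (𝕜 := ℂ) (S x) x)
    have h2 := S.le_of_opNorm_le hS1 x
    nlinarith [norm_nonneg x]
  have hp : ∀ i : ℕ, ‖T ^ i‖ ≤ 1 := by
    intro i
    induction i with
    | zero => rw [pow_zero]; exact ContinuousLinearMap.norm_id_le
    | succ i ih =>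
      rw [pow_succ]
      exact (norm_mul_le _ _).trans (mul_le_one₀ ih (norm_nonneg _) hn)
  induction l with
  | zero => rw [pow_zero, one_apply_eq_self, re_inner_self, sub_self, Nat.cast_zero, zero_mul]
  | succ l ih =>
    have h1 : 0 ≤ (1 - T ^ l) * (1 - T) :=
      Commute.mul_nonneg (pos _ (hT.pow l) (hp l)) (pos _ hT hn)
        (((Commute.one_left _).sub_left
          ((Commute.one_right _).sub_right (Commute.self_pow T l).symm)))
    have h2 := ((ContinuousLinearMap.nonneg_iff_isPositive _).1 h1).re_inner_nonneg_right v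
    have h3 : (1 - T ^ l) * (1 - T) = 1 - T - T ^ l + T ^ (l + 1) := by
      rw [pow_succ]; noncomm_ring
    rw [h3] at h2
    simp only [add_apply, sub_apply,
      one_apply_eq_self, inner_add_right, inner_sub_right, RCLike.re_to_complex,
      Complex.add_re, Complex.sub_re, re_inner_self] at h2
    rw [Nat.cast_succ]
    linarith

end Crest.Agent.R78.LA
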