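import Crest.Agent.R78.Core4
import Crest.Agent.R78.Shift

/-! The concrete near inclusion. -/

set_option autoImplicit false

noncomputable section

namespace Crest.Agent.R78

open TopologicalSpace InnerProductSpace R73 Finset
open scoped InnerProductSpace

lemma compact_rankOne {H : Type} [NormedAddCommGroup H] [InnerProductSpace ℂ H] (x y : H) :
    IsCompactOperator (rankOne ℂ x y) := by
  rw [rankOne_def']
  exact (isCompactOperator_of_locallyCompactSpace_dom (innerSL ℂ y)).clm_comp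
    (ContinuousLinearMap.toSpanSingleton ℂ x)

lemma compact_sum {H : Type} [NormedAddCommGroup H] [InnerProductSpace ℂ H] (s : Finset ℕ)
    (f : ℕ → H →L[ℂ] H) (h : ∀ n, IsCompactOperator (f n)) :
    IsCompactOperator (∑ n ∈ s, f n : H →L[ℂ] H) :=
  (compactOperator (RingHom.id ℂ) H H).sum_mem fun n _ => h n

theorem near_inclusion (m : ℕ) (hm : (10000 : ℝ) ≤ m) :
    ∃ (H : Type) (_ : NormedAddCommGroup H) (_ : InnerProductSpace ℂ H) (_ : CompleteSpace H)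
      (_ : SeparableSpace H) (M N : VonNeumannAlgebra H),
      (∀ x ∈ M, ‖x‖ ≤ 1 → ∃ y ∈ N, ‖x - y‖ ≤ 5 * (1 / m)) ∧
      ∀ u : H →L[ℂ] H, u ∈ unitary (H →L[ℂ] H) →
        (∀ x ∈ M, u * x * star u ∈ N) → 1 / 10000 ≤ ‖u - 1‖ := by
  have hm0 : (0 : ℝ) < m := by linarith
  obtain ⟨I, _, _, _, hI⟩ : ∃ (I : Type) (_ : Fintype I) (_ : DecidableEq I) (_ : Countable I),
      10000 ≤ √(Fintype.card I) := ⟨Fin (10000 ^ 2), inferInstance, inferInstance, inferInstance,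
    Real.le_sqrt_of_sq_le (by rw [Fintype.card_fin]; norm_num)⟩
  let e : HilbertBasis (List I) ℂ (L2 (List I)) := default
  have := sep_of_basis e
  have := sep_of_basis (default : HilbertBasis ℕ ℂ (L2 ℕ))
  obtain ⟨E, _, _, _, _, ⟨T₁⟩⟩ := exists_TP (L2 (List I)) (L2 (List I))
  obtain ⟨E', _, _, _, _, ⟨T₂⟩⟩ := exists_TP E (L2 ℕ)
  obtain ⟨H, i1, i2, i3, i4, ⟨T₃⟩⟩ := exists_TP E E'
  obtain ⟨S, T, hS, hS0, nT, hT, c, hc⟩ := exists_shift m (by exact_mod_cast hm0)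
  let φ : Fin 4 → (L2 (List I) →L[ℂ] L2 (List I)) →⋆ₐ[ℂ] (H →L[ℂ] H) :=
    ![T₃.L.comp T₁.L, T₃.L.comp T₁.R, T₃.R.comp (T₂.L.comp T₁.L), T₃.R.comp (T₂.L.comp T₁.R)]
  let γ := T₃.R.comp T₂.R
  have hφ : ∀ i j, i ≠ j → ∀ x y, Commute (φ i x) (φ j y) := by
    intro i j h x y
    fin_cases i <;> fin_cases j <;>
      first
        | exact absurd rfl h
        | exact T₃.comm _ _
        | exact (T₃.comm _ _).symm
        | exact (T₁.comm _ _).map T₃.L
        | exact (T₁.comm _ _).symm.map T₃.L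
        | exact ((T₁.comm _ _).map T₂.L).map T₃.R
        | exact ((T₁.comm _ _).symm.map T₂.L).map T₃.R
  have hγ : ∀ y i x, Commute (φ i x) (γ y) := by
    intro y i x
    fin_cases i <;>
      first
        | exact T₃.comm _ _
        | exact (T₂.comm _ _).map T₃.R
  set Ω := T₁.tm (e []) (e []) with hΩ
  have n0 : ‖e []‖ = 1 := e.orthonormal.1 []
  have hP : (fock e).P (e []) = e [] := by simp [fock_P, n0]
  have hr : ∀ x y, γ (rankOne ℂ x y) * (φ 0 (fock e).P * φ 1 (fock e).P *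
      (φ 2 (fock e).P * φ 3 (fock e).P)) =
      rankOne ℂ (T₃.tm Ω (T₂.tm Ω x)) (T₃.tm Ω (T₂.tm Ω y)) := fun x y => by
    show T₃.R (T₂.R _) * (T₃.L (T₁.L _) * T₃.L (T₁.R _) *
      (T₃.R (T₂.L (T₁.L _)) * T₃.R (T₂.L (T₁.R _)))) = _
    rw [← map_mul, ← map_mul, ← map_mul, fock_P, T₁.rankOne_mul, ← mul_assoc,
      ← (T₃.comm _ _).eq, mul_assoc, ← map_mul, ← (T₂.comm _ _).eq, T₂.rankOne_mul,
      T₃.rankOne_mul]
  let B₁ := (2⁻¹ : ℂ) • (T + star T)
  let B₂ := (-Complex.I / 2) • (T - star T)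
  have hB : γ B₁ + Complex.I • γ B₂ - γ S = γ (T - S) := by
    rw [← map_smul, ← map_add, ← map_sub]
    congr 2
    simp only [B₁, B₂, smul_smul, mul_div, mul_neg, Complex.I_mul_I]
    module
  have hK : (γ B₁ + Complex.I • γ B₂ - γ S) * (φ 0 (fock e).P * φ 1 (fock e).P *
      (φ 2 (fock e).P * φ 3 (fock e).P)) = ∑ n ∈ range m,
      rankOne ℂ (T₃.tm Ω (T₂.tm Ω (c n • dl (n + 1)))) (T₃.tm Ω (T₂.tm Ω (dl n))) := by
    rw [hB, hc, map_sum, sum_mul]
    simp only [hr]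
  have nγ : ∀ x, ‖γ x‖ ≤ ‖x‖ := NonUnitalStarAlgHom.norm_apply_le γ
  refine ⟨H, i1, i2, i3, i4, core4 (fock e) φ hφ (S := γ S) (B₁ := γ B₁) (B₂ := γ B₂)
    (by rw [← map_star, ← map_mul, hS, map_one]) ((nγ _).trans ?_) ((nγ _).trans ?_) ?_ ?_
    (hγ _) (hγ _) (hγ _) ?_ (one_div_le_one_div_of_le (by norm_num) hm) ?_ ?_
    (v := T₃.tm Ω (T₂.tm Ω (dl 0))) ?_ ?_ ?_ hI⟩
  · have := norm_add_le_of_le nT ((norm_star _).le.trans nT)
    rw [norm_smul, norm_inv, Complex.norm_ofNat]; linarith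
  · have := norm_sub_le_of_le nT ((norm_star _).le.trans nT)
    rw [norm_smul, norm_div, norm_neg, Complex.norm_I, Complex.norm_ofNat]; linarith
  · rw [← map_star]; congr 1; simp [B₁, add_comm]
  · rw [← map_star]; congr 1
    simp only [B₂, star_smul, star_sub, star_star, star_div₀, star_neg, Complex.star_def,
      Complex.conj_I, map_ofNat]
    module
  · rw [← map_mul, ← map_mul, ← map_sub]
    refine (nγ _).trans ?_
    have : B₁ * B₂ - B₂ * B₁ = (-Complex.I / 2) • (star T * T - T * star T) := by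
      simp only [B₁, B₂, smul_mul_smul_comm, mul_add, add_mul, mul_sub, sub_mul]
      module
    rw [this, norm_smul, norm_div, norm_neg, Complex.norm_I, Complex.norm_ofNat]
    rw [div_eq_mul_one_div] at hT
    linarith
  · rw [hK]; exact compact_sum _ _ fun n => compact_rankOne _ _
  · rw [hK, star_sum]
    refine compact_sum _ _ fun n => ?_
    rw [ContinuousLinearMap.star_eq_adjoint, adjoint_rankOne]
    exact compact_rankOne _ _
  · rw [← norm_ne_zero_iff, T₃.norm_tm, T₂.norm_tm, hΩ, T₁.norm_tm, n0, orthonormal_dl.1 0]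
    norm_num
  · intro i
    fin_cases i
    · show T₃.L (T₁.L _) _ = _
      rw [T₃.L_tm, hΩ, T₁.L_tm, hP]
    · show T₃.L (T₁.R _) _ = _
      rw [T₃.L_tm, hΩ, T₁.R_tm, hP]
    · show T₃.R (T₂.L (T₁.L _)) _ = _
      rw [T₃.R_tm, T₂.L_tm, hΩ, T₁.L_tm, hP]
    · show T₃.R (T₂.L (T₁.R _)) _ = _
      rw [T₃.R_tm, T₂.L_tm, hΩ, T₁.R_tm, hP]
  · rw [← map_star]
    show T₃.R (T₂.R _) _ = _
    rw [T₃.R_tm, T₂.R_tm, hS0, map_zero, map_zero]

end Crest.Agent.R78
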