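import Crest.Agent.R78.RvD

/-!
# Row 78: Sakai's linear Radon–Nikodym theorem for the Rieffel–van Daele operator
-/

set_option autoImplicit false
set_option linter.unusedSectionVars false

open scoped InnerProductSpace Topology ComplexConjugate
open Filter

noncomputable section

namespace Crest.Agent.R78

open Crest.Agent.R124

universe u

section
variable {H : Type u} [NormedAddCommGroup H] [InnerProductSpace ℂ H] [CompleteSpace H]

lemma rn_star_left (a : H →L[ℂ] H) (ζ η : H) : ⟪(star a) ζ, η⟫_ℂ = ⟪ζ, a η⟫_ℂ := by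
  rw [ContinuousLinearMap.star_eq_adjoint, ContinuousLinearMap.adjoint_inner_left]

lemma rn_sa {a : H →L[ℂ] H} (ha : IsSelfAdjoint a) (ζ η : H) : ⟪a ζ, η⟫_ℂ = ⟪ζ, a η⟫_ℂ := by
  conv_lhs => rw [← ha.star_eq]
  exact rn_star_left a ζ η

/-- Bounded families of vectors have weak limits along ultrafilters. -/
lemma rn_weak_vec {ι : Type*} (U : Ultrafilter ι) (v : ι → H) (R : ℝ) (hR : 0 ≤ R)
    (h : ∀ i, ‖v i‖ ≤ R) :
    ∃ w : H, ‖w‖ ≤ R ∧ ∀ ζ, Tendsto (fun i => ⟪ζ, v i⟫_ℂ) (U : Filter ι) (𝓝 ⟪ζ, w⟫_ℂ) := by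
  have h1 : ∀ ζ : H, ∃ L : ℂ, ‖L‖ ≤ R * ‖ζ‖ ∧
      Tendsto (fun i => ⟪v i, ζ⟫_ℂ) (U : Filter ι) (𝓝 L) := fun ζ => by
    obtain ⟨L, hL, hl⟩ := (isCompact_closedBall (0 : ℂ) (R * ‖ζ‖)).ultrafilter_le_nhds
      (U.map fun i => ⟪v i, ζ⟫_ℂ) (le_principal_iff.2 ((Eventually.of_forall h).mono fun i hi => by
        refine mem_closedBall_zero_iff.2 ?_
        exact (norm_inner_le_norm _ _).trans
          (mul_le_mul_of_nonneg_right hi (norm_nonneg _))))
    exact ⟨L, mem_closedBall_zero_iff.1 hL, hl⟩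
  choose L hL hl using h1
  let φ : H →ₗ[ℂ] ℂ :=
    { toFun := L
      map_add' := fun a b => tendsto_nhds_unique (hl (a + b))
        (by simpa only [inner_add_right] using (hl a).add (hl b))
      map_smul' := fun t a => tendsto_nhds_unique (hl (t • a))
        (by simpa only [inner_smul_right, RingHom.id_apply, smul_eq_mul]
          using (hl a).const_mul t) }
  refine ⟨(InnerProductSpace.toDual ℂ H).symm (φ.mkContinuous R hL), ?_, fun ζ => ?_⟩
  · rw [LinearIsometryEquiv.norm_map]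
    exact φ.mkContinuous_norm_le hR hL
  · have h2 := (Complex.continuous_conj.tendsto _).comp (hl ζ)
    rw [← inner_conj_symm, InnerProductSpace.toDual_symm_apply]
    simp only [Function.comp_def, inner_conj_symm] at h2
    exact h2

/-- Bounded families of operators have weak operator limits along ultrafilters. -/
lemma rn_weak_op {ι : Type*} (U : Ultrafilter ι) (y : ι → (H →L[ℂ] H)) (r : ℝ) (hr : 0 ≤ r)
    (h : ∀ i, ‖y i‖ ≤ r) :
    ∃ b : H →L[ℂ] H, ‖b‖ ≤ r ∧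
      ∀ ζ η, Tendsto (fun i => ⟪ζ, y i η⟫_ℂ) (U : Filter ι) (𝓝 ⟪ζ, b η⟫_ℂ) := by
  have h1 := fun η : H => rn_weak_vec U (fun i => y i η) (r * ‖η‖) (by positivity)
    (fun i => (ContinuousLinearMap.le_opNorm _ _).trans (by gcongr; exact h i))
  choose T hT hl using h1
  let T' : H →ₗ[ℂ] H :=
    { toFun := T
      map_add' := fun a b => ext_inner_left ℂ fun ζ => tendsto_nhds_unique (hl (a + b) ζ)
        (by simpa only [map_add, inner_add_right] using (hl a ζ).add (hl b ζ))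
      map_smul' := fun t a => ext_inner_left ℂ fun ζ => tendsto_nhds_unique (hl (t • a) ζ)
        (by simpa only [map_smul, inner_smul_right, RingHom.id_apply]
          using (hl a ζ).const_mul t) }
  exact ⟨T'.mkContinuous r hT, T'.mkContinuous_norm_le hr hT, fun ζ η => hl η ζ⟩

/-- The positive part of the ball of `M` applied to `ξ`. -/
def rnK (M : VonNeumannAlgebra H) (ξ : H) (r : ℝ) : Set H :=
  {z | ∃ y ∈ M, 0 ≤ y ∧ ‖y‖ ≤ r ∧ y ξ = z}

lemma rn_isClosed (M : VonNeumannAlgebra H) (ξ : H) {r : ℝ} (hr : 0 ≤ r) :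
    IsClosed (rnK M ξ r) := by
  refine isClosed_of_closure_subset fun z hz => ?_
  obtain ⟨s, hs, hz⟩ := mem_closure_iff_seq_limit.1 hz
  choose y hyM hy0 hyr hyξ using hs
  let U : Ultrafilter ℕ := Ultrafilter.of atTop
  have hU : (U : Filter ℕ) ≤ atTop := Ultrafilter.of_le _
  obtain ⟨b, hb, hl⟩ := rn_weak_op U y r hr hyr
  refine ⟨b, mem_of_comm M _ fun c hc => ?_, ?_, hb, ?_⟩
  · ext η
    refine ext_inner_left ℂ fun ζ => ?_
    change ⟪ζ, c (b η)⟫_ℂ = ⟪ζ, b (c η)⟫_ℂ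
    rw [← rn_star_left]
    refine tendsto_nhds_unique (hl _ η) ((hl ζ (c η)).congr fun n => ?_)
    rw [rn_star_left]
    exact congrArg (fun S : H →L[ℂ] H => ⟪ζ, S η⟫_ℂ) (comm_of_mem (hyM n) hc)
  · rw [ContinuousLinearMap.nonneg_iff_isPositive, ContinuousLinearMap.isPositive_iff_complex]
    intro η
    have h1 : Tendsto (fun n => ⟪y n η, η⟫_ℂ) (U : Filter ℕ) (𝓝 ⟪b η, η⟫_ℂ) := by
      have h2 := (Complex.continuous_conj.tendsto _).comp (hl η η)
      simpa only [Function.comp_def, inner_conj_symm] using h2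
    have h3 : ∀ n, ((⟪y n η, η⟫_ℂ).re : ℂ) = ⟪y n η, η⟫_ℂ ∧ 0 ≤ (⟪y n η, η⟫_ℂ).re := fun n =>
      (ContinuousLinearMap.isPositive_iff_complex _).1
        ((ContinuousLinearMap.nonneg_iff_isPositive _).1 (hy0 n)) η
    have h4 : IsClosed {w : ℂ | (w.re : ℂ) = w ∧ 0 ≤ w.re} :=
      (isClosed_eq (f := fun w : ℂ => (w.re : ℂ)) (by fun_prop) continuous_id).inter
        (isClosed_le continuous_const Complex.continuous_re)
    exact h4.mem_of_tendsto h1 (Eventually.of_forall h3)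
  · refine ext_inner_left ℂ fun ζ => tendsto_nhds_unique (hl ζ ξ) ?_
    have h1 : Tendsto (fun n => ⟪ζ, s n⟫_ℂ) atTop (𝓝 ⟪ζ, z⟫_ℂ) := tendsto_const_nhds.inner hz
    simpa only [hyξ] using h1.mono_left hU

/-- Nearest point of a closed convex set, in complex terms. -/
lemma rn_near (K : Set H) (hne : K.Nonempty) (hK : IsClosed K)
    (hc : ∀ x ∈ K, ∀ y ∈ K, ∀ s t : ℝ, 0 ≤ s → 0 ≤ t → s + t = 1 →
      (s : ℂ) • x + (t : ℂ) • y ∈ K) (α : H) :
    ∃ v ∈ K, ∀ w ∈ K, (⟪α - v, w - v⟫_ℂ).re ≤ 0 := by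
  let _ : InnerProductSpace ℝ H := InnerProductSpace.rclikeToReal ℂ H
  have hconv : Convex ℝ K := fun x hx y hy s t hs ht hst => hc x hx y hy s t hs ht hst
  obtain ⟨v, hv, h⟩ := exists_norm_eq_iInf_of_complete_convex hne hK.isComplete hconv α
  exact ⟨v, hv, (norm_eq_iInf_iff_real_inner_le_zero hconv hv).1 h⟩

/-- The support of the positive part. -/
lemma rn_sign (M : VonNeumannAlgebra H) {x : H →L[ℂ] H} (hx : x ∈ M) (hsa : IsSelfAdjoint x) :
    ∃ q ∈ M, IsStarProjection q ∧ x * q = x⁺ := by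
  have hp0 : 0 ≤ x⁺ := CFC.posPart_nonneg x
  have hn0 : 0 ≤ x⁻ := CFC.negPart_nonneg x
  have hps : star x⁺ = x⁺ := (IsSelfAdjoint.of_nonneg hp0)
  have hns : star x⁻ = x⁻ := (IsSelfAdjoint.of_nonneg hn0)
  have hpn : x⁺ * x⁻ = 0 := CFC.posPart_mul_negPart x
  have hsub : x⁺ - x⁻ = x := CFC.posPart_sub_negPart x hsa
  have hpP : x⁺ ∈ M := by
    refine mem_of_comm M _ fun y hy => ?_
    rw [CFC.posPart_def]
    exact (Commute.cfcₙ_real (comm_of_mem hx hy) _).symm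
  obtain ⟨w, hwP, -, hwk, hwa, hiso, -⟩ := vn1_polar_aux M x⁺ hpP
  rw [CFC.abs_of_nonneg x⁺ hp0] at hwa
  have hrp : IsStarProjection (star w * w) := vn1_isStarProjection_of hiso
  have hrs : star (star w * w) = star w * w := hrp.isSelfAdjoint
  have hrn : star w * w * x⁻ = 0 := by rw [mul_assoc, vn1_mul_eq_zero hwk hpn, mul_zero]
  have hpr : x⁺ * (star w * w) = x⁺ := by
    have := congrArg star hwa
    rwa [star_mul, hps, hrs] at this
  have hnr : x⁻ * (star w * w) = 0 := by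
    have := congrArg star hrn
    rwa [star_mul, hns, hrs, star_zero] at this
  refine ⟨star w * w, mul_mem (star_mem hwP) hwP, hrp, ?_⟩
  conv_lhs => rw [← hsub]
  rw [sub_mul, hpr, hnr, sub_zero]

lemma rn_key (M : VonNeumannAlgebra H) (ξ : H) {a x : H →L[ℂ] H} (ha : a ∈ M.commutant)
    (ha0 : 0 ≤ a) (hx : x ∈ M) (hsa : IsSelfAdjoint x) :
    ∃ z ∈ rnK M ξ ‖a‖, (⟪x ξ, a ξ⟫_ℂ).re ≤ (⟪x ξ, z⟫_ℂ).re := by
  obtain ⟨q, hqM, hq, hxq⟩ := rn_sign M hx hsa
  refine ⟨_, ⟨‖a‖ • q, vn_real_smul_mem _ hqM, smul_nonneg (norm_nonneg a) hq.nonneg, ?_, rfl⟩,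
    ?_⟩
  · rw [norm_smul, norm_norm]
    exact mul_le_of_le_one_right (norm_nonneg a) hq.norm_le
  have hxa : Commute x a := comm_of_mem hx ha
  have hpa : Commute x⁺ a := by rw [CFC.posPart_def]; exact hxa.cfcₙ_real _
  have hna : Commute x⁻ a := by rw [CFC.negPart_def]; exact hxa.cfcₙ_real _
  have h1 : 0 ≤ x⁻ * a := Commute.mul_nonneg (CFC.negPart_nonneg x) ha0 hna
  have h2 : 0 ≤ x⁺ * (algebraMap ℝ (H →L[ℂ] H) ‖a‖ - a) :=
    Commute.mul_nonneg (CFC.posPart_nonneg x)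
      (sub_nonneg.2 (IsSelfAdjoint.of_nonneg ha0).le_algebraMap_norm_self)
      ((Algebra.commutes _ _).symm |> fun h => Commute.sub_right h hpa)
  have h3 : x * (‖a‖ • q) - x * a =
      x⁺ * (algebraMap ℝ (H →L[ℂ] H) ‖a‖ - a) + x⁻ * a := by
    have hsub : x⁺ - x⁻ = x := CFC.posPart_sub_negPart x hsa
    rw [mul_smul_comm, hxq, mul_sub, Algebra.algebraMap_eq_smul_one, mul_smul_comm, mul_one]
    conv_lhs => rw [← hsub]
    rw [hsub, sub_add, ← sub_mul, hsub]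
  have h4 : 0 ≤ x * (‖a‖ • q) - x * a := h3 ▸ add_nonneg h2 h1
  have h5 := ((ContinuousLinearMap.nonneg_iff_isPositive _).1 h4).re_inner_nonneg_right ξ
  rw [sub_apply, inner_sub_right, map_sub] at h5
  rw [rn_sa hsa, rn_sa hsa]
  exact sub_nonneg.1 h5

/-- Vectors `x ξ` with `x` self-adjoint in `M`. -/
def rnS (M : VonNeumannAlgebra H) (ξ : H) : Set H := {z | ∃ x ∈ M, IsSelfAdjoint x ∧ x ξ = z}

lemma rn_mem_closure {M : VonNeumannAlgebra H} {ξ α : H} (h : (α, α) ∈ closure (graph M ξ)) :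
    α ∈ closure (rnS M ξ) := by
  have h1 : (fun q : H × H => (2⁻¹ : ℂ) • (q.1 + q.2)) (α, α) ∈ closure (rnS M ξ) := by
    refine map_mem_closure (f := fun q : H × H => (2⁻¹ : ℂ) • (q.1 + q.2)) (by fun_prop) h ?_
    rintro _ ⟨y, hy, rfl⟩
    refine ⟨(2⁻¹ : ℂ) • (y + star y), vn_smul_mem _ (add_mem hy (star_mem hy)), ?_, rfl⟩
    rw [IsSelfAdjoint, star_smul, star_add, star_star, add_comm]
    simp
  have h2 : (2⁻¹ : ℂ) • (α + α) = α := by
    rw [← two_smul ℂ α, smul_smul]; simp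
  simpa only [h2] using h1

lemma rn_exists {M : VonNeumannAlgebra H} {ξ : H} {A : H →L[ℂ] H} {D : H →ₗ⋆[ℂ] H}
    (h : IsRvD M ξ A D) {a : H →L[ℂ] H} (ha : a ∈ M.commutant) (ha0 : 0 ≤ a) :
    A (a ξ) ∈ rnK M ξ ‖a‖ := by
  have hsa : IsSelfAdjoint a := IsSelfAdjoint.of_nonneg ha0
  set α := A (a ξ) with hα
  have hD : D (a ξ) = α := by rw [h.D_comm ha, hsa.star_eq]
  have hαS : α ∈ closure (rnS M ξ) := rn_mem_closure (by simpa only [hD] using h.mem (a ξ))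
  have hre : ∀ x ∈ M, IsSelfAdjoint x → (⟪x ξ, α⟫_ℂ).re = (⟪x ξ, a ξ⟫_ℂ).re := by
    intro x hx hxs
    have h1 := congrArg Complex.re (h.eqn (a ξ) x hx)
    rw [hD, hxs.star_eq, ← inner_conj_symm α (x ξ)] at h1
    simp only [Complex.add_re, Complex.conj_re, Complex.mul_re, Complex.re_ofNat,
      Complex.im_ofNat, zero_mul, sub_zero] at h1
    linarith
  obtain ⟨v, hv, hmin⟩ := rn_near (rnK M ξ ‖a‖) ⟨0, 0, zero_mem M, le_rfl, by simp, rfl⟩
    (rn_isClosed M ξ (norm_nonneg a)) (by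
      rintro _ ⟨x, hx, hx0, hxr, rfl⟩ _ ⟨y, hy, hy0, hyr, rfl⟩ s t hs ht hst
      refine ⟨s • x + t • y, add_mem (vn_real_smul_mem s hx) (vn_real_smul_mem t hy),
        add_nonneg (smul_nonneg hs hx0) (smul_nonneg ht hy0), ?_, rfl⟩
      calc ‖s • x + t • y‖ ≤ s * ‖x‖ + t * ‖y‖ := by
            refine (norm_add_le _ _).trans ?_
            rw [norm_smul, norm_smul, Real.norm_of_nonneg hs, Real.norm_of_nonneg ht]
        _ ≤ s * ‖a‖ + t * ‖a‖ := by gcongr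
        _ = ‖a‖ := by rw [← add_mul, hst, one_mul]) α
  have hvS : α - v ∈ closure (rnS M ξ) := by
    obtain ⟨y, hy, hy0, -, rfl⟩ := hv
    refine map_mem_closure (f := fun z : H => z - y ξ) (by fun_prop) hαS ?_
    rintro _ ⟨x, hx, hxs, rfl⟩
    exact ⟨x - y, sub_mem hx hy, hxs.sub (IsSelfAdjoint.of_nonneg hy0), rfl⟩
  have hbound : ∀ t : ℝ, 0 < t → ‖α - v‖ ^ 2 ≤ t * (‖α‖ + ‖a‖ * ‖ξ‖) := by
    intro t ht
    obtain ⟨_, ⟨x, hx, hxs, rfl⟩, hd⟩ := Metric.mem_closure_iff.1 hvS t ht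
    rw [dist_eq_norm] at hd
    obtain ⟨z, hz, hle⟩ := rn_key M ξ ha ha0 hx hxs
    have h1 := hmin z hz
    have hzn : ‖z‖ ≤ ‖a‖ * ‖ξ‖ := by
      obtain ⟨y, -, -, hyr, rfl⟩ := hz
      exact (y.le_opNorm ξ).trans (by gcongr)
    have h2 : (⟪α - v - x ξ, α - z⟫_ℂ).re ≤ t * (‖α‖ + ‖a‖ * ‖ξ‖) := by
      refine (Complex.re_le_norm _).trans ((norm_inner_le_norm _ _).trans ?_)
      have : ‖α - z‖ ≤ ‖α‖ + ‖a‖ * ‖ξ‖ := (norm_sub_le _ _).trans (by gcongr)
      gcongr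
    have h3 : ⟪α - v, α - v⟫_ℂ =
        ⟪α - v - x ξ, α - z⟫_ℂ + (⟪x ξ, α⟫_ℂ - ⟪x ξ, z⟫_ℂ) + ⟪α - v, z - v⟫_ℂ := by
      simp only [inner_sub_left, inner_sub_right]; ring
    have h4 := congrArg Complex.re h3
    rw [re_inner_self] at h4
    simp only [Complex.add_re, Complex.sub_re] at h4
    have h5 := hre x hx hxs
    linarith
  have h0 : ‖α - v‖ ^ 2 ≤ 0 := by
    refine le_of_forall_pos_le_add fun e he => ?_
    have hC : 0 < ‖α‖ + ‖a‖ * ‖ξ‖ + 1 := by positivity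
    have := hbound (e / (‖α‖ + ‖a‖ * ‖ξ‖ + 1)) (by positivity)
    refine this.trans ?_
    rw [zero_add, div_mul_eq_mul_div, div_le_iff₀ hC]
    nlinarith
  have h1 : α - v = 0 := by
    have : ‖α - v‖ ^ 2 = 0 := le_antisymm h0 (sq_nonneg _)
    simpa using this
  rw [sub_eq_zero.1 h1]
  exact hv

end

theorem rn : RNStmt.{u} := by
  intro H _ _ _ M ξ A D h p hp a ha ha0
  obtain ⟨y, hy, hy0, hyr, hyξ⟩ := rn_exists h ha ha0
  have hsa : IsSelfAdjoint a := IsSelfAdjoint.of_nonneg ha0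
  have hD : D (a ξ) = A (a ξ) := by rw [h.D_comm ha, hsa.star_eq]
  have hps : IsSelfAdjoint p := hp.proj.isSelfAdjoint
  have hpp : p * p = p := hp.proj.isIdempotentElem
  have hpξ : p ξ = ξ := by simpa using hp.fix 1 (one_mem _)
  have hpos : 0 ≤ p * y * p := by simpa only [hps.star_eq] using star_left_conjugate_nonneg hy0 p
  have hmem : p * y * p ∈ M := mul_mem (mul_mem hp.mem hy) hp.mem
  have hval : (p * y * p) ξ = p (A (a ξ)) := by
    change p (y (p ξ)) = _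
    rw [hpξ, hyξ]
  refine ⟨p * y * p, hmem, hpos, ?_, by rw [mul_assoc, hpp], ?_⟩
  · have h1 : ‖p‖ ≤ 1 := hp.proj.norm_le
    calc ‖p * y * p‖ ≤ ‖p‖ * ‖y‖ * ‖p‖ :=
          (norm_mul_le _ _).trans (by gcongr; exact norm_mul_le _ _)
      _ ≤ 1 * ‖a‖ * 1 := by gcongr
      _ = ‖a‖ := by ring
  · have hg := graph_mem (ξ := ξ) hmem
    rw [(IsSelfAdjoint.of_nonneg hpos).star_eq] at hg
    refine (h.unique hg fun z hz => ?_).1.symm
    have h1 := h.eqn (a ξ) (p * z * p) (mul_mem (mul_mem hp.mem hz) hp.mem)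
    have h2 : (p * z * p) ξ = p (z ξ) := by
      change p (z (p ξ)) = _
      rw [hpξ]
    have h3 : star (p * z * p) ξ = p (star z ξ) := by
      rw [star_mul, star_mul, hps.star_eq]
      change p (star z (p ξ)) = _
      rw [hpξ]
    rw [h2, h3, hD, rn_sa hps, rn_sa hps, ← rn_sa hps (A (a ξ)), hp.fix a ha] at h1
    rw [hval]
    exact h1

end Crest.Agent.R78
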