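import Crest.Agent.R78.Defs

/-!
# Row 78: basic properties of the Rieffel–van Daele operators
-/

set_option autoImplicit false
set_option linter.unusedSectionVars false

open scoped InnerProductSpace Matrix ComplexConjugate

noncomputable section

namespace Crest.Agent.R78

open Crest.Agent.R124

universe u

variable {H : Type u} [NormedAddCommGroup H] [InnerProductSpace ℂ H] [CompleteSpace H]
variable {M : VonNeumannAlgebra H} {ξ : H}

lemma vn_smul_mem (c : ℂ) {y : H →L[ℂ] H} (hy : y ∈ M) : c • y ∈ M :=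
  SMulMemClass.smul_mem (s := M.toStarSubalgebra) c hy

lemma vn_real_smul_mem (c : ℝ) {y : H →L[ℂ] H} (hy : y ∈ M) : c • y ∈ M :=
  vn_smul_mem (c : ℂ) hy

lemma re_inner_self (v : H) : (⟪v, v⟫_ℂ).re = ‖v‖ ^ 2 := by
  rw [inner_self_eq_norm_sq_to_K]; norm_cast

lemma two_sub_apply (A : H →L[ℂ] H) (η : H) : (2 - A) η = (2 : ℂ) • η - A η := by
  have : (2 : H →L[ℂ] H) = 1 + 1 := one_add_one_eq_two.symm
  rw [this, two_smul]; rfl

lemma graph_mem {y : H →L[ℂ] H} (hy : y ∈ M) : (y ξ, star y ξ) ∈ closure (graph M ξ) :=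
  subset_closure ⟨y, hy, rfl⟩

/-- Induction principle: a closed property of pairs holding on the graph holds on its closure. -/
lemma graph_induction {P : H × H → Prop} (hP : IsClosed {q | P q})
    (h : ∀ y ∈ M, P (y ξ, star y ξ)) {q : H × H} (hq : q ∈ closure (graph M ξ)) : P q :=
  closure_minimal (by rintro _ ⟨y, hy, rfl⟩; exact h y hy) hP hq

lemma graph_add {q q' : H × H} (hq : q ∈ closure (graph M ξ)) (hq' : q' ∈ closure (graph M ξ)) :
    q + q' ∈ closure (graph M ξ) := by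
  refine map_mem_closure₂ continuous_add hq hq' ?_
  rintro _ ⟨y, hy, rfl⟩ _ ⟨z, hz, rfl⟩
  exact ⟨y + z, add_mem hy hz, by simp⟩

lemma graph_smul (c : ℂ) {q : H × H} (hq : q ∈ closure (graph M ξ)) :
    (c • q.1, conj c • q.2) ∈ closure (graph M ξ) := by
  refine map_mem_closure (f := fun q : H × H => (c • q.1, conj c • q.2)) (by fun_prop) hq ?_
  rintro _ ⟨y, hy, rfl⟩
  exact ⟨c • y, vn_smul_mem c hy, by simp⟩

lemma graph_swap {q : H × H} (hq : q ∈ closure (graph M ξ)) :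
    (q.2, q.1) ∈ closure (graph M ξ) := by
  refine map_mem_closure (f := fun q : H × H => (q.2, q.1)) (by fun_prop) hq ?_
  rintro _ ⟨y, hy, rfl⟩
  exact ⟨star y, star_mem hy, by simp⟩

lemma graph_sub {q q' : H × H} (hq : q ∈ closure (graph M ξ)) (hq' : q' ∈ closure (graph M ξ)) :
    q - q' ∈ closure (graph M ξ) := by
  have := graph_add hq (graph_smul (-1) hq')
  convert this using 1
  ext <;> simp [sub_eq_add_neg]

/-- Pairs in the closed graph are "adjoint" with respect to the commutant. -/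
lemma graph_comm {q : H × H} (hq : q ∈ closure (graph M ξ)) {a : H →L[ℂ] H}
    (ha : a ∈ M.commutant) : ⟪a ξ, q.1⟫_ℂ = ⟪q.2, star a ξ⟫_ℂ := by
  refine graph_induction (P := fun q => ⟪a ξ, q.1⟫_ℂ = ⟪q.2, star a ξ⟫_ℂ)
    (isClosed_eq (by fun_prop) (by fun_prop)) (fun y hy => ?_) hq
  have h1 : y (star a ξ) = star a (y ξ) := by
    exact congrArg (fun T : H →L[ℂ] H => T ξ) (comm_of_mem hy (star_mem ha))
  simp only [ContinuousLinearMap.star_eq_adjoint] at h1 ⊢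
  rw [ContinuousLinearMap.adjoint_inner_left, h1, ContinuousLinearMap.adjoint_inner_right]

/-- A pair in the closed graph orthogonal to the graph vanishes. -/
lemma graph_eq_zero {q : H × H} (hq : q ∈ closure (graph M ξ))
    (h : ∀ y ∈ M, ⟪y ξ, q.1⟫_ℂ + ⟪q.2, star y ξ⟫_ℂ = 0) : q = 0 := by
  have h1 : ⟪q.1, q.1⟫_ℂ + ⟪q.2, q.2⟫_ℂ = 0 :=
    graph_induction (P := fun r => ⟪r.1, q.1⟫_ℂ + ⟪q.2, r.2⟫_ℂ = 0)
      (isClosed_eq (by fun_prop) continuous_const) h hq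
  have h2 := congrArg Complex.re h1
  simp only [Complex.add_re, re_inner_self, Complex.zero_re] at h2
  have h3 : ‖q.1‖ ^ 2 = 0 := by nlinarith [sq_nonneg ‖q.1‖, sq_nonneg ‖q.2‖]
  have h4 : ‖q.2‖ ^ 2 = 0 := by nlinarith [sq_nonneg ‖q.1‖, sq_nonneg ‖q.2‖]
  ext
  · simpa using h3
  · simpa using h4

namespace IsRvD

variable {A : H →L[ℂ] H} {D : H →ₗ⋆[ℂ] H}

/-- Uniqueness of the projection onto the graph. -/
lemma unique (h : IsRvD M ξ A D) {η α β : H} (hq : (α, β) ∈ closure (graph M ξ))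
    (he : ∀ y ∈ M, ⟪y ξ, α⟫_ℂ + ⟪β, star y ξ⟫_ℂ = 2 * ⟪y ξ, η⟫_ℂ) : A η = α ∧ D η = β := by
  have := graph_eq_zero (graph_sub (h.mem η) hq) fun y hy => by
    simp only [Prod.fst_sub, Prod.snd_sub, inner_sub_right, inner_sub_left]
    linear_combination h.eqn η y hy - he y hy
  rw [sub_eq_zero, Prod.mk.injEq] at this
  exact this

/-- The defining equation on the closed graph. -/
lemma eqn' (h : IsRvD M ξ A D) (η : H) {q : H × H} (hq : q ∈ closure (graph M ξ)) :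
    ⟪q.1, A η⟫_ℂ + ⟪D η, q.2⟫_ℂ = 2 * ⟪q.1, η⟫_ℂ :=
  graph_induction (P := fun q => ⟪q.1, A η⟫_ℂ + ⟪D η, q.2⟫_ℂ = 2 * ⟪q.1, η⟫_ℂ)
    (isClosed_eq (by fun_prop) (by fun_prop)) (h.eqn η) hq

lemma polar (h : IsRvD M ξ A D) (ζ η : H) :
    ⟪A ζ, A η⟫_ℂ + ⟪D η, D ζ⟫_ℂ = 2 * ⟪A ζ, η⟫_ℂ := h.eqn' η (h.mem ζ)

lemma inner_D (h : IsRvD M ξ A D) (η : H) {y : H →L[ℂ] H} (hy : y ∈ M) :
    ⟪D η, star y ξ⟫_ℂ = ⟪y ξ, (2 - A) η⟫_ℂ := by
  rw [two_sub_apply, inner_sub_right, inner_smul_right]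
  linear_combination h.eqn η y hy

lemma inner_symm (h : IsRvD M ξ A D) (ζ η : H) : ⟪A ζ, η⟫_ℂ = ⟪ζ, A η⟫_ℂ := by
  have h1 := h.polar ζ η
  have h2 := congrArg conj (h.polar η ζ)
  simp only [map_add, map_mul, inner_conj_symm, map_ofNat] at h2
  linear_combination (h2 - h1) / 2

lemma isSelfAdjoint (h : IsRvD M ξ A D) : IsSelfAdjoint A := by
  rw [ContinuousLinearMap.isSelfAdjoint_iff_isSymmetric]
  exact fun ζ η => h.inner_symm ζ η

lemma norm_sq (h : IsRvD M ξ A D) (η : H) :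
    ‖A η‖ ^ 2 + ‖D η‖ ^ 2 = 2 * (⟪A η, η⟫_ℂ).re := by
  have := congrArg Complex.re (h.polar η η)
  simpa only [Complex.add_re, re_inner_self, Complex.mul_re, Complex.re_ofNat,
    Complex.im_ofNat, zero_mul, sub_zero] using this

lemma re_inner_nonneg (h : IsRvD M ξ A D) (η : H) : 0 ≤ (⟪A η, η⟫_ℂ).re := by
  nlinarith [h.norm_sq η, sq_nonneg ‖A η‖, sq_nonneg ‖D η‖]

lemma norm_apply_le (h : IsRvD M ξ A D) (η : H) : ‖A η‖ ≤ 2 * ‖η‖ := by
  have h1 := h.norm_sq η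
  have h2 : (⟪A η, η⟫_ℂ).re ≤ ‖A η‖ * ‖η‖ :=
    (Complex.re_le_norm _).trans (norm_inner_le_norm _ _)
  by_contra hc
  push Not at hc
  nlinarith [sq_nonneg ‖D η‖, norm_nonneg η, norm_nonneg (A η)]

lemma norm_le (h : IsRvD M ξ A D) : ‖A‖ ≤ 2 :=
  A.opNorm_le_bound (by norm_num) h.norm_apply_le

lemma norm_D_le (h : IsRvD M ξ A D) (η : H) : ‖D η‖ ≤ ‖η‖ := by
  have h1 := h.norm_sq η
  have h2 : (⟪A η, η⟫_ℂ).re ≤ ‖A η‖ * ‖η‖ :=
    (Complex.re_le_norm _).trans (norm_inner_le_norm _ _)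
  refine (pow_le_pow_iff_left₀ (norm_nonneg _) (norm_nonneg _) two_ne_zero).1 ?_
  nlinarith [sq_nonneg (‖A η‖ - ‖η‖)]

lemma nonneg (h : IsRvD M ξ A D) : 0 ≤ A := by
  rw [ContinuousLinearMap.nonneg_iff_isPositive, ContinuousLinearMap.isPositive_iff_complex]
  intro η
  refine ⟨?_, h.re_inner_nonneg η⟩
  have := h.inner_symm η η
  rw [← inner_conj_symm η (A η)] at this
  exact Complex.conj_eq_iff_re.1 this.symm

lemma spectrum_subset (h : IsRvD M ξ A D) : spectrum ℝ A ⊆ Set.Icc 0 2 := fun s hs => by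
  refine ⟨spectrum_nonneg_of_nonneg h.nonneg hs, ?_⟩
  rcases subsingleton_or_nontrivial (H →L[ℂ] H) with hH | hH
  · simp at hs
  · exact (le_abs_self s).trans ((spectrum.norm_le_norm_of_mem hs).trans h.norm_le)

/-- `⟪a ξ, A η⟫ = ⟪D η, a⋆ ξ⟫` for `a` in the commutant. -/
lemma inner_comm (h : IsRvD M ξ A D) (η : H) {a : H →L[ℂ] H} (ha : a ∈ M.commutant) :
    ⟪a ξ, A η⟫_ℂ = ⟪D η, star a ξ⟫_ℂ := graph_comm (h.mem η) ha

/-- For `a` in the commutant, `D (a ξ) = A (a⋆ ξ)`. -/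
lemma D_comm (h : IsRvD M ξ A D) {a : H →L[ℂ] H} (ha : a ∈ M.commutant) :
    D (a ξ) = A (star a ξ) := by
  refine (h.unique (graph_swap (h.mem (a ξ))) fun y hy => ?_).1.symm
  have h1 := congrArg conj (h.eqn (a ξ) (star y) (star_mem hy))
  simp only [map_add, map_mul, inner_conj_symm, map_ofNat, star_star] at h1
  have h2 := graph_comm (graph_mem (ξ := ξ) (star_mem hy)) ha
  simp only [star_star] at h2
  linear_combination h1 + 2 * h2

lemma apply_self (h : IsRvD M ξ A D) : A ξ = ξ ∧ D ξ = ξ := by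
  refine h.unique (by simpa using graph_mem (ξ := ξ) (one_mem M)) fun y hy => ?_
  rw [ContinuousLinearMap.star_eq_adjoint, ContinuousLinearMap.adjoint_inner_right]
  ring

end IsRvD

end Crest.Agent.R78
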