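import Crest.Agent.R78.RvD

/-!
# Row 78: three small lemmas (`approx`, `unit`, `avg`)
-/

set_option autoImplicit false
set_option linter.unusedSectionVars false
set_option linter.deprecated false

open scoped InnerProductSpace Matrix ComplexConjugate

noncomputable section

namespace Crest.Agent.R78

open Crest.Agent.R124

universe u

section
variable {H : Type u} [NormedAddCommGroup H] [InnerProductSpace ℂ H] [CompleteSpace H]

/-- A vector orthogonal to the kernel of a selfadjoint operator is approximable by the range. -/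
lemma small_exists_range {T : H →L[ℂ] H} (hT : IsSelfAdjoint T) {v : H}
    (hv : ∀ η, T η = 0 → ⟪v, η⟫_ℂ = 0) {t : ℝ} (ht : 0 < t) : ∃ α, ‖v - T α‖ ≤ t := by
  have h1 : v ∈ T.kerᗮ := by
    rw [Submodule.mem_orthogonal']
    exact fun η hη => hv η hη
  rw [ContinuousLinearMap.orthogonal_ker, hT.adjoint_eq] at h1
  have h2 : v ∈ closure (T.range : Set H) := h1
  obtain ⟨_, ⟨α, rfl⟩, h3⟩ := Metric.mem_closure_iff.1 h2 t ht
  exact ⟨α, by rw [← dist_eq_norm]; exact h3.le⟩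

lemma small_mul_div_le {a ε : ℝ} (ha : 0 ≤ a) (hε : 0 < ε) : a * (ε / (3 * (a + 1))) ≤ ε / 3 := by
  rw [mul_div_assoc', div_le_div_iff₀ (by positivity) (by positivity)]
  nlinarith

lemma small_sqrt {s : H →L[ℂ] H} (hs : IsSelfAdjoint s) (hn : ‖s‖ ≤ 1 / 2) :
    ∃ w : H →L[ℂ] H, IsSelfAdjoint w ∧ w * w = 1 - s * s ∧ ‖1 - w‖ ≤ 1 / 2 ∧
      ∀ y, Commute s y → Commute w y := by
  have hsp : ∀ r ∈ spectrum ℝ s, r ^ 2 ≤ 1 / 4 := by
    intro r hr
    rcases subsingleton_or_nontrivial (H →L[ℂ] H) with hH | hH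
    · simp at hr
    · have h1 : |r| ≤ 1 / 2 := (spectrum.norm_le_norm_of_mem hr).trans hn
      have h2 := abs_nonneg r
      rw [← sq_abs]; nlinarith
  refine ⟨cfc (fun r : ℝ => √(1 - r ^ 2)) s, cfc_predicate _ _, ?_, ?_,
    fun y hy => hy.cfc_real _⟩
  · rw [← cfc_mul _ _ s]
    have e : 1 - s * s = cfc (fun r : ℝ => 1 - r * r) s := by
      rw [cfc_sub _ _ s, cfc_const_one ℝ s, cfc_mul _ _ s, cfc_id' ℝ s]
    rw [e]
    refine cfc_congr fun r hr => ?_
    have := hsp r hr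
    rw [Real.mul_self_sqrt (by linarith)]; ring
  · have e : 1 - cfc (fun r : ℝ => √(1 - r ^ 2)) s = cfc (fun r : ℝ => 1 - √(1 - r ^ 2)) s := by
      rw [cfc_sub _ _ s, cfc_const_one ℝ s]
    rw [e]
    refine norm_cfc_le (by norm_num) fun r hr => ?_
    have h1 := hsp r hr
    have h2 : √(1 - r ^ 2) ≤ 1 := Real.sqrt_le_one.2 (by nlinarith [sq_nonneg r])
    have h3 : 1 / 2 ≤ √(1 - r ^ 2) := Real.le_sqrt_of_sq_le (by linarith)
    rw [Real.norm_eq_abs, abs_le]
    constructor <;> linarith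

lemma small_unitary {s w : H →L[ℂ] H} (hs : IsSelfAdjoint s) (hw : IsSelfAdjoint w)
    (h1 : w * w = 1 - s * s) (h2 : Commute w s) :
    star (s + Complex.I • w) = s - Complex.I • w ∧ s + Complex.I • w ∈ unitary (H →L[ℂ] H) := by
  have e : star (s + Complex.I • w) = s - Complex.I • w := by
    rw [star_add, star_smul, hs.star_eq, hw.star_eq, Complex.star_def, Complex.conj_I, neg_smul,
      sub_eq_add_neg]
  have e2 : (Complex.I • w) * (Complex.I • w) = s * s - 1 := by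
    rw [smul_mul_smul_comm, Complex.I_mul_I, h1]; simp
  have e3 : s * (Complex.I • w) = (Complex.I • w) * s := by
    rw [mul_smul_comm, smul_mul_assoc, h2.eq]
  refine ⟨e, Unitary.mem_iff.2 ?_⟩
  rw [e]
  constructor
  · rw [sub_mul, mul_add, mul_add, e2, e3]; abel
  · rw [add_mul, mul_sub, mul_sub, e2, e3]; abel

lemma small_norm_unitary {v : H →L[ℂ] H} (hv : v ∈ unitary (H →L[ℂ] H)) (z : H) :
    ‖v z‖ = ‖z‖ := ContinuousLinearMap.norm_map_of_mem_unitary hv z

end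

theorem approx : ApproxStmt.{u} := by
  intro H _ _ _ M ξ A D h x hx a ha ε hε
  have hA := h.isSelfAdjoint
  have h2A : IsSelfAdjoint (2 - A) := by
    have : IsSelfAdjoint (2 : H →L[ℂ] H) := IsSelfAdjoint.ofNat 2
    exact this.sub hA
  obtain ⟨α, hα⟩ := small_exists_range hA (v := x ξ) (fun η hη => by
    have h1 := h.norm_sq η
    rw [hη] at h1
    have h2 : D η = 0 := by simpa using h1
    have h3 := h.eqn η x hx
    rw [hη, h2] at h3
    simpa using h3) (t := ε / (3 * (‖a ξ‖ + 1))) (by positivity)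
  obtain ⟨β, hβ⟩ := small_exists_range h2A (v := a ξ) (fun η hη => by
    rw [two_sub_apply, sub_eq_zero] at hη
    have h1 := h.norm_sq η
    rw [← hη, inner_smul_left, norm_smul] at h1
    have h2 : D η = 0 := by
      have h4 : ‖D η‖ ^ 2 = 0 := by
        simp only [map_ofNat, Complex.mul_re, Complex.re_ofNat, Complex.im_ofNat, re_inner_self,
          Complex.norm_ofNat] at h1
        linarith
      simpa using h4
    have h3 := h.inner_comm η ha
    rw [← hη, h2, inner_smul_right] at h3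
    simpa using h3) (t := ε / (3 * (‖A α‖ + 1))) (by positivity)
  refine ⟨ε / (3 * (‖β‖ * ‖α‖ + 1)), by positivity, fun φ hφ h1 h2 => ?_⟩
  have hsp := h.spectrum_subset
  have hφ' : ContinuousOn φ (spectrum ℝ A) := hφ.mono hsp
  obtain ⟨B, hB⟩ : ∃ B, B = cfc (fun s : ℝ => φ s - 1) A := ⟨_, rfl⟩
  have eB : cfc φ A = B + 1 := by
    rw [hB, cfc_sub _ _ A, cfc_const_one ℝ A]; simp
  have nB : ‖B‖ ≤ 1 := by
    rw [hB]; exact norm_cfc_le (by norm_num) fun s hs => h1 s (hsp hs)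
  have nC : ‖(2 - A) * B * A‖ ≤ ε / (3 * (‖β‖ * ‖α‖ + 1)) := by
    have e : (2 - A) * B * A = cfc (fun s : ℝ => (2 - s) * (φ s - 1) * s) A := by
      rw [cfc_mul _ _ A, cfc_mul _ _ A, cfc_sub (fun _ => 2) (fun s => s) A, cfc_id' ℝ A, ← hB,
        cfc_const 2 A, map_ofNat]
    rw [e]
    refine norm_cfc_le (by positivity) fun s hs => le_trans (le_of_eq ?_) (h2 s (hsp hs))
    obtain ⟨h3, h4⟩ := hsp hs
    rw [Real.norm_eq_abs, abs_mul, abs_mul, abs_of_nonneg h3, abs_of_nonneg (sub_nonneg.2 h4)]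
    ring
  have nBv : ∀ z, ‖B z‖ ≤ ‖z‖ := fun z =>
    (B.le_opNorm z).trans (by simpa using mul_le_mul_of_nonneg_right nB (norm_nonneg z))
  have e : ⟪a ξ, cfc φ A (x ξ)⟫_ℂ - ⟪a ξ, x ξ⟫_ℂ =
      ⟪a ξ, B (x ξ - A α)⟫_ℂ + ⟪a ξ - (2 - A) β, B (A α)⟫_ℂ + ⟪β, ((2 - A) * B * A) α⟫_ℂ := by
    have e1 : ⟪β, ((2 - A) * B * A) α⟫_ℂ = ⟪(2 - A) β, B (A α)⟫_ℂ := by
      rw [ContinuousLinearMap.isSelfAdjoint_iff_isSymmetric] at h2A
      exact (h2A β (B (A α))).symm
    rw [e1, eB, map_sub, inner_sub_right, inner_sub_left]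
    simp only [ContinuousLinearMap.add_apply, ContinuousLinearMap.one_apply, inner_add_right]
    ring
  rw [e]
  have b1 : ‖⟪a ξ, B (x ξ - A α)⟫_ℂ‖ ≤ ε / 3 := by
    refine (norm_inner_le_norm _ _).trans (le_trans ?_ (small_mul_div_le (norm_nonneg (a ξ)) hε))
    gcongr
    exact (nBv _).trans hα
  have b2 : ‖⟪a ξ - (2 - A) β, B (A α)⟫_ℂ‖ ≤ ε / 3 := by
    refine (norm_inner_le_norm _ _).trans (le_trans ?_ (small_mul_div_le (norm_nonneg (A α)) hε))
    rw [mul_comm]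
    gcongr
    exact nBv _
  have b3 : ‖⟪β, ((2 - A) * B * A) α⟫_ℂ‖ ≤ ε / 3 := by
    refine (norm_inner_le_norm _ _).trans (le_trans ?_
      (small_mul_div_le (a := ‖β‖ * ‖α‖) (by positivity) hε))
    rw [mul_assoc ‖β‖, mul_comm ‖α‖]
    gcongr
    exact (ContinuousLinearMap.le_opNorm _ _).trans (by gcongr)
  have := norm_add₃_le (a := ⟪a ξ, B (x ξ - A α)⟫_ℂ) (b := ⟪a ξ - (2 - A) β, B (A α)⟫_ℂ)
    (c := ⟪β, ((2 - A) * B * A) α⟫_ℂ)
  linarith

theorem unit : UnitStmt.{u} := by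
  intro H _ _ _ M ξ t ht c hc hts hcs htn hcn
  obtain ⟨s, hs⟩ : ∃ s : H →L[ℂ] H, s = (1 / 2 : ℂ) • t := ⟨_, rfl⟩
  obtain ⟨s', hs'⟩ : ∃ s : H →L[ℂ] H, s = (1 / 2 : ℂ) • c := ⟨_, rfl⟩
  have hhalf : IsSelfAdjoint (1 / 2 : ℂ) := by simp [IsSelfAdjoint]
  have ss : IsSelfAdjoint s := hs ▸ hhalf.smul hts
  have ss' : IsSelfAdjoint s' := hs' ▸ hhalf.smul hcs
  have sM : s ∈ M := hs ▸ vn_smul_mem _ ht
  have sM' : s' ∈ M.commutant := hs' ▸ vn_smul_mem _ hc
  have sn : ‖s‖ ≤ 1 / 2 := by rw [hs, norm_smul]; simp; linarith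
  have sn' : ‖s'‖ ≤ 1 / 2 := by rw [hs', norm_smul]; simp; linarith
  obtain ⟨w, ws, w1, w2, w3⟩ := small_sqrt ss sn
  obtain ⟨w', ws', w1', w2', w3'⟩ := small_sqrt ss' sn'
  have wM : w ∈ M := mem_of_comm M w fun y hy => (w3 y (comm_of_mem sM hy)).symm
  have wM' : w' ∈ M.commutant := mem_commutant_of fun y hy =>
    (w3' y (comm_of_mem hy sM').symm).symm
  obtain ⟨e1, u1⟩ := small_unitary ss ws w1 (w3 s (Commute.refl s))
  obtain ⟨e2, u2⟩ := small_unitary ss' ws' w1' (w3' s' (Commute.refl s'))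
  have uM : s + Complex.I • w ∈ M := add_mem sM (vn_smul_mem _ wM)
  have vM : s' + Complex.I • w' ∈ M.commutant := add_mem sM' (vn_smul_mem _ wM')
  -- the key estimate
  have k1 : ‖(w - w') ξ‖ ≤ ‖(s - s') ξ‖ := by
    have c1 : (w + w') * (w - w') = -((s + s') * (s - s')) := by
      have a1 := comm_of_mem wM wM'
      have a2 := comm_of_mem sM sM'
      rw [add_mul, mul_sub, mul_sub, add_mul, mul_sub, mul_sub, w1, w1', a1, a2]; abel
    have c2 : ∀ z, ‖z‖ ≤ ‖(w + w') z‖ := by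
      intro z
      have a1 : ‖(1 - w) z‖ ≤ 1 / 2 * ‖z‖ :=
        (ContinuousLinearMap.le_opNorm _ _).trans (by gcongr)
      have a2 : ‖(1 - w') z‖ ≤ 1 / 2 * ‖z‖ :=
        (ContinuousLinearMap.le_opNorm _ _).trans (by gcongr)
      have a3 : (2 : ℂ) • z = (w + w') z + (1 - w) z + (1 - w') z := by
        simp only [ContinuousLinearMap.add_apply, ContinuousLinearMap.sub_apply,
          ContinuousLinearMap.one_apply, two_smul]
        abel
      have a4 := norm_add₃_le (a := (w + w') z) (b := (1 - w) z) (c := (1 - w') z)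
      rw [← a3, norm_smul, Complex.norm_ofNat] at a4
      linarith
    have c3 : ‖s + s'‖ ≤ 1 := (norm_add_le _ _).trans (by linarith)
    refine (c2 _).trans ?_
    rw [← ContinuousLinearMap.mul_apply, c1, ContinuousLinearMap.neg_apply, norm_neg,
      ContinuousLinearMap.mul_apply]
    exact (ContinuousLinearMap.le_opNorm _ _).trans
      (by simpa using mul_le_mul_of_nonneg_right c3 (norm_nonneg ((s - s') ξ)))
  have k2 : ‖t ξ - c ξ‖ = 2 * ‖(s - s') ξ‖ := by
    rw [hs, hs', ← smul_sub, ContinuousLinearMap.smul_apply, norm_smul,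
      ContinuousLinearMap.sub_apply]
    simp
  have k3 : ∀ σ : ℂ, ‖σ‖ = 1 → ‖(s + σ • w) ξ - (s' + σ • w') ξ‖ ≤ ‖t ξ - c ξ‖ := by
    intro σ hσ
    have a1 : (s + σ • w) ξ - (s' + σ • w') ξ = (s - s') ξ + σ • (w - w') ξ := by
      simp only [ContinuousLinearMap.add_apply, ContinuousLinearMap.sub_apply,
        ContinuousLinearMap.smul_apply, smul_sub]
      abel
    rw [a1, k2]
    refine (norm_add_le _ _).trans ?_
    rw [norm_smul, hσ]; linarith
  have k4 : ∀ u ∈ M, ∀ v ∈ M.commutant, v ∈ unitary (H →L[ℂ] H) →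
      ‖u (star v ξ) - ξ‖ = ‖u ξ - v ξ‖ := by
    intro u hu v hv hvu
    rw [← small_norm_unitary hvu, map_sub, ← ContinuousLinearMap.mul_apply v u,
      ← comm_of_mem hu hv, ContinuousLinearMap.mul_apply, ← ContinuousLinearMap.mul_apply v,
      Unitary.mul_star_self_of_mem hvu, ContinuousLinearMap.one_apply]
  refine ⟨_, uM, _, star_mem vM, u1, Unitary.star_mem u2, ?_, ?_, ?_⟩
  · rw [e1, hs]
    have : (1 / 2 : ℂ) • t + (1 / 2 : ℂ) • t = t := by rw [← add_smul]; norm_num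
    conv_rhs => rw [← this]
    abel
  · rw [k4 _ uM _ vM u2]; exact k3 _ Complex.norm_I
  · rw [k4 _ (star_mem uM) _ (star_mem vM) (Unitary.star_mem u2), e1, e2, sub_eq_add_neg s,
      sub_eq_add_neg s', ← neg_smul, ← neg_smul]
    exact k3 _ (by simp)

lemma small_sum_eval {ι : Type} [Fintype ι] [DecidableEq ι] {β : ι → Type} [∀ j, Fintype (β j)]
    (m : ι) (g : β m → ℝ) :
    (∑ f : (j : ι) → β j, g (f m)) * Fintype.card (β m) =
      Fintype.card ((j : ι) → β j) * ∑ x, g x := by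
  rw [Fintype.card_congr (Equiv.piSplitAt m β), Fintype.card_prod,
    Fintype.sum_equiv (Equiv.piSplitAt m β) (fun f => g (f m)) (fun y => g y.1) (fun _ => rfl),
    Fintype.sum_prod_type]
  simp only [Finset.sum_const, Finset.card_univ, nsmul_eq_mul, ← Finset.mul_sum]
  push_cast; ring

lemma small_wv_sq {D : ℕ} {d : Fin D → ℕ} (hd : ∀ m, 0 < d m) (i : Σ m, Fin (d m)) :
    ∑ f : (m : Fin D) → Fin (d m) × Bool, wv f i * wv f i =
      Fintype.card ((m : Fin D) → Fin (d m) × Bool) / d i.1 := by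
  have h := small_sum_eval (β := fun m => Fin (d m) × Bool) i.1
    (fun x => if i.2 = x.1 then (1 : ℝ) else 0)
  have e : ∀ f : (m : Fin D) → Fin (d m) × Bool,
      wv f i * wv f i = if i.2 = (f i.1).1 then (1 : ℝ) else 0 := by
    intro f
    unfold wv
    split_ifs <;> norm_num
  simp only [e]
  have h2 : ∑ x : Fin (d i.1) × Bool, (if i.2 = x.1 then (1 : ℝ) else 0) = 2 := by
    rw [Fintype.sum_prod_type_right]
    simp
  rw [h2, Fintype.card_prod, Fintype.card_fin, Fintype.card_bool] at h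
  have h3 : (0 : ℝ) < d i.1 := by exact_mod_cast hd i.1
  rw [eq_div_iff h3.ne']
  push_cast at h
  linarith

lemma small_wv_ne {D : ℕ} {d : Fin D → ℕ} {i i' : Σ m, Fin (d m)} (hi : i ≠ i') :
    ∑ f : (m : Fin D) → Fin (d m) × Bool, wv f i * wv f i' = 0 := by
  obtain ⟨m, j⟩ := i
  obtain ⟨m', j'⟩ := i'
  by_cases hm : m = m'
  · subst hm
    refine Finset.sum_eq_zero fun f _ => ?_
    have hj : j ≠ j' := fun e => hi (by rw [e])
    unfold wv
    by_cases h1 : j = (f m).1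
    · have h2 : ¬ j' = (f m).1 := fun e => hj (h1.trans e.symm)
      simp [h2]
    · simp [h1]
  · have hinv : Function.Involutive (fun f : (m : Fin D) → Fin (d m) × Bool =>
        Function.update f m ((f m).1, !(f m).2)) := by
      intro f
      simp
    have h1 := Equiv.sum_comp (hinv.toPerm _) (fun f => wv f ⟨m, j⟩ * wv f ⟨m', j'⟩)
    have h2 : ∀ f : (m : Fin D) → Fin (d m) × Bool,
        wv (hinv.toPerm _ f) ⟨m, j⟩ * wv (hinv.toPerm _ f) ⟨m', j'⟩ =
          -(wv f ⟨m, j⟩ * wv f ⟨m', j'⟩) := by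
      intro f
      have a1 : wv (hinv.toPerm _ f) ⟨m', j'⟩ = wv f ⟨m', j'⟩ := by
        simp only [Function.Involutive.coe_toPerm, wv, Function.update_of_ne (Ne.symm hm)]
      have a2 : wv (hinv.toPerm _ f) ⟨m, j⟩ = -wv f ⟨m, j⟩ := by
        simp only [Function.Involutive.coe_toPerm, wv, Function.update_self]
        by_cases e : j = (f m).1
        · rw [if_pos e, if_pos e]
          cases (f m).2 <;> simp
        · rw [if_neg e, if_neg e, neg_zero]
      rw [a1, a2, neg_mul]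
    simp only [h2, Finset.sum_neg_distrib] at h1
    linarith

theorem avg : AvgStmt.{u} := by
  intro K _ _ D d hd Θ
  have e : ∀ f : (m : Fin D) → Fin (d m) × Bool, ‖∑ i, ((wv f i : ℝ) : ℂ) • Θ i‖ ^ 2 =
      ∑ i, ∑ i', (wv f i * wv f i') * (⟪Θ i, Θ i'⟫_ℂ).re := by
    intro f
    have : ‖∑ i, ((wv f i : ℝ) : ℂ) • Θ i‖ ^ 2 =
        (⟪∑ i, ((wv f i : ℝ) : ℂ) • Θ i, ∑ i, ((wv f i : ℝ) : ℂ) • Θ i⟫_ℂ).re := by
      rw [inner_self_eq_norm_sq_to_K]; norm_cast
    rw [this, sum_inner, Complex.re_sum]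
    refine Finset.sum_congr rfl fun i _ => ?_
    rw [inner_sum, Complex.re_sum]
    refine Finset.sum_congr rfl fun i' _ => ?_
    rw [inner_smul_left, inner_smul_right, Complex.conj_ofReal, ← mul_assoc, ← Complex.ofReal_mul,
      Complex.re_ofReal_mul]
  simp only [e]
  rw [Finset.sum_comm, Finset.mul_sum]
  refine Finset.sum_congr rfl fun i _ => ?_
  rw [Finset.sum_comm, Finset.sum_eq_single i]
  · rw [← Finset.sum_mul, small_wv_sq hd, inner_self_eq_norm_sq_to_K]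
    norm_cast
    simp only [Complex.coe_algebraMap, Complex.ofReal_re]
    ring
  · intro i' _ hi'
    rw [← Finset.sum_mul, small_wv_ne hi'.symm, zero_mul]
  · simp

end Crest.Agent.R78
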