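import Crest.Agent.R78.Test0a

/-!
# Row 78: the test inequality for dominated tests
-/

set_option autoImplicit false
set_option linter.unusedSectionVars false

open scoped InnerProductSpace Matrix ComplexConjugate

noncomputable section

namespace Crest.Agent.R78

open Crest.Agent.R124

universe u

theorem test0 (hEx : RvDExStmt.{u}) (hA : LemAStmt.{u}) (hC : CatStmt) (hAvg : AvgStmt.{u})
    (hB : BlockStmt.{u}) (hU : UnitStmt.{u}) (hAp : ApproxStmt.{u}) : Test0Stmt.{u} := by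
  intro H _ _ _ M N δ Λ ξ J _ _ x c c' hδ hδ1 hΛ hξ hnear hx hc hs hs' hb hb' hrel
  classical
  obtain ⟨A, Dd, hAD⟩ := hEx H M ξ
  refine le_of_forall_pos_le_add fun ε hε => ?_
  have hJ : (0 : ℝ) < Fintype.card J := by exact_mod_cast Fintype.card_pos
  set ε₁ : ℝ := ε / (2 * Fintype.card J) with hε₁
  have hε₁pos : 0 < ε₁ := by positivity
  have ha : ∀ j, star (c j) * c' j ∈ M.commutant := fun j =>
    mul_mem (star_mem (hc j).1) (hc j).2.2.1
  choose ηj hηj hap using fun j => hAp H M ξ A Dd hAD (x j) (hx j).1 _ (ha j) ε₁ hε₁pos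
  obtain ⟨η, hη, hηle, hη0⟩ : ∃ η : ℝ, 0 < η ∧ (∀ j, η ≤ ηj j) ∧
      η ≤ (ε₁ / 200) ^ 2 / (2 * Λ) := by
    obtain ⟨j₀, -, hj₀⟩ := Finset.exists_min_image Finset.univ ηj Finset.univ_nonempty
    exact ⟨min (ηj j₀) ((ε₁ / 200) ^ 2 / (2 * Λ)), lt_min (hηj j₀) (by positivity),
      fun j => (min_le_left _ _).trans (hj₀ j (Finset.mem_univ j)), min_le_right _ _⟩
  obtain ⟨D, k, d, μ, θ, ρ, hD, hk, hθ, hρ, hμ, hd, hdμ, h1, hrow, hφ1, hφ2, hρθ, hΛρ⟩ :=
    hC η hη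
  have hDpos : (0 : ℝ) < D := by exact_mod_cast hD
  let ι : Type := Σ m, Fin (d m)
  let F : Type := (m : Fin D) → Fin (d m) × Bool
  let i₀ : ι := ⟨⟨0, hD⟩, ⟨0, hd _⟩⟩
  have : Nonempty F := ⟨fun m => (⟨0, hd m⟩, true)⟩
  have hF : (0 : ℝ) < Fintype.card F := by exact_mod_cast Fintype.card_pos
  let μ' : ι → ℝ := fun i => μ i.1
  have hμ' : ∀ i, 0 < μ' i := fun i => hμ _
  set Ξ := bigVec μ' ξ with hΞ
  have hΞn : ‖Ξ‖ ≤ 2 := by
    refine (pow_le_pow_iff_left₀ (norm_nonneg _) (by norm_num) two_ne_zero).1 ?_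
    rw [hΞ, norm_sq_bigVec fun i => (hμ' i).le]
    have : ∑ i, μ' i = ∑ m, (d m : ℝ) * μ m := by
      rw [Fintype.sum_sigma]
      simp [μ']
    rw [this]
    have h0 : 0 ≤ ∑ m, (d m : ℝ) * μ m :=
      Finset.sum_nonneg fun m _ => mul_nonneg (Nat.cast_nonneg _) (hμ m).le
    nlinarith [sq_nonneg ‖ξ‖]
  -- blocks
  choose p hp hblk using fun f : F => hB H M ξ A Dd hAD ι μ' (wv f) k θ ρ hμ' (wv_cases f) hk hθ
    (fun i _ => by
      rw [sum_wv_sq f fun m' => gf k (μ i.1 / μ m') 1]; exact hrow _)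
    (fun a ha => by
      rw [sum_wv_sq₂ f fun m m' =>
        μ m' * ((tw (μ m / μ m') a - 1) * gf k (μ m / μ m') a) ^ 2]
      exact hρθ a ha)
  choose t ht cc hcc htsa hccsa htn hccn htp htΞ hterr using
    fun (j : J) (f : F) => hblk f (x j) (hx j).1 (hx j).2.1 (hx j).2.2
  choose u hu u' hu' huu hu'u husum hue hue' using fun (j : J) (f : F) =>
    hU _ (bigVN ι M) Ξ (t j f) (ht j f) (cc j f) (hcc j f) (htsa j f) (hccsa j f) (htn j f)
      (hccn j f)
  let s : F → ι → ℝ := fun f b => wv f b / √(D * μ b.1)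
  have hs1 : ∀ f i, s f i * √(μ' i) = wv f i / √D := by
    intro f i
    have h2 : 0 < √(μ i.1) := Real.sqrt_pos.2 (hμ _)
    simp only [s, μ']
    rw [Real.sqrt_mul hDpos.le]
    field_simp
  have hs2 : ∀ f i j, s f i * √(μ' i) * (s f j * √(μ' j)) = wv f i * wv f j / D := by
    intro f i j
    rw [hs1, hs1, div_mul_div_comm, Real.mul_self_sqrt hDpos.le]
  set Λχ : ℝ := ∑ m, 1 / (D * μ m) with hΛχ
  have hΛχ0 : 0 < Λχ := by
    have : Nonempty (Fin D) := ⟨⟨0, hD⟩⟩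
    exact Finset.sum_pos (fun m _ => by have := hμ m; positivity) Finset.univ_nonempty
  have hssq : ∀ f, ∑ b, s f b ^ 2 = Λχ := by
    intro f
    rw [hΛχ, ← sum_wv_sq f fun m => 1 / (D * μ m)]
    refine Finset.sum_congr rfl fun b _ => ?_
    have := hμ b.1
    simp only [s]
    rw [div_pow, Real.sq_sqrt (by positivity)]
    ring
  set n : ℕ := ⌈Λ * Λχ⌉₊ with hn
  have hn1 : 1 ≤ n := Nat.one_le_iff_ne_zero.2 (Nat.ceil_pos.2 (by positivity)).ne'
  have hnpos : (0 : ℝ) < n := by exact_mod_cast hn1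
  have hnΛ : Λ * Λχ ≤ n := Nat.le_ceil _
  have hnle : (n : ℝ) ≤ Λ * (Λχ + 1) := by
    have := Nat.ceil_lt_add_one (a := Λ * Λχ) (by positivity)
    nlinarith
  let U : J × F × Bool → (Amp ι (Amp ι H) →L[ℂ] Amp ι (Amp ι H)) := fun q =>
    if q.2.2 then u q.1 q.2.1 else star (u q.1 q.2.1)
  let U' : J × F × Bool → (Amp ι (Amp ι H) →L[ℂ] Amp ι (Amp ι H)) := fun q =>
    if q.2.2 then u' q.1 q.2.1 else star (u' q.1 q.2.1)
  let C : J × F × Bool → (Amp ι (Amp ι H) →L[ℂ] Amp ι (Amp ι H)) := fun q =>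
    rowOp i₀ (s q.2.1) (c q.1)
  let C' : J × F × Bool → (Amp ι (Amp ι H) →L[ℂ] Amp ι (Amp ι H)) := fun q =>
    rowOp i₀ (s q.2.1) (c' q.1)
  have hcard : (Fintype.card (J × F × Bool) : ℝ) = 2 * (Fintype.card F * Fintype.card J) := by
    simp only [Fintype.card_prod, Fintype.card_bool]; push_cast; ring
  have havg : ∀ c₀ : J → (H →L[ℂ] H), (∀ w, ∑ j, ‖c₀ j w‖ ^ 2 ≤ Fintype.card J * ‖w‖ ^ 2) →
      ∀ w, ∑ q : J × F × Bool, ‖rowOp i₀ (s q.2.1) (c₀ q.1) w‖ ^ 2 ≤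
        Fintype.card (J × F × Bool) * ‖w‖ ^ 2 := by
    intro c₀ h₀ w
    have := avg_rowOp hAvg hd hμ h1 hD i₀ c₀ h₀ w
    simp only [Fintype.sum_prod_type, Finset.sum_const, Finset.card_univ, Fintype.card_bool,
      nsmul_eq_mul, ← Finset.mul_sum, Nat.cast_ofNat]
    rw [hcard]
    linarith
  have herr : ∀ j f, ‖t j f Ξ - cc j f Ξ‖ ≤ √(2 * ρ) := by
    intro j f
    refine Real.le_sqrt_of_sq_le ((hterr j f).trans ?_)
    have h2 : ‖x j ξ‖ ≤ ‖ξ‖ :=
      ((x j).le_opNorm ξ).trans (by nlinarith [(hx j).2.2, norm_nonneg ξ])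
    have h3 : ‖x j ξ‖ ^ 2 ≤ 2 := (pow_le_pow_left₀ (norm_nonneg _) h2 2).trans hξ
    nlinarith
  -- entries of `t`
  have hent : ∀ j f, ∃ t₀ ∈ matVN ι M, t j f = diagOp ι t₀ ∧ ∀ i i',
      ent t₀ i i' ξ = ((wv f i * wv f i' / θ : ℝ) : ℂ) •
        cfc (gf k (μ i.1 / μ i'.1)) A (x j ξ) := by
    intro j f
    obtain ⟨t₀, ht₀, h⟩ := mem_diagVN.1 (ht j f)
    refine ⟨t₀, ht₀, h, fun i i' => ?_⟩
    have h2 := htΞ j f i' i
    rw [h, diagOp_bigVec] at h2
    have h3 : ((√(μ' i') : ℝ) : ℂ) ≠ 0 := by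
      exact_mod_cast (Real.sqrt_pos.2 (hμ' i')).ne'
    refine smul_right_injective H h3 ?_
    simp only
    rw [h2, smul_smul, ← Complex.ofReal_mul]
    congr 2
    ring
  have key := hA _ (bigVN ι M) (bigVN ι N) δ (√(2 * ρ)) (Λ * Λχ) Ξ (J × F × Bool) U U' C C' n
    hn1 hδ hδ1 (Real.sqrt_nonneg _) (by positivity) hΞn (hnear ι).1 (hnear ι).2
    (fun q => by
      simp only [U]
      split_ifs
      · exact ⟨hu _ _, huu _ _⟩
      · exact ⟨star_mem (hu _ _), Unitary.star_mem (huu _ _)⟩)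
    (fun q => by
      simp only [U']
      split_ifs
      · exact ⟨hu' _ _, hu'u _ _⟩
      · exact ⟨star_mem (hu' _ _), Unitary.star_mem (hu'u _ _)⟩)
    (fun q => ⟨rowOp_mem _ _ (hc _).1, rowOp_mem _ _ (hc _).2.1, rowOp_mem _ _ (hc _).2.2.1,
      rowOp_mem _ _ (hc _).2.2.2⟩)
    (havg c hs) (havg c' hs')
    (fun q w => by rw [← hssq q.2.1]; exact norm_rowOp_sq_le _ _ (hb _) w)
    (fun q w => by rw [← hssq q.2.1]; exact norm_rowOp_sq_le _ _ (hb' _) w)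
    (by
      simp only [Fintype.sum_prod_type, Fintype.sum_bool, U, U', if_true, Bool.false_eq_true,
        if_false]
      refine isSelfAdjoint_sum _ fun j _ => isSelfAdjoint_sum _ fun f _ => ?_
      have : star (u j f) * star (u' j f) = star (u j f * u' j f) := by
        rw [comm_of_mem (hu j f) (hu' j f), star_mul]
      rw [this]
      exact IsSelfAdjoint.add_star_self _)
    (fun q => by
      simp only [U, U']
      split_ifs
      · exact (hue _ _).trans (herr _ _)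
      · exact (hue' _ _).trans (herr _ _))
    (by
      intro y hy
      obtain ⟨Y, hY, rfl⟩ := mem_diagVN.1 hy
      simp only [Fintype.sum_prod_type, Fintype.sum_bool, U, C, C', if_true, Bool.false_eq_true,
        if_false, ← smul_add, husum]
      rw [Finset.sum_comm]
      refine Finset.sum_eq_zero fun f _ => ?_
      set yf : H →L[ℂ] H := ∑ i, ∑ i', ((wv f i * wv f i' / D : ℝ) : ℂ) • ent Y i i' with hyf
      have hyfN : yf ∈ N := sum_mem fun i _ => sum_mem fun i' _ =>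
        vn_smul_mem _ (mem_matVN.1 hY i i')
      have hγ : ∀ j, ⟪rowOp i₀ (s f) (c' j) Ξ, diagOp ι Y (rowOp i₀ (s f) (c j) Ξ)⟫_ℂ =
          ⟪c' j ξ, yf (c j ξ)⟫_ℂ := by
        intro j
        rw [hΞ, rowOp_pair]
        simp only [hs2, hyf, ContinuousLinearMap.sum_apply, ContinuousLinearMap.smul_apply,
          inner_sum, inner_smul_right]
        rfl
      simp only [hγ]
      set z := ∑ j, ⟪c' j ξ, yf (c j ξ)⟫_ℂ • t j f with hz
      have hzM : z ∈ bigVN ι M := sum_mem fun j _ => vn_smul_mem _ (ht j f)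
      have hz0 : z Ξ = 0 := by
        refine PiLp.ext fun a => PiLp.ext fun b => ?_
        have h2 := congrArg (fun T : H →L[ℂ] H => ((√(μ' a) * wv f b * wv f a / θ : ℝ) : ℂ) •
          cfc (gf k (μ' b / μ' a)) A (T ξ)) (hrel yf hyfN)
        simp only [ContinuousLinearMap.sum_apply, ContinuousLinearMap.smul_apply, map_sum,
          map_smul, ContinuousLinearMap.zero_apply, map_zero, smul_zero, Finset.smul_sum] at h2
        rw [hz, ContinuousLinearMap.sum_apply, amp_sum_apply, amp_sum_apply]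
        simp only [ContinuousLinearMap.smul_apply, PiLp.smul_apply, PiLp.zero_apply]
        rw [← h2]
        exact Finset.sum_congr rfl fun j _ => by rw [hΞ, htΞ, smul_comm]
      have h3 := hp f z hzM hz0
      rwa [hz, Finset.sum_mul, Finset.sum_congr rfl fun j _ => by
        rw [smul_mul_assoc, htp j f]] at h3)
  -- the value
  let φ : ℝ → ℝ := fun a => (∑ m, ∑ m', gf k (μ m / μ m') a) / (D * θ)
  have hcont : ∀ m m', ContinuousOn (gf k (μ m / μ m')) (Set.Icc 0 2) := fun m m' =>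
    continuousOn_gf k (div_pos (hμ m) (hμ m'))
  have hφc : ContinuousOn φ (Set.Icc 0 2) :=
    (continuousOn_finsetSum _ fun m _ => continuousOn_finsetSum _ fun m' _ => hcont m m').div_const _
  have hcfc : cfc φ A = (((D * θ)⁻¹ : ℝ) : ℂ) • ∑ m, ∑ m', cfc (gf k (μ m / μ m')) A := by
    have e1 : φ = fun a => (D * θ)⁻¹ • ∑ m, ∑ m', gf k (μ m / μ m') a := by
      funext a; simp only [φ, smul_eq_mul]; ring
    have hsp := hAD.spectrum_subset
    rw [e1, cfc_smul _ _ _ ((continuousOn_finsetSum _ fun m _ => continuousOn_finsetSum _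
      fun m' _ => hcont m m').mono hsp), Complex.coe_smul]
    congr 1
    rw [← Finset.sum_product', ← cfc_sum (fun q : Fin D × Fin D => gf k (μ q.1 / μ q.2)) _ _
      fun q _ => (hcont q.1 q.2).mono hsp]
    congr 1
    funext a
    simp [Fintype.sum_prod_type]
  have hval : ∀ j f, ⟪rowOp i₀ (s f) (c' j) Ξ, t j f (rowOp i₀ (s f) (c j) Ξ)⟫_ℂ =
      ⟪(star (c j) * c' j) ξ, cfc φ A (x j ξ)⟫_ℂ := by
    intro j f
    obtain ⟨t₀, ht₀, h, he⟩ := hent j f
    have h2 : ∀ i i', ⟪c' j ξ, ent t₀ i i' (c j ξ)⟫_ℂ = ((wv f i * wv f i' / θ : ℝ) : ℂ) *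
        ⟪(star (c j) * c' j) ξ, cfc (gf k (μ i.1 / μ i'.1)) A (x j ξ)⟫_ℂ := by
      intro i i'
      have h3 : ent t₀ i i' (c j ξ) = c j (ent t₀ i i' ξ) :=
        congrArg (fun T : H →L[ℂ] H => T ξ) (comm_of_mem (mem_matVN.1 ht₀ i i') (hc j).1)
      rw [h3, he, map_smul, inner_smul_right, ContinuousLinearMap.star_eq_adjoint,
        ContinuousLinearMap.mul_apply, ContinuousLinearMap.adjoint_inner_left]
    rw [h, hΞ, rowOp_pair, hcfc]
    simp only [hs2, h2, ContinuousLinearMap.sum_apply, ContinuousLinearMap.smul_apply,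
      inner_sum, inner_smul_right]
    set g : Fin D → Fin D → ℂ := fun m m' =>
      ⟪(star (c j) * c' j) ξ, cfc (gf k (μ m / μ m')) A (x j ξ)⟫_ℂ with hg
    have hre := sum_wv_sq₂ f fun m m' => (g m m').re
    have him := sum_wv_sq₂ f fun m m' => (g m m').im
    have h4 : ∑ i : ι, ∑ i' : ι, ((wv f i ^ 2 * wv f i' ^ 2 : ℝ) : ℂ) * g i.1 i'.1 =
        ∑ m, ∑ m', g m m' := by
      refine Complex.ext ?_ ?_
      · simpa only [Complex.re_sum, Complex.re_ofReal_mul] using hre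
      · simpa only [Complex.im_sum, Complex.im_ofReal_mul] using him
    rw [← h4, Finset.mul_sum]
    refine Finset.sum_congr rfl fun i _ => ?_
    rw [Finset.mul_sum]
    refine Finset.sum_congr rfl fun i' _ => ?_
    change _ * (_ * g i.1 i'.1) = _
    push_cast
    ring
  have hsum : ∑ q : J × F × Bool, ⟪C' q Ξ, U q (C q Ξ)⟫_ℂ =
      (Fintype.card F : ℂ) * ∑ j, ⟪(star (c j) * c' j) ξ, cfc φ A (x j ξ)⟫_ℂ := by
    have h2 : ∀ j f (v w : Amp ι (Amp ι H)),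
        ⟪v, u j f w⟫_ℂ + ⟪v, star (u j f) w⟫_ℂ = ⟪v, t j f w⟫_ℂ := fun j f v w => by
      rw [← husum j f, ← inner_add_right]; rfl
    simp only [Fintype.sum_prod_type, Fintype.sum_bool, U, C, C', if_true, Bool.false_eq_true,
      if_false, h2, hval, Finset.sum_const, Finset.card_univ, nsmul_eq_mul, Finset.mul_sum]
  have hne : √n * √(2 * ρ) ≤ ε₁ / 200 := by
    rw [← Real.sqrt_mul hnpos.le]
    refine Real.sqrt_le_iff.2 ⟨by positivity, ?_⟩
    rw [le_div_iff₀ (by positivity)] at hη0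
    have h2 : (n : ℝ) * ρ ≤ Λ * ((Λχ + 1) * ρ) := by rw [← mul_assoc]; gcongr
    have h3 : Λ * ((Λχ + 1) * ρ) ≤ Λ * η := by gcongr
    nlinarith
  have hmain : ‖∑ j, ⟪(star (c j) * c' j) ξ, cfc φ A (x j ξ)⟫_ℂ‖ ≤
      Fintype.card J * (400 * δ + ε₁) := by
    rw [hsum, norm_mul, Complex.norm_natCast, hcard] at key
    have h2 : Λ * Λχ / n ≤ 1 := (div_le_one hnpos).2 hnΛ
    have h3 : 100 * (δ * (1 + Λ * Λχ / n) + √n * √(2 * ρ)) ≤ 200 * δ + ε₁ / 2 := by nlinarith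
    refine le_of_mul_le_mul_left (key.trans ?_) hF
    calc _ ≤ 2 * (Fintype.card F * Fintype.card J) * (200 * δ + ε₁ / 2) := by gcongr
      _ = _ := by ring
  have hdiff : ‖∑ j, ⟪(star (c j) * c' j) ξ, cfc φ A (x j ξ)⟫_ℂ -
      ∑ j, ⟪c' j ξ, x j (c j ξ)⟫_ℂ‖ ≤ Fintype.card J * ε₁ := by
    rw [← Finset.sum_sub_distrib]
    refine (norm_sum_le _ _).trans ?_
    rw [← nsmul_eq_mul, ← Finset.card_univ]
    refine Finset.sum_le_card_nsmul _ _ _ fun j _ => ?_
    have h3 : x j (c j ξ) = c j (x j ξ) :=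
      congrArg (fun T : H →L[ℂ] H => T ξ) (comm_of_mem (hx j).1 (hc j).1)
    have h4 : ⟪c' j ξ, x j (c j ξ)⟫_ℂ = ⟪(star (c j) * c' j) ξ, x j ξ⟫_ℂ := by
      rw [h3, ContinuousLinearMap.star_eq_adjoint, ContinuousLinearMap.mul_apply,
        ContinuousLinearMap.adjoint_inner_left]
    rw [h4]
    exact hap j φ hφc hφ1 fun a ha => (hφ2 a ha).trans (hηle j)
  have hεJ : Fintype.card J * ε₁ * 2 = ε := by rw [hε₁]; field_simp
  calc _ ≤ ‖∑ j, ⟪(star (c j) * c' j) ξ, cfc φ A (x j ξ)⟫_ℂ‖ +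
        ‖∑ j, ⟪(star (c j) * c' j) ξ, cfc φ A (x j ξ)⟫_ℂ -
          ∑ j, ⟪c' j ξ, x j (c j ξ)⟫_ℂ‖ := norm_le_insert _ _
    _ ≤ _ := by nlinarith

end Crest.Agent.R78
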