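import Crest.Agent.R78.RvD

/-!
# Row 78: row operators of the catalyst
-/

set_option autoImplicit false
set_option linter.unusedSectionVars false

open scoped InnerProductSpace Matrix ComplexConjugate

noncomputable section

namespace Crest.Agent.R78

open Crest.Agent.R124

universe u

variable {H : Type u} [NormedAddCommGroup H] [InnerProductSpace ℂ H] [CompleteSpace H]
variable {ι : Type} [Fintype ι] [DecidableEq ι]

/-- The row operator `c ⊗ 1 ⊗ |e_{i₀}⟩⟨s|`. -/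
def rowOp (i₀ : ι) (s : ι → ℝ) (c : H →L[ℂ] H) : Amp ι (Amp ι H) →L[ℂ] Amp ι (Amp ι H) :=
  matOp (Matrix.of fun a b => if a = i₀ then ((s b : ℝ) : ℂ) • diagOp ι c else 0)

lemma rowOp_apply (i₀ : ι) (s : ι → ℝ) (c : H →L[ℂ] H) (v : Amp ι (Amp ι H)) :
    rowOp i₀ s c v = inj i₀ (∑ b, ((s b : ℝ) : ℂ) • diagOp ι c (v b)) := by
  refine PiLp.ext fun a => ?_
  rw [rowOp, matOp_apply, inj_apply]
  split_ifs with h
  · simp [h]
  · simp [h]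

lemma norm_rowOp_apply (i₀ : ι) (s : ι → ℝ) (c : H →L[ℂ] H) (v : Amp ι (Amp ι H)) :
    ‖rowOp i₀ s c v‖ = ‖∑ b, ((s b : ℝ) : ℂ) • diagOp ι c (v b)‖ := by
  rw [rowOp_apply, norm_inj_apply]

lemma rowOp_mem {M : VonNeumannAlgebra H} (i₀ : ι) (s : ι → ℝ) {c : H →L[ℂ] H}
    (hc : c ∈ M.commutant) : rowOp i₀ s c ∈ (bigVN ι M).commutant := by
  rw [bigVN, commutant_diagVN, commutant_matVN, rowOp, matOp_mem_matVN]
  intro a b
  rw [Matrix.of_apply]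
  split_ifs
  · exact vn_smul_mem _ (diagOp_mem_diagVN hc)
  · exact zero_mem _

lemma rowOp_sum_bigVec (s μ : ι → ℝ) (c : H →L[ℂ] H) (ξ : H) (i : ι) :
    (∑ b, ((s b : ℝ) : ℂ) • diagOp ι c (bigVec μ ξ b)) i =
      ((s i * √(μ i) : ℝ) : ℂ) • c ξ := by
  rw [amp_sum_apply, Finset.sum_eq_single i]
  · rw [PiLp.smul_apply, diagOp_apply, bigVec_apply, if_pos rfl, map_smul, smul_smul,
      Complex.ofReal_mul]
  · intro b _ hb
    simp [bigVec_apply, Ne.symm hb]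
  · simp

lemma rowOp_pair (i₀ : ι) (s μ : ι → ℝ) (c c' : H →L[ℂ] H) (ξ : H)
    (Y : Amp ι H →L[ℂ] Amp ι H) :
    ⟪rowOp i₀ s c' (bigVec μ ξ), diagOp ι Y (rowOp i₀ s c (bigVec μ ξ))⟫_ℂ =
      ∑ i, ∑ j, ((s i * √(μ i) * (s j * √(μ j)) : ℝ) : ℂ) * ⟪c' ξ, ent Y i j (c ξ)⟫_ℂ := by
  rw [rowOp_apply, rowOp_apply, inner_inj_left, diagOp_apply, inj_apply, if_pos rfl,
    PiLp.inner_apply]
  refine Finset.sum_congr rfl fun i _ => ?_
  conv_lhs => rw [← matOp_ent Y]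
  rw [matOp_apply, inner_sum]
  refine Finset.sum_congr rfl fun j _ => ?_
  rw [rowOp_sum_bigVec, rowOp_sum_bigVec, map_smul, inner_smul_left, inner_smul_right,
    Complex.conj_ofReal]
  push_cast
  ring

lemma diagOp_bigVec (μ : ι → ℝ) (ξ : H) (Y : Amp ι H →L[ℂ] Amp ι H) (j i : ι) :
    diagOp ι Y (bigVec μ ξ) j i = ((√(μ j) : ℝ) : ℂ) • ent Y i j ξ := by
  rw [diagOp_apply]
  conv_lhs => rw [← matOp_ent Y]
  rw [matOp_apply, Finset.sum_eq_single j]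
  · simp [bigVec_apply]
  · intro b _ hb
    simp [bigVec_apply, hb]
  · simp

lemma norm_sq_bigVec {μ : ι → ℝ} (hμ : ∀ i, 0 ≤ μ i) (ξ : H) :
    ‖bigVec μ ξ‖ ^ 2 = (∑ i, μ i) * ‖ξ‖ ^ 2 := by
  rw [amp_norm_sq, Finset.sum_mul]
  refine Finset.sum_congr rfl fun j _ => ?_
  rw [amp_norm_sq, Finset.sum_eq_single j]
  · rw [bigVec_apply, if_pos rfl, norm_smul, mul_pow, Complex.norm_real, Real.norm_eq_abs,
      sq_abs, Real.sq_sqrt (hμ j)]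
  · intro b _ hb
    simp [bigVec_apply, hb]
  · simp

lemma sum_norm_diagOp_le {J : Type} [Fintype J] (c : J → (H →L[ℂ] H)) {β : ℝ}
    (h : ∀ w, ∑ j, ‖c j w‖ ^ 2 ≤ β * ‖w‖ ^ 2) (v : Amp ι H) :
    ∑ j, ‖diagOp ι (c j) v‖ ^ 2 ≤ β * ‖v‖ ^ 2 := by
  simp only [amp_norm_sq, diagOp_apply]
  rw [Finset.sum_comm, Finset.mul_sum]
  exact Finset.sum_le_sum fun i _ => h _

lemma norm_diagOp_sq_le {c : H →L[ℂ] H} {β : ℝ}
    (h : ∀ w, ‖c w‖ ^ 2 ≤ β * ‖w‖ ^ 2) (v : Amp ι H) :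
    ‖diagOp ι c v‖ ^ 2 ≤ β * ‖v‖ ^ 2 := by
  simp only [amp_norm_sq, diagOp_apply]
  rw [Finset.mul_sum]
  exact Finset.sum_le_sum fun i _ => h _

lemma norm_rowOp_sq_le (i₀ : ι) (s : ι → ℝ) {c : H →L[ℂ] H} {β : ℝ}
    (h : ∀ w, ‖c w‖ ^ 2 ≤ β * ‖w‖ ^ 2) (v : Amp ι (Amp ι H)) :
    ‖rowOp i₀ s c v‖ ^ 2 ≤ β * (∑ b, s b ^ 2) * ‖v‖ ^ 2 := by
  rw [norm_rowOp_apply]
  have h1 : ‖∑ b, ((s b : ℝ) : ℂ) • diagOp ι c (v b)‖ ≤ ∑ b, |s b| * ‖diagOp ι c (v b)‖ := by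
    refine (norm_sum_le _ _).trans (le_of_eq (Finset.sum_congr rfl fun b _ => ?_))
    rw [norm_smul, Complex.norm_real, Real.norm_eq_abs]
  have h2 := Finset.sum_mul_sq_le_sq_mul_sq Finset.univ (fun b => |s b|)
    (fun b => ‖diagOp ι c (v b)‖)
  simp only [sq_abs] at h2
  have h3 : ∑ b, ‖diagOp ι c (v b)‖ ^ 2 ≤ β * ‖v‖ ^ 2 := by
    rw [amp_norm_sq v, Finset.mul_sum]
    exact Finset.sum_le_sum fun b _ => norm_diagOp_sq_le h _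
  calc _ ≤ (∑ b, |s b| * ‖diagOp ι c (v b)‖) ^ 2 := by gcongr
    _ ≤ (∑ b, s b ^ 2) * ∑ b, ‖diagOp ι c (v b)‖ ^ 2 := h2
    _ ≤ (∑ b, s b ^ 2) * (β * ‖v‖ ^ 2) := by gcongr
    _ = _ := by ring

section wv
variable {D : ℕ} {d : Fin D → ℕ}

lemma wv_cases (f : (m : Fin D) → Fin (d m) × Bool) (i : Σ m, Fin (d m)) :
    wv f i = 0 ∨ wv f i = 1 ∨ wv f i = -1 := by
  unfold wv
  split_ifs <;> simp

lemma sum_wv_sq (f : (m : Fin D) → Fin (d m) × Bool) (φ : Fin D → ℝ) :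
    ∑ i : Σ m, Fin (d m), wv f i ^ 2 * φ i.1 = ∑ m, φ m := by
  rw [Fintype.sum_sigma]
  refine Finset.sum_congr rfl fun m _ => ?_
  rw [Finset.sum_eq_single (f m).1]
  · simp only [wv, if_true]
    split_ifs <;> simp
  · intro b _ hb
    simp [wv, hb]
  · simp

lemma sum_wv_sq₂ (f : (m : Fin D) → Fin (d m) × Bool) (φ : Fin D → Fin D → ℝ) :
    ∑ i : Σ m, Fin (d m), ∑ j : Σ m, Fin (d m), wv f i ^ 2 * wv f j ^ 2 * φ i.1 j.1 =
      ∑ m, ∑ m', φ m m' := by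
  rw [← sum_wv_sq f fun m => ∑ m', φ m m']
  refine Finset.sum_congr rfl fun i _ => ?_
  rw [← sum_wv_sq f (φ i.1), Finset.mul_sum]
  exact Finset.sum_congr rfl fun j _ => by ring

lemma avg_rowOp (hAvg : AvgStmt.{u}) (hd : ∀ m, 0 < d m) {μ : Fin D → ℝ} (hμ : ∀ m, 0 < μ m)
    (h1 : ∀ m, 1 ≤ (D : ℝ) * d m * μ m) (hD : 0 < D) (i₀ : Σ m, Fin (d m)) {J : Type} [Fintype J]
    (c : J → (H →L[ℂ] H)) {β : ℝ} (h : ∀ w, ∑ j, ‖c j w‖ ^ 2 ≤ β * ‖w‖ ^ 2)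
    (v : Amp (Σ m, Fin (d m)) (Amp (Σ m, Fin (d m)) H)) :
    ∑ j, ∑ f : (m : Fin D) → Fin (d m) × Bool,
      ‖rowOp i₀ (fun b => wv f b / √(D * μ b.1)) (c j) v‖ ^ 2 ≤
      Fintype.card ((m : Fin D) → Fin (d m) × Bool) * (β * ‖v‖ ^ 2) := by
  have key : ∀ j, ∑ f : (m : Fin D) → Fin (d m) × Bool,
      ‖rowOp i₀ (fun b => wv f b / √(D * μ b.1)) (c j) v‖ ^ 2 ≤
      Fintype.card ((m : Fin D) → Fin (d m) × Bool) *
        ∑ b, ‖diagOp (Σ m, Fin (d m)) (c j) (v b)‖ ^ 2 := by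
    intro j
    have := hAvg (Amp (Σ m, Fin (d m)) H) D d hd
      fun b => (((√(D * μ b.1))⁻¹ : ℝ) : ℂ) • diagOp (Σ m, Fin (d m)) (c j) (v b)
    simp only [smul_smul, ← Complex.ofReal_mul, ← div_eq_mul_inv] at this
    simp only [norm_rowOp_apply]
    rw [this]
    gcongr with b
    have hpos : (0 : ℝ) < D * μ b.1 := mul_pos (by exact_mod_cast hD) (hμ _)
    have hdp : (0 : ℝ) < d b.1 := by exact_mod_cast hd _
    rw [norm_smul, mul_pow, Complex.norm_real, Real.norm_eq_abs, sq_abs, inv_pow,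
      Real.sq_sqrt hpos.le, div_le_iff₀ hdp, inv_mul_le_iff₀ hpos]
    nlinarith [h1 b.1, sq_nonneg ‖diagOp (Σ m, Fin (d m)) (c j) (v b)‖]
  refine (Finset.sum_le_sum fun j _ => key j).trans ?_
  rw [← Finset.mul_sum, Finset.sum_comm, amp_norm_sq v, Finset.mul_sum (a := β)]
  gcongr with b
  exact sum_norm_diagOp_le c h _

end wv

lemma tw_denom_pos {r a : ℝ} (hr : 0 < r) (ha : a ∈ Set.Icc (0 : ℝ) 2) : 0 < a + r * (2 - a) := by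
  rcases ha.1.eq_or_lt with h | h
  · rw [← h]; linarith
  · nlinarith [ha.2]

lemma continuousOn_gf (k : ℕ) {r : ℝ} (hr : 0 < r) : ContinuousOn (gf k r) (Set.Icc 0 2) := by
  have : ContinuousOn (tw r) (Set.Icc 0 2) :=
    ContinuousOn.div (by fun_prop) (by fun_prop) fun a ha => (tw_denom_pos hr ha).ne'
  exact (this.mul (continuousOn_const.sub this)).pow k

end Crest.Agent.R78
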