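import Crest.Agent.R78.FinTest
import Crest.Agent.R78.Test0
import Crest.Agent.R78.LemA
import Crest.Agent.R78.Block
import Crest.Agent.R78.Cat
import Crest.Agent.R78.RN
import Crest.Agent.R78.Entry
import Crest.Agent.R78.Ex
import Crest.Agent.R78.Small

/-!
# Row 78: the test inequality, assembled
-/

set_option autoImplicit false

namespace Crest.Agent.R78

universe u

theorem test0All : Test0Stmt.{u} :=
  test0 rvdEx (lemA rvdEx supp rn (twoPos rvdEx supp rn)) cat avg
    (block rvdEx supp entry (filt rvdEx supp rn dual)) unit approx

theorem testIneq : ∃ C : ℝ, Fin.TestIneq.{u} C := testIneq_of test0All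

end Crest.Agent.R78
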